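import Crest.Agent.NLib.Ell.SchAll0

/-!
# Interior Schauder estimates of all orders (helper8, task T6d)

`sch_radii` : any radii `0 < r < R ≤ 1`; `schAll : SchAllStmt`.
-/

set_option autoImplicit false
open Metric Set Filter Topology
open scoped ContDiff

namespace Crest.Agent.NLib.Ell

open Crest.Agent.R238.Sch Crest.Agent.R273.SchA_152 Crest.Agent.R273.SchD_152
open Crest.Agent.R273.SchB_152 (P2)
open Crest.Agent.R238 (Ell)
open Crest.Agent.R335 (pd)

noncomputable section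

variable {n : ℕ} {a lo hi M N S : ℝ} {U V : Set (EE n)} {k : ℕ}
  {τ : EE n → Matrix (Fin n) (Fin n) ℝ} {β : Fin n → EE n → ℝ} {c u f : EE n → ℝ}

theorem SchH.pred (h : SchH (k + 1) a lo hi M U τ β c u f N S) :
    SchH k a lo hi M U τ β c u f N S :=
  ⟨h.ell, fun i j => (h.hτ i j).pred, fun i => (h.hβ i).pred, h.hc.pred, h.hf.pred, h.hu, h.hS,
    h.eq⟩

theorem fderiv_sub_on {p q : EE n → ℝ} (hU : IsOpen U) (hp : ContDiffOn ℝ 2 p U)
    (hq : ContDiffOn ℝ 2 q U) {x : EE n} (hx : x ∈ U) :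
    fderiv ℝ (fun y => p y - q y) x = fderiv ℝ p x - fderiv ℝ q x :=
  fderiv_fun_sub ((hp.differentiableOn (by norm_num)).differentiableAt (hU.mem_nhds hx))
    ((hq.differentiableOn (by norm_num)).differentiableAt (hU.mem_nhds hx))

theorem D2_sub_on {p q : EE n → ℝ} (hU : IsOpen U) (hp : ContDiffOn ℝ 2 p U)
    (hq : ContDiffOn ℝ 2 q U) {x : EE n} (hx : x ∈ U) :
    D2 (fun y => p y - q y) x = D2 p x - D2 q x := by
  have e : fderiv ℝ (fun y => p y - q y) =ᶠ[𝓝 x] fun y => fderiv ℝ p y - fderiv ℝ q y :=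
    eventually_of_mem (hU.mem_nhds hx) fun y hy => fderiv_sub_on hU hp hq hy
  have hd : ∀ {p : EE n → ℝ}, ContDiffOn ℝ 2 p U → DifferentiableAt ℝ (fderiv ℝ p) x := fun hp =>
    ((hp.fderiv_of_isOpen hU (m := 1) (by norm_num)).differentiableOn
      (by norm_num)).differentiableAt (hU.mem_nhds hx)
  unfold D2
  rw [e.fderiv_eq, fderiv_fun_sub (hd hp) (hd hq)]

theorem D2_translate (u : EE n → ℝ) (v x : EE n) : D2 (fun y => u (y + v)) x = D2 u (x + v) := by
  have e : fderiv ℝ (fun y => u (y + v)) = fun y => fderiv ℝ u (y + v) := by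
    funext y; exact fderiv_comp_add_right v
  unfold D2
  rw [e, fderiv_comp_add_right]

/-- the equation for finite differences -/
theorem SchH.dq {x0 v : EE n} {r r' R K : ℝ} (ha : 0 < a) (ha1 : a ≤ 1) (hv : r + ‖v‖ ≤ r')
    (hR : r' ≤ R) (h : SchH (k + 1) a lo hi M (ball x0 R) τ β c u f N S)
    (hu : CKA a (ball x0 r') (k + 2) K u) :
    ∃ g, SchH k a lo hi M (ball x0 r) τ β c (fun x => u (x + v) - u x) g
      ((n * N + (n * n + n + 1) * (2 ^ (k + 1) * (n * M * K))) * ‖v‖) (n * K * ‖v‖) := by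
  have hrr : ball x0 r ⊆ ball x0 r' := ball_subset_ball (by linarith [norm_nonneg v])
  have hrR : ball x0 r ⊆ ball x0 R := hrr.trans (ball_subset_ball hR)
  have hvr : ball x0 r ⊆ (fun x => x + v) ⁻¹' ball x0 r' := fun x hx => by
    rw [mem_ball, dist_eq_norm] at hx
    rw [mem_preimage, mem_ball, dist_eq_norm, add_sub_right_comm]
    linarith [norm_add_le (x - x0) v]
  have hvR : r + ‖v‖ ≤ R := hv.trans hR
  have hB : IsOpen (ball x0 r) := isOpen_ball
  have tr : ∀ {j : ℕ} {w : EE n → ℝ}, CKA a (ball x0 r') j K w →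
      CKA a (ball x0 r) j K fun x => w (x + v) := fun hw =>
    (hw.translate isOpen_ball ha.le ha1 v).subset hvr
  have h1 := CKA.sum_le hB fun i => CKA.sum_le hB fun j =>
    ((h.hτ i j).dq hvR).mul hB (tr (hu.D2_entry isOpen_ball i j))
  have h2 := CKA.sum_le hB fun i => ((h.hβ i).dq hvR).mul hB (tr (hu.pd i).pred)
  have h3 := (h.hc.dq hvR).mul hB (tr hu.pred.pred)
  rw [Fintype.card_fin] at h1 h2
  have p2 := (tr (hu.of_le (j := 2) (by omega))).contDiffOn_two hB ha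
  have q2 := ((hu.of_le (j := 2) (by omega)).subset hrr).contDiffOn_two hB ha
  refine ⟨_, fun x hx => h.ell x (hrR hx), fun i j => (h.hτ i j).pred.subset hrR,
    fun i => (h.hβ i).pred.subset hrR, h.hc.pred.subset hrR,
    ((((h.hf.dq hvR).sub hB h1).sub hB h2).sub hB h3).mono (le_of_eq (by ring)),
    ⟨_, (tr (hu.of_le (by omega))).sub hB ((hu.of_le (by omega)).subset hrr)⟩,
    fun x hx => (hu.dq hv).bdd hx, fun x hx => ?_⟩
  have e1 := h.eq x (hrR hx)
  have e2 := h.eq (x + v) (ball_subset_ball hR (hvr hx))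
  simp only [P2, pd] at e1 e2 ⊢
  rw [D2_sub_on hB p2 q2 hx, fderiv_sub_on hB p2 q2 hx, D2_translate, fderiv_comp_add_right,
    ← e1, ← e2]
  simp only [_root_.sub_apply, mul_sub, sub_mul, Finset.sum_sub_distrib]
  ring

theorem sch_radii (n k : ℕ) {a lo hi : ℝ} (ha : 0 < a) (ha1 : a < 1) (hlo : 0 < lo)
    (hlohi : lo ≤ hi) (M : ℝ) {r R : ℝ} (hr : 0 < r) (hrR : r < R) (hR : R ≤ 1) :
    ∃ C : ℝ, 0 < C ∧ ∀ (x0 : EE n) (τ : EE n → Matrix (Fin n) (Fin n) ℝ) (β : Fin n → EE n → ℝ)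
      (c u f : EE n → ℝ) (N S : ℝ), SchH k a lo hi M (ball x0 R) τ β c u f N S →
      CKA a (ball x0 r) (k + 2) (C * (N + S)) u := by
  induction k generalizing r R with
  | zero => exact sch_zero n ha ha1 hlo hlohi M hr hrR hR
  | succ k ih =>
    obtain ⟨C1, hC1, H1⟩ := ih (r := (r + 2 * R) / 3) (R := R) (by linarith) (by linarith) hR
    obtain ⟨C3, hC3, H3⟩ := ih (r := r) (R := (2 * r + R) / 3) hr (by linarith) (by linarith)
    set D : ℝ := n + ((n * n + n + 1) * (2 ^ (k + 1) * (n * |M|)) + n) * C1 with hD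
    have hD0 : 0 ≤ D := by positivity
    refine ⟨C1 + C3 * D, by positivity, fun x0 τ β c u f N S h => ?_⟩
    have hx0 : x0 ∈ ball x0 R := mem_ball_self (by linarith)
    have hN : 0 ≤ N := h.hf.nonneg hx0
    have hS : 0 ≤ S := (abs_nonneg _).trans (h.hS x0 hx0)
    have hM : 0 ≤ M := h.hc.nonneg hx0
    have hu := H1 x0 τ β c u f N S h.pred
    have hu' := hu.subset (ball_subset_ball (by linarith) : ball x0 r ⊆ _)
    have p1 : 0 ≤ C1 * (N + S) := by positivity
    have p2 : 0 ≤ C3 * D * (N + S) := by positivity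
    refine ⟨hu'.ho.mono (by linarith), hu'.diff, fun i => ?_⟩
    refine (CKA.of_dq (M := C3 * D * (N + S)) isOpen_ball ha hu'.diff ?_).mono (by linarith)
    have hev : ∀ᶠ t in 𝓝[>] (0 : ℝ), t < (R - r) / 3 :=
      mem_nhdsWithin_of_mem_nhds (gt_mem_nhds (by linarith))
    filter_upwards [hev, self_mem_nhdsWithin] with t ht ht0
    have ht0' : (0 : ℝ) < t := ht0
    have hn : ‖t • (ei i : EE n)‖ = t := by
      rw [norm_smul, norm_ei, Real.norm_of_nonneg ht0'.le, mul_one]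
    obtain ⟨g, hg⟩ := h.dq (v := t • ei i) (r := (2 * r + R) / 3) ha ha1.le
      (by rw [hn]; linarith) (by linarith) hu
    refine (H3 x0 τ β c _ g _ _ hg).mono ?_
    have p3 : 0 ≤ C3 * (n * S * t) := by positivity
    rw [hn, hD, abs_of_nonneg hM]
    linarith

theorem schAll : SchAllStmt := by
  intro n k a lo hi M R ha ha1 hlo hlohi hR hR1
  obtain ⟨C, hC, H⟩ := sch_radii n k ha ha1 hlo hlohi M (r := R / 2) (R := R) (by linarith)
    (by linarith) hR1
  exact ⟨C, hC, fun x0 τ β c u f N S h1 h2 h3 h4 h5 h6 h7 h8 =>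
    H x0 τ β c u f N S ⟨h1, h2, h3, h4, h5, h6, h7, h8⟩⟩

end

end Crest.Agent.NLib.Ell
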