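import Crest.Agent.NLib.Ell.CKA

/-!
# Calculus of the classes `CKA`, part 2 (helper8, task T6c)

`CKA.of_local` (uniform small balls ⇒ the set), `CKA.dq` (finite differences), `CKA.taylor`,
`CKA.limit` (closed under pointwise limits), `CKA.of_dq`, `comp : CompStmt`,
`ckaDict : CKADictStmt`.
-/

set_option autoImplicit false
open Metric Set Filter Topology
open scoped ContDiff

namespace Crest.Agent.NLib.Ell

open Crest.Agent.R273.SchA_152

noncomputable section

variable {n : ℕ} {F G : Type} [NormedAddCommGroup F] [NormedSpace ℝ F] [NormedAddCommGroup G]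
  [NormedSpace ℝ G] {a M N : ℝ} {U V : Set (EE n)} {k : ℕ} {f g : EE n → F}

theorem ho_of_balls {X Y : Type*} [NormedAddCommGroup X] [NormedAddCommGroup Y] {s : Set X}
    {f : X → Y} {δ : ℝ} (ha : 0 ≤ a) (ha1 : a ≤ 1) (hδ : 0 < δ) (hδ1 : δ ≤ 1)
    (h : ∀ x ∈ s, HO a M (ball x δ) f) : HO a (2 / δ * M) s f := by
  have h2 : 1 ≤ 2 / δ := by rw [le_div_iff₀ hδ]; linarith
  refine ⟨fun x hx => ?_, fun x hx y hy => ?_⟩
  · have h1 := (h x hx).bdd x (mem_ball_self hδ)
    exact h1.trans (le_mul_of_one_le_left ((norm_nonneg _).trans h1) h2)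
  have hM : 0 ≤ M := (h x hx).nonneg (mem_ball_self hδ)
  have hp : 0 ≤ ‖x - y‖ ^ a := Real.rpow_nonneg (norm_nonneg _) _
  rcases lt_or_ge ‖x - y‖ δ with hl | hl
  · have h1 := (h x hx).hol x (mem_ball_self hδ) y (by rwa [mem_ball, dist_comm, dist_eq_norm])
    exact h1.trans (mul_le_mul_of_nonneg_right (le_mul_of_one_le_left hM h2) hp)
  · have h3 : δ ≤ ‖x - y‖ ^ a := by
      calc δ = δ ^ (1 : ℝ) := (Real.rpow_one δ).symm
        _ ≤ δ ^ a := Real.rpow_le_rpow_of_exponent_ge hδ hδ1 ha1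
        _ ≤ _ := Real.rpow_le_rpow hδ.le hl ha
    have h4 := (h x hx).bdd x (mem_ball_self hδ)
    have h5 := (h y hy).bdd y (mem_ball_self hδ)
    calc ‖f x - f y‖ ≤ 2 * M := (norm_sub_le _ _).trans (by linarith)
      _ = 2 / δ * M * δ := by field_simp
      _ ≤ _ := mul_le_mul_of_nonneg_left h3 (by positivity)

/-- bounded and Lipschitz implies Hölder -/
theorem ho_of_lip {X Y : Type*} [NormedAddCommGroup X] [NormedAddCommGroup Y] {s : Set X}
    {f : X → Y} (ha : 0 ≤ a) (ha1 : a ≤ 1) (h0 : ∀ x ∈ s, ‖f x‖ ≤ M)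
    (h1 : ∀ x ∈ s, ∀ y ∈ s, ‖f x - f y‖ ≤ M * ‖x - y‖) : HO a (2 * M) s f := by
  refine ⟨fun x hx => ?_, fun x hx y hy => ?_⟩
  · have := (norm_nonneg _).trans (h0 x hx)
    linarith [h0 x hx]
  have hM : 0 ≤ M := (norm_nonneg _).trans (h0 x hx)
  have hp : 0 ≤ ‖x - y‖ ^ a := Real.rpow_nonneg (norm_nonneg _) _
  rcases le_total ‖x - y‖ 1 with hl | hl
  · have h3 : ‖x - y‖ ≤ ‖x - y‖ ^ a := by
      rcases (norm_nonneg (x - y)).eq_or_lt with h | h
      · rw [← h]; exact Real.rpow_nonneg le_rfl a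
      · calc ‖x - y‖ = ‖x - y‖ ^ (1 : ℝ) := (Real.rpow_one _).symm
          _ ≤ _ := Real.rpow_le_rpow_of_exponent_ge h hl ha1
    have h4 := mul_le_mul_of_nonneg_left h3 hM
    have h5 := mul_nonneg hM hp
    linarith [h1 x hx y hy]
  · have h3 : 1 ≤ ‖x - y‖ ^ a := Real.one_le_rpow hl ha
    have h4 := mul_le_mul_of_nonneg_left h3 hM
    have h5 := norm_sub_le (f x) (f y)
    linarith [h0 x hx, h0 y hy]

theorem hasDerivAt_line {x v : EE n} {t : ℝ} (h : DifferentiableAt ℝ f (x + t • v)) :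
    HasDerivAt (fun s : ℝ => f (x + s • v)) (fderiv ℝ f (x + t • v) v) t := by
  have h1 : HasDerivAt (fun s : ℝ => x + s • v) v t := by
    simpa using ((hasDerivAt_id t).smul_const v).const_add x
  exact h.hasFDerivAt.comp_hasDerivAt t h1

namespace CKA

theorem of_local {δ : ℝ} (ha : 0 ≤ a) (ha1 : a ≤ 1) (hδ : 0 < δ) (hδ1 : δ ≤ 1)
    (h : ∀ x ∈ V, CKA a (ball x δ) k M f) : CKA a V k (2 / δ * M) f := by
  induction k generalizing f with
  | zero => exact ho_of_balls ha ha1 hδ hδ1 h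
  | succ k ih =>
    exact ⟨ho_of_balls ha ha1 hδ hδ1 fun x hx => (h x hx).1, fun x hx =>
      ((h x hx).diffAt isOpen_ball (mem_ball_self hδ)).differentiableWithinAt,
      fun i => ih fun x hx => (h x hx).pd i⟩

/-- finite differences, in terms of the directional derivative -/
theorem dq_dir (hU : IsOpen U) (hV : IsOpen V) {v : EE n}
    (hseg : ∀ x ∈ V, ∀ t ∈ Icc (0 : ℝ) 1, x + t • v ∈ U) (h : CKA a U (k + 1) M f) :
    CKA a V k (n * M * ‖v‖) fun x => f (x + v) - f x := by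
  have hx0 : ∀ x ∈ V, x ∈ U := fun x hx => by simpa using hseg x hx 0 (by simp)
  have hx1 : ∀ x ∈ V, x + v ∈ U := fun x hx => by simpa using hseg x hx 1 (by simp)
  have h0 : ∀ {f : EE n → F}, CKA a U 1 M f →
      HO a (n * M * ‖v‖) V fun x => f (x + v) - f x := fun {f} h => by
    have hD : HO a (n * M) U (_root_.fderiv ℝ f) := h.fderiv hU
    have hl : ∀ x ∈ V, ∀ t ∈ Icc (0 : ℝ) 1, HasDerivAt (fun s : ℝ => f (x + s • v))
        (_root_.fderiv ℝ f (x + t • v) v) t := fun x hx t ht =>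
      hasDerivAt_line (h.diffAt hU (hseg x hx t ht))
    refine ⟨fun x hx => ?_, fun x hx y hy => ?_⟩
    · have := norm_image_sub_le_of_norm_deriv_le_segment_01' (C := n * M * ‖v‖)
        (fun t ht => (hl x hx t ht).hasDerivWithinAt) fun t ht =>
          (ContinuousLinearMap.le_opNorm _ _).trans (mul_le_mul_of_nonneg_right
            (hD.bdd _ (hseg x hx t (Ico_subset_Icc_self ht))) (norm_nonneg _))
      simpa using this
    · have := norm_image_sub_le_of_norm_deriv_le_segment_01' (C := n * M * ‖v‖ * ‖x - y‖ ^ a)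
        (fun t ht => ((hl x hx t ht).sub (hl y hy t ht)).hasDerivWithinAt) fun t ht => by
          rw [← _root_.sub_apply]
          have h1 := hD.hol _ (hseg x hx t (Ico_subset_Icc_self ht)) _
            (hseg y hy t (Ico_subset_Icc_self ht))
          rw [add_sub_add_right_eq_sub] at h1
          refine (ContinuousLinearMap.le_opNorm _ _).trans ?_
          calc _ ≤ _ := mul_le_mul_of_nonneg_right h1 (norm_nonneg v)
            _ = _ := by ring
      simp only [Pi.sub_apply, one_smul, zero_smul, add_zero] at this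
      have e : f (x + v) - f x - (f (y + v) - f y) = f (x + v) - f (y + v) - (f x - f y) := by abel
      rwa [e]
  have hd : ∀ {f : EE n → F} {x : EE n}, DifferentiableAt ℝ f (x + v) →
      HasFDerivAt (fun x => f (x + v)) (_root_.fderiv ℝ f (x + v)) x := fun {f x} h => by
    have := h.hasFDerivAt.comp x ((hasFDerivAt_id x).add_const v)
    rw [ContinuousLinearMap.comp_id] at this
    exact this
  induction k generalizing f with
  | zero => exact h0 h
  | succ k ih =>
    refine ⟨h0 (h.of_le (by omega)), fun x hx => ?_, fun i => ?_⟩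
    · exact ((hd (h.diffAt hU (hx1 x hx))).differentiableAt.sub
        (h.diffAt hU (hx0 x hx))).differentiableWithinAt
    · refine (ih (h.pd i)).congr hV fun x hx => ?_
      have := ((hd (h.diffAt hU (hx1 x hx))).sub (h.diffAt hU (hx0 x hx)).hasFDerivAt).fderiv
      have e : (fun x => f (x + v) - f x) = (fun x => f (x + v)) - f := rfl
      rw [e, this]
      rfl

/-- finite differences on concentric balls -/
theorem dq {x0 v : EE n} {r R : ℝ} (hv : r + ‖v‖ ≤ R) (h : CKA a (ball x0 R) (k + 1) M f) :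
    CKA a (ball x0 r) k (n * M * ‖v‖) fun x => f (x + v) - f x := by
  refine dq_dir isOpen_ball isOpen_ball (fun x hx t ht => ?_) h
  rw [mem_ball, dist_eq_norm] at hx ⊢
  have e : x + t • v - x0 = (x - x0) + t • v := by abel
  have h1 : ‖t • v‖ ≤ ‖v‖ := by
    rw [norm_smul, Real.norm_of_nonneg ht.1]
    exact mul_le_of_le_one_left (norm_nonneg _) ht.2
  rw [e]
  linarith [norm_add_le (x - x0) (t • v)]

/-- first order Taylor estimate -/
theorem taylor (hU : IsOpen U) (ha : 0 ≤ a) (h : CKA a U 1 M f) {x v : EE n} {η : ℝ}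
    (hη : ball x η ⊆ U) (hv : ‖v‖ < η) :
    ‖f (x + v) - f x - _root_.fderiv ℝ f x v‖ ≤ n * M * ‖v‖ ^ a * ‖v‖ := by
  have hD : HO a (n * M) U (_root_.fderiv ℝ f) := h.fderiv hU
  have hx : x ∈ closedBall x ‖v‖ := mem_closedBall_self (norm_nonneg _)
  have hs : closedBall x ‖v‖ ⊆ U := (closedBall_subset_ball hv).trans hη
  have := (convex_closedBall x ‖v‖).norm_image_sub_le_of_norm_fderiv_le' (f := f)
    (φ := _root_.fderiv ℝ f x) (C := n * M * ‖v‖ ^ a) (fun w hw => h.diffAt hU (hs hw))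
    (fun w hw => (hD.hol w (hs hw) x (hs hx)).trans (mul_le_mul_of_nonneg_left
      (Real.rpow_le_rpow (norm_nonneg _) (by simpa [dist_eq_norm] using hw) ha)
      (hD.nonneg (hs hx)))) hx (y := x + v) (by simp)
  simpa using this

/-- **`CKA` is closed under pointwise limits**, and the partial derivatives converge. -/
theorem limit_one [CompleteSpace F] {ι : Type*} {l : Filter ι} [l.NeBot] (hU : IsOpen U)
    (ha : 0 < a) {u : ι → EE n → F} (h : ∀ᶠ j in l, CKA a U 1 M (u j))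
    (hf : ∀ x ∈ U, Tendsto (fun j => u j x) l (𝓝 (f x))) {x : EE n} (hx : x ∈ U) :
    DifferentiableAt ℝ f x ∧
      ∀ v, Tendsto (fun j => _root_.fderiv ℝ (u j) x v) l (𝓝 (_root_.fderiv ℝ f x v)) := by
  obtain ⟨η, hη, hηU⟩ := Metric.isOpen_iff.1 hU x hx
  have hM : 0 ≤ M := by
    obtain ⟨j, hj⟩ := h.exists
    exact hj.nonneg hx
  have hsm : Tendsto (fun t : ℝ => t ^ a) (𝓝 0) (𝓝 0) := by
    have := (Real.continuousAt_rpow_const 0 a (Or.inr ha.le)).tendsto
    rwa [Real.zero_rpow ha.ne'] at this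
  have hc : ∀ i, ∃ D, Tendsto (fun j => _root_.fderiv ℝ (u j) x (ei i)) l (𝓝 D) := fun i => by
    refine cauchy_iff_exists_le_nhds.1 (Metric.cauchy_iff.2 ⟨inferInstance, fun ε hε => ?_⟩)
    obtain ⟨t, ht0, htη, hta⟩ : ∃ t : ℝ, 0 < t ∧ t < η ∧ n * M * t ^ a < ε / 4 := by
      have h1 : ∀ᶠ t : ℝ in 𝓝 0, n * M * t ^ a < ε / 4 :=
        (hsm.const_mul (n * M)).eventually (gt_mem_nhds (by simpa using hε))
      have h2 : ∀ᶠ t : ℝ in 𝓝 0, t < η := gt_mem_nhds hη
      obtain ⟨t, ⟨h3, h4⟩, h5⟩ := (((h1.and h2).filter_mono nhdsWithin_le_nhds).and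
        (self_mem_nhdsWithin (s := Ioi (0 : ℝ)))).exists
      exact ⟨t, h5, h4, h3⟩
    have hn : ‖t • (ei i : EE n)‖ = t := by rw [norm_smul, norm_ei, Real.norm_of_nonneg ht0.le, mul_one]
    have hy : x + t • ei i ∈ U := hηU (by simpa [hn] using htη)
    have h1 : Tendsto (fun j => t⁻¹ • (u j (x + t • ei i) - u j x)) l
        (𝓝 (t⁻¹ • (f (x + t • ei i) - f x))) := ((hf _ hy).sub (hf _ hx)).const_smul _
    refine ⟨ball (t⁻¹ • (f (x + t • ei i) - f x)) (ε / 2), ?_, fun p hp q hq => ?_⟩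
    · rw [mem_map]
      filter_upwards [h, Metric.tendsto_nhds.1 h1 (ε / 4) (by positivity)] with j hj h2
      have h3 := hj.taylor hU ha.le hηU (v := t • ei i) (by rwa [hn])
      rw [hn, map_smul] at h3
      have h4 : dist (_root_.fderiv ℝ (u j) x (ei i)) (t⁻¹ • (u j (x + t • ei i) - u j x))
          ≤ n * M * t ^ a := by
        have e : t⁻¹ • (u j (x + t • ei i) - u j x) - _root_.fderiv ℝ (u j) x (ei i) =
            t⁻¹ • (u j (x + t • ei i) - u j x - t • _root_.fderiv ℝ (u j) x (ei i)) := by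
          rw [smul_sub t⁻¹ _ (t • _), smul_smul, inv_mul_cancel₀ ht0.ne', one_smul]
        rw [dist_comm, dist_eq_norm, e, norm_smul, norm_inv, Real.norm_of_nonneg ht0.le,
          inv_mul_le_iff₀ ht0]
        linarith
      rw [mem_preimage, mem_ball]
      linarith [dist_triangle (_root_.fderiv ℝ (u j) x (ei i))
        (t⁻¹ • (u j (x + t • ei i) - u j x)) (t⁻¹ • (f (x + t • ei i) - f x))]
    · rw [mem_ball] at hp hq
      linarith [dist_triangle_right p q (t⁻¹ • (f (x + t • ei i) - f x))]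
  choose D hD using hc
  set T : EE n →L[ℝ] F :=
    ∑ i, ContinuousLinearMap.smulRightL ℝ (EE n) F (EuclideanSpace.proj i) (D i) with hT
  have hTv : ∀ v, Tendsto (fun j => _root_.fderiv ℝ (u j) x v) l (𝓝 (T v)) := fun v => by
    have e : ∀ j, _root_.fderiv ℝ (u j) x v = ∑ i, v i • _root_.fderiv ℝ (u j) x (ei i) :=
      fun j => by
        conv_lhs => rw [clm_eq_sum (_root_.fderiv ℝ (u j) x)]
        simp
    have e' : T v = ∑ i, v i • D i := by simp [hT]
    simp only [e, e']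
    exact tendsto_finsetSum _ fun i _ => (hD i).const_smul _
  have hfd : HasFDerivAt f T x := by
    rw [hasFDerivAt_iff_isLittleO_nhds_zero, Asymptotics.isLittleO_iff]
    intro c hc
    have h1 : ∀ᶠ v : EE n in 𝓝 0, n * M * ‖v‖ ^ a < c := by
      have h2 : Tendsto (fun v : EE n => ‖v‖) (𝓝 0) (𝓝 0) := tendsto_norm_zero
      exact ((hsm.comp h2).const_mul (n * M)).eventually (gt_mem_nhds (by simpa using hc))
    filter_upwards [h1, ball_mem_nhds (0 : EE n) hη] with v hv1 hv2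
    rw [mem_ball, dist_zero_right] at hv2
    have hy : x + v ∈ U := hηU (by simpa using hv2)
    have h3 : ‖f (x + v) - f x - T v‖ ≤ n * M * ‖v‖ ^ a * ‖v‖ :=
      le_of_tendsto (((hf _ hy).sub (hf _ hx)).sub (hTv v)).norm
        (h.mono fun j hj => hj.taylor hU ha.le hηU hv2)
    exact h3.trans (mul_le_mul_of_nonneg_right hv1.le (norm_nonneg _))
  exact ⟨hfd.differentiableAt, fun v => by rw [hfd.fderiv]; exact hTv v⟩

theorem limit [CompleteSpace F] {ι : Type*} {l : Filter ι} [l.NeBot] (hU : IsOpen U)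
    (ha : 0 < a) {u : ι → EE n → F} (h : ∀ᶠ j in l, CKA a U k M (u j))
    (hf : ∀ x ∈ U, Tendsto (fun j => u j x) l (𝓝 (f x))) : CKA a U k M f := by
  have h0 : ∀ {f : EE n → F} {u : ι → EE n → F}, (∀ᶠ j in l, HO a M U (u j)) →
      (∀ x ∈ U, Tendsto (fun j => u j x) l (𝓝 (f x))) → HO a M U f := fun h hf =>
    ⟨fun x hx => le_of_tendsto (hf x hx).norm (h.mono fun j hj => hj.bdd x hx),
      fun x hx y hy => le_of_tendsto ((hf x hx).sub (hf y hy)).norm
        (h.mono fun j hj => hj.hol x hx y hy)⟩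
  induction k generalizing f u with
  | zero => exact h0 h hf
  | succ k ih =>
    have h1 : ∀ᶠ j in l, CKA a U 1 M (u j) := h.mono fun j hj => hj.of_le (by omega)
    exact ⟨h0 (h.mono fun j hj => hj.1) hf, fun x hx =>
      (limit_one hU ha h1 hf hx).1.differentiableWithinAt, fun i =>
      ih (h.mono fun j hj => hj.pd i) fun x hx => (limit_one hU ha h1 hf hx).2 _⟩

/-- uniformly bounded difference quotients bound the directional derivative -/
theorem of_dq [CompleteSpace F] (hU : IsOpen U) (ha : 0 < a) (hd : DifferentiableOn ℝ f U)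
    {v : EE n} (h : ∀ᶠ t in 𝓝[>] (0 : ℝ), CKA a U k (M * t) fun x => f (x + t • v) - f x) :
    CKA a U k M fun x => _root_.fderiv ℝ f x v := by
  refine limit (l := 𝓝[>] (0 : ℝ)) (u := fun t x => t⁻¹ • (f (x + t • v) - f x)) hU ha ?_ ?_
  · filter_upwards [h, self_mem_nhdsWithin] with t ht ht0
    refine (ht.smul hU t⁻¹).mono (le_of_eq ?_)
    have : (0 : ℝ) < t := ht0
    rw [abs_of_pos (inv_pos.2 this)]
    field_simp
  · intro x hx
    have h1 : HasDerivAt (fun s : ℝ => f (x + s • v)) (_root_.fderiv ℝ f (x + (0 : ℝ) • v) v) 0 :=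
      hasDerivAt_line (by simpa using hd.differentiableAt (hU.mem_nhds hx))
    have h2 := h1.tendsto_slope_zero_right
    simpa using h2

end CKA

/-! ### composition with smooth maps -/

theorem comp : CompStmt := by
  intro n k a M ha ha1 F G _ _ _ _ _ Φ W K hW hK hKW hΦ
  have h0 : ∀ (G : Type) [NormedAddCommGroup G] [NormedSpace ℝ G] (Φ : F → G),
      ContDiffOn ℝ ∞ Φ W → ∃ C : ℝ, ∀ (U : Set (EE n)) (f : EE n → F), (∀ x ∈ U, f x ∈ K) →
        HO a M U f → HO a C U fun x => Φ (f x) := by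
    intro G _ _ Φ hΦ
    obtain ⟨B, hB⟩ := hK.exists_bound_of_continuousOn (hΦ.continuousOn.mono hKW)
    have hloc : LocallyLipschitzOn K Φ := fun y hy => by
      obtain ⟨L, t, ht, hL⟩ := ((hΦ.contDiffAt (hW.mem_nhds (hKW hy))).of_le
        (m := 1) (by exact_mod_cast le_top)).exists_lipschitzOnWith
      exact ⟨L, t, mem_nhdsWithin_of_mem_nhds ht, hL⟩
    obtain ⟨L, hL⟩ := hloc.exists_lipschitzOnWith_of_compact hK
    refine ⟨max B (L * M), fun U f hf h => ⟨fun x hx => (hB _ (hf x hx)).trans (le_max_left _ _),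
      fun x hx y hy => ?_⟩⟩
    have h1 := hL.norm_sub_le (hf x hx) (hf y hy)
    have h2 := mul_le_mul_of_nonneg_left (h.hol x hx y hy) L.coe_nonneg
    have h3 := mul_le_mul_of_nonneg_right (le_max_right B (L * M))
      (Real.rpow_nonneg (norm_nonneg (x - y)) a)
    linarith
  induction k generalizing G with
  | zero =>
    obtain ⟨C, hC⟩ := h0 G Φ hΦ
    exact ⟨C, fun U f _ hf h => hC U f hf h⟩
  | succ k ih =>
    obtain ⟨C, hC⟩ := h0 G Φ hΦ
    obtain ⟨hd, hΦ'⟩ := (contDiffOn_infty_iff_fderiv_of_isOpen hW).1 hΦ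
    obtain ⟨C', hC'⟩ := ih (F →L[ℝ] G) (fderiv ℝ Φ) hΦ'
    refine ⟨max C (2 ^ (k + 1) * (C' * M)), fun U f hU hf h => ?_⟩
    have hdx : ∀ x ∈ U, DifferentiableAt ℝ Φ (f x) := fun x hx =>
      hd.differentiableAt (hW.mem_nhds (hKW (hf x hx)))
    refine ⟨(hC U f hf h.1).mono (le_max_left _ _), fun x hx =>
      ((hdx x hx).comp x (h.diffAt hU hx)).differentiableWithinAt, fun i => ?_⟩
    refine ((((hC' U f hU hf h.pred).app hU (h.pd i))).congr hU fun x hx => ?_).mono
      (le_max_right _ _)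
    rw [fderiv_fun_comp x (hdx x hx) (h.diffAt hU hx)]
    rfl

/-! ### dictionary with `iteratedFDeriv` -/

theorem ho_iso {X Y Z : Type*} [NormedAddCommGroup X] [NormedAddCommGroup Y]
    [NormedAddCommGroup Z] {s : Set X} {f : X → Y} {g : X → Z} (h0 : ∀ x, ‖g x‖ = ‖f x‖)
    (h1 : ∀ x y, ‖g x - g y‖ = ‖f x - f y‖) : HO a M s g ↔ HO a M s f :=
  ⟨fun h => ⟨fun x hx => h0 x ▸ h.bdd x hx, fun x hx y hy => h1 x y ▸ h.hol x hx y hy⟩,
    fun h => ⟨fun x hx => (h0 x).symm ▸ h.bdd x hx,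
      fun x hx y hy => (h1 x y).symm ▸ h.hol x hx y hy⟩⟩

theorem ho_iter_zero : HO a M U (iteratedFDeriv ℝ 0 f) ↔ HO a M U f :=
  ho_iso (fun _ => norm_iteratedFDeriv_zero) fun x y => by
    rw [iteratedFDeriv_zero_eq_comp, Function.comp_apply, Function.comp_apply, ← map_sub,
      LinearIsometryEquiv.norm_map]

theorem ho_iter_succ {j : ℕ} :
    HO a M U (iteratedFDeriv ℝ (j + 1) f) ↔ HO a M U (iteratedFDeriv ℝ j (fderiv ℝ f)) :=
  ho_iso (fun _ => norm_iteratedFDeriv_fderiv.symm) fun x y => by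
    rw [iteratedFDeriv_succ_eq_comp_right, iteratedFDeriv_succ_eq_comp_right, Function.comp_apply,
      Function.comp_apply, ← LinearIsometryEquiv.map_sub, LinearIsometryEquiv.norm_map]

theorem CKA.ho_iter (hU : IsOpen U) {j : ℕ} (h : CKA a U j M f) :
    HO a (n ^ j * M) U (iteratedFDeriv ℝ j f) := by
  induction j generalizing F M with
  | zero => simpa [ho_iter_zero] using h.ho
  | succ j ih =>
    rw [ho_iter_succ]
    exact (ih (h.fderiv hU)).mono (le_of_eq (by ring))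

theorem CKA.of_iter (hU : IsOpen U) (hf : ContDiffOn ℝ k f U)
    (h : ∀ j ≤ k, HO a M U (iteratedFDeriv ℝ j f)) : CKA a U k M f := by
  induction k generalizing F with
  | zero => exact ho_iter_zero.1 (h 0 le_rfl)
  | succ k ih =>
    rw [Nat.cast_succ, contDiffOn_succ_iff_fderiv_of_isOpen hU] at hf
    exact CKA.of_fderiv hU (ho_iter_zero.1 (h 0 (by omega))) hf.1
      (ih hf.2.2 fun j hj => ho_iter_succ.1 (h (j + 1) (by omega)))

theorem CKA.of_bounds (hU : IsOpen U) (hc : Convex ℝ U) (ha : 0 ≤ a) (ha1 : a ≤ 1)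
    (hf : ContDiffOn ℝ (k + 1 : ℕ) f U)
    (h : ∀ j ≤ k + 1, ∀ x ∈ U, ‖iteratedFDeriv ℝ j f x‖ ≤ M) : CKA a U k (2 * M) f := by
  have h0 : ∀ {F : Type} [NormedAddCommGroup F] [NormedSpace ℝ F] {f : EE n → F},
      DifferentiableOn ℝ f U → (∀ j ≤ 1, ∀ x ∈ U, ‖iteratedFDeriv ℝ j f x‖ ≤ M) →
      HO a (2 * M) U f := fun {F} _ _ {f} hd h =>
    ho_of_lip ha ha1 (fun x hx => by simpa using h 0 (by omega) x hx) fun x hx y hy =>
      hc.norm_image_sub_le_of_norm_fderiv_le (fun w hw => hd.differentiableAt (hU.mem_nhds hw))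
        (fun w hw => by simpa [norm_iteratedFDeriv_one] using h 1 le_rfl w hw) hy hx
  induction k generalizing F with
  | zero => exact h0 (hf.differentiableOn (by simp)) h
  | succ k ih =>
    rw [Nat.cast_succ, contDiffOn_succ_iff_fderiv_of_isOpen hU] at hf
    refine CKA.of_fderiv hU (h0 hf.1 fun j hj => h j (by omega)) hf.1 (ih hf.2.2 fun j hj x hx => ?_)
    rw [norm_iteratedFDeriv_fderiv]
    exact h (j + 1) (by omega) x hx

theorem ckaDict : CKADictStmt := by
  intro n k a ha ha1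
  have h1 : (1 : ℝ) ≤ ((n : ℝ) + 1) ^ k := one_le_pow₀ (by simp)
  refine ⟨2 * ((n : ℝ) + 1) ^ k, by linarith, fun F _ _ U f M hU =>
    ⟨fun h => ⟨h.contDiffOn hU ha, fun j hj => ?_⟩, CKA.of_iter hU, fun hc hf h => ?_⟩⟩
  · rcases U.eq_empty_or_nonempty with rfl | ⟨x, hx⟩
    · exact ho_empty _
    refine ((h.of_le hj).ho_iter hU).mono (mul_le_mul_of_nonneg_right ?_ (h.nonneg hx))
    calc (n : ℝ) ^ j ≤ ((n : ℝ) + 1) ^ j := pow_le_pow_left₀ (by positivity) (by linarith) j
      _ ≤ ((n : ℝ) + 1) ^ k := pow_le_pow_right₀ (by simp) hj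
      _ ≤ _ := by linarith
  · refine (CKA.of_bounds hU hc ha.le ha1 hf h).mono' fun h0 => ?_
    nlinarith

end

end Crest.Agent.NLib.Ell
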