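import Crest.Agent.NLib.Ell.Shapes

/-!
# Arzelà-Ascoli theorems (helper16)

`aa_seq` (countably many equicontinuous sequences at once), `arzela`, `arzela2`.
-/

set_option autoImplicit false
open MeasureTheory Metric Set Filter Topology
open scoped ContDiff

namespace Crest.Agent.NLib.Ell

open Crest.Agent.R238.Sch Crest.Agent.R273.SchA_152 Crest.Agent.R273.SchD_152

noncomputable section

section AA

variable {X F : Type} [TopologicalSpace X] [NormedAddCommGroup F]

/-- continuous maps with a pointwise bound and a modulus of continuity -/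
def aaSet (B : X → ℝ) (w : X → X → ℝ) : Set C(X, F) :=
  {g | (∀ x, ‖g x‖ ≤ B x) ∧ ∀ x y, ‖g x - g y‖ ≤ w x y}

theorem continuous_of_modulus {w : X → X → ℝ} (hw : ∀ x, Tendsto (w x) (𝓝 x) (𝓝 0))
    {g : X → F} (hg : ∀ x y, ‖g x - g y‖ ≤ w x y) : Continuous g := by
  rw [continuous_iff_continuousAt]
  intro x
  rw [ContinuousAt, tendsto_iff_norm_sub_tendsto_zero]
  refine squeeze_zero (fun _ => norm_nonneg _) (fun y => ?_) (hw x)
  rw [norm_sub_rev]; exact hg x y

theorem isCompact_aaSet [ProperSpace F] (B : X → ℝ) {w : X → X → ℝ}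
    (hw : ∀ x, Tendsto (w x) (𝓝 x) (𝓝 0)) : IsCompact (aaSet (F := F) B w) := by
  refine ArzelaAscoli.isCompact_of_equicontinuous _ ?_ ?_
  · have e : ContinuousMap.toFun '' aaSet (F := F) B w =
        (Set.pi univ fun x => closedBall (0 : F) (B x)) ∩
          ⋂ x, ⋂ y, {g : X → F | ‖g x - g y‖ ≤ w x y} := by
      ext g
      simp only [mem_image, mem_inter_iff, Set.mem_pi, mem_univ, true_imp_iff, mem_closedBall,
        dist_zero_right, mem_iInter, mem_setOf_eq]
      constructor
      · rintro ⟨h, hh, rfl⟩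
        exact hh
      · rintro ⟨h1, h2⟩
        exact ⟨⟨g, continuous_of_modulus hw h2⟩, ⟨h1, h2⟩, rfl⟩
    rw [e]
    refine (isCompact_univ_pi fun x => isCompact_closedBall _ _).inter_right ?_
    refine isClosed_iInter fun x => isClosed_iInter fun y => isClosed_le ?_ continuous_const
    exact ((continuous_apply x).sub (continuous_apply y)).norm
  · intro x
    rw [Metric.equicontinuousAt_iff_right]
    intro ε hε
    filter_upwards [(hw x).eventually (gt_mem_nhds hε)] with y hy g
    rw [dist_eq_norm]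
    exact (g.2.2 x y).trans_lt hy

end AA

/-- Arzelà-Ascoli for countably many sequences at once. -/
theorem aa_seq {X : Type} [TopologicalSpace X] [LocallyCompactSpace X] [SecondCountableTopology X]
    {J : Type} [Countable J] {F : J → Type} [∀ j, NormedAddCommGroup (F j)]
    [∀ j, ProperSpace (F j)] (g : ∀ j, ℕ → X → F j) (B : J → X → ℝ) (w : J → X → X → ℝ)
    (hw : ∀ j x, Tendsto (w j x) (𝓝 x) (𝓝 0)) (hB : ∀ j k x, ‖g j k x‖ ≤ B j x)
    (hg : ∀ j k x y, ‖g j k x - g j k y‖ ≤ w j x y) :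
    ∃ (ψ : ℕ → ℕ) (G : ∀ j, X → F j), StrictMono ψ ∧ (∀ j, Continuous (G j)) ∧
      ∀ j, TendstoLocallyUniformly (fun k => g j (ψ k)) (G j) atTop := by
  have hc : IsCompact (Set.pi univ fun j => aaSet (F := F j) (B j) (w j)) :=
    isCompact_univ_pi fun j => isCompact_aaSet _ (hw j)
  let u : ℕ → ∀ j, C(X, F j) := fun k j => ⟨g j k, continuous_of_modulus (hw j) (hg j k)⟩
  obtain ⟨G, -, ψ, hψ, hl⟩ := hc.tendsto_subseq (x := u) fun k j _ => ⟨hB j k, hg j k⟩
  refine ⟨ψ, fun j => G j, hψ, fun j => (G j).continuous, fun j => ?_⟩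
  have h1 : Tendsto (fun k => u (ψ k) j) atTop (𝓝 (G j)) := (continuous_apply j).tendsto G |>.comp hl
  exact ContinuousMap.tendsto_iff_tendstoLocallyUniformly.1 h1

theorem tlu_tendsto {X F : Type} [TopologicalSpace X] [UniformSpace F] {g : ℕ → X → F} {G : X → F}
    (h : TendstoLocallyUniformly g G atTop) (x : X) : Tendsto (fun k => g k x) atTop (𝓝 (G x)) :=
  (tendstoLocallyUniformlyOn_univ.2 h).tendsto_at (mem_univ x)

/-- limits of derivatives -/
theorem hasFDerivAt_of_tlu {X F : Type} [NormedAddCommGroup X] [NormedSpace ℝ X]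
    [NormedAddCommGroup F] [NormedSpace ℝ F] {g : ℕ → X → F} {G : X → F} {G' : X → X →L[ℝ] F}
    (hd : ∀ k, Differentiable ℝ (g k)) (h : ∀ x, Tendsto (fun k => g k x) atTop (𝓝 (G x)))
    (h' : TendstoLocallyUniformly (fun k => fderiv ℝ (g k)) G' atTop) (x : X) :
    HasFDerivAt G (G' x) x :=
  hasFDerivAt_of_tendstoLocallyUniformlyOn isOpen_univ (tendstoLocallyUniformlyOn_univ.2 h')
    (fun k y _ => (hd k y).hasFDerivAt) (fun y _ => h y) (mem_univ x)

/-- Hölder bounds pass to pointwise limits -/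
theorem ho_of_tendsto {X F : Type} [NormedAddCommGroup X] [NormedAddCommGroup F] {a M : ℝ}
    {s : Set X} {g : ℕ → X → F} {G : X → F} (hg : ∀ k, HO a M s (g k))
    (h : ∀ x ∈ s, Tendsto (fun k => g k x) atTop (𝓝 (G x))) : HO a M s G where
  bdd x hx := le_of_tendsto' (h x hx).norm fun k => (hg k).bdd x hx
  hol x hx y hy := le_of_tendsto' ((h x hx).sub (h y hy)).norm fun k => (hg k).hol x hx y hy

theorem tendsto_holder {X : Type} [NormedAddCommGroup X] {a : ℝ} (ha : 0 < a) (M : ℝ) (x : X) :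
    Tendsto (fun y => M * ‖x - y‖ ^ a) (𝓝 x) (𝓝 0) := by
  have h2 : Continuous fun y : X => M * ‖x - y‖ ^ a :=
    continuous_const.mul ((continuous_norm.comp (continuous_const.sub continuous_id)).rpow_const
      fun _ => Or.inr ha.le)
  simpa [Real.zero_rpow ha.ne'] using h2.tendsto x

theorem arzela2 : Arzela2Stmt := by
  intro n a M ha f hf hC
  obtain ⟨ψ, G, hψ, hG, hl⟩ := aa_seq (J := Unit)
    (F := fun _ => ℝ × (EE n →L[ℝ] ℝ) × (EE n →L[ℝ] EE n →L[ℝ] ℝ))
    (fun _ k x => (f k x, fderiv ℝ (f k) x, D2 (f k) x)) (fun _ _ => M)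
    (fun _ x y => M * ‖x - y‖ ^ a) (fun _ x => tendsto_holder ha M x)
    (fun _ k x => by
      simp only [Prod.norm_def, max_le_iff]
      exact ⟨(hC k).h0.bdd x trivial, (hC k).h1.bdd x trivial, (hC k).h2.bdd x trivial⟩)
    (fun _ k x y => by
      simp only [Prod.mk_sub_mk, Prod.norm_def, max_le_iff]
      exact ⟨(hC k).h0.hol x trivial y trivial, (hC k).h1.hol x trivial y trivial,
        (hC k).h2.hol x trivial y trivial⟩)
  have l0 : TendstoLocallyUniformly (fun k => f (ψ k)) (fun x => (G () x).1) atTop :=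
    uniformContinuous_fst.comp_tendstoLocallyUniformly (hl ())
  have l1 : TendstoLocallyUniformly (fun k => fderiv ℝ (f (ψ k))) (fun x => (G () x).2.1) atTop :=
    (uniformContinuous_fst.comp uniformContinuous_snd).comp_tendstoLocallyUniformly (hl ())
  have l2 : TendstoLocallyUniformly (fun k => D2 (f (ψ k))) (fun x => (G () x).2.2) atTop :=
    (uniformContinuous_snd.comp uniformContinuous_snd).comp_tendstoLocallyUniformly (hl ())
  have d1 := hasFDerivAt_of_tlu (fun k => (hf (ψ k)).differentiable (by norm_num))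
    (tlu_tendsto l0) l1
  have d2 := hasFDerivAt_of_tlu (g := fun k => fderiv ℝ (f (ψ k)))
    (fun k => ((hf (ψ k)).fderiv_right (m := 1) (by norm_num)).differentiable (by norm_num))
    (tlu_tendsto l1) l2
  have e1 : fderiv ℝ (fun x => (G () x).1) = fun x => (G () x).2.1 :=
    funext fun x => (d1 x).fderiv
  have e2 : D2 (fun x => (G () x).1) = fun x => (G () x).2.2 := by
    funext x; unfold D2; rw [e1]; exact (d2 x).fderiv
  have c2 : ContDiff ℝ 2 fun x => (G () x).1 := by
    rw [show (2 : WithTop ℕ∞) = 1 + 1 from rfl, contDiff_succ_iff_fderiv]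
    refine ⟨fun x => (d1 x).differentiableAt, by simp, ?_⟩
    rw [e1, contDiff_one_iff_fderiv]
    refine ⟨fun x => (d2 x).differentiableAt, ?_⟩
    have : (fderiv ℝ fun x => (G () x).2.1) = fun x => (G () x).2.2 := funext fun x => (d2 x).fderiv
    rw [this]
    exact (hG ()).snd.snd
  refine ⟨ψ, fun x => (G () x).1, hψ, c2, ⟨?_, ?_, ?_⟩, l0, e1 ▸ l1, e2 ▸ l2⟩
  · exact ho_of_tendsto (fun k => (hC (ψ k)).h0) fun x _ => tlu_tendsto l0 x
  · rw [e1]; exact ho_of_tendsto (fun k => (hC (ψ k)).h1) fun x _ => tlu_tendsto l1 x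
  · show HO a M univ (D2 fun x => (G () x).1)
    rw [e2]; exact ho_of_tendsto (fun k => (hC (ψ k)).h2) fun x _ => tlu_tendsto l2 x

theorem finite_cml (n j : ℕ) (F : Type) [NormedAddCommGroup F] [NormedSpace ℝ F]
    [FiniteDimensional ℝ F] : FiniteDimensional ℝ (EE n [×j]→L[ℝ] F) := by
  induction j with
  | zero =>
    exact (continuousMultilinearCurryFin0 ℝ (EE n) F).symm.toLinearEquiv.finiteDimensional
  | succ j ih =>
    exact (continuousMultilinearCurryLeftEquiv ℝ (fun _ : Fin (j + 1) => EE n)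
      F).symm.toLinearEquiv.finiteDimensional

theorem arzela : ArzelaStmt := by
  intro n F _ _ _ f hf hb
  choose C hC using hb
  haveI : ∀ j, FiniteDimensional ℝ (EE n [×j]→L[ℝ] F) := fun j => finite_cml n j F
  haveI : ∀ j, ProperSpace (EE n [×j]→L[ℝ] F) := fun j => FiniteDimensional.proper_real _
  have hd : ∀ j k, Differentiable ℝ (iteratedFDeriv ℝ j (f k)) := fun j k =>
    (hf k).differentiable_iteratedFDeriv (by exact_mod_cast ENat.coe_lt_top j)
  have hB : ∀ j k x, ‖iteratedFDeriv ℝ j (f k) x‖ ≤ C j (‖x‖ + 1) := fun j k x =>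
    hC j _ k x (by simp)
  obtain ⟨ψ, G, hψ, hG, hl⟩ := aa_seq (J := ℕ) (F := fun j => EE n [×j]→L[ℝ] F)
    (fun j k => iteratedFDeriv ℝ j (f k)) (fun j x => C j (‖x‖ + 1))
    (fun j x y => if ‖x - y‖ < 1 then C (j + 1) (‖x‖ + 1) * ‖x - y‖ ^ (1 : ℝ)
      else C j (‖x‖ + 1) + C j (‖y‖ + 1))
    (fun j x => by
      refine (tendsto_holder one_pos (C (j + 1) (‖x‖ + 1)) x).congr' ?_
      filter_upwards [ball_mem_nhds x one_pos] with y hy
      rw [if_pos (by rwa [mem_ball', dist_eq_norm] at hy)])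
    hB
    (fun j k x y => by
      split_ifs with h
      · rw [Real.rpow_one]
        refine (convex_ball (0 : EE n) (‖x‖ + 1)).norm_image_sub_le_of_norm_fderiv_le
          (fun z _ => hd j k z) (fun z hz => ?_) ?_ (by simp)
        · rw [norm_fderiv_iteratedFDeriv]; exact hC _ _ k z hz
        · rw [mem_ball_zero_iff]
          have := norm_sub_norm_le y x
          rw [norm_sub_rev] at this
          linarith
      · exact (norm_sub_le _ _).trans (add_le_add (hB j k x) (hB j k y)))
  have hT : HasFTaylorSeriesUpTo ∞ (fun x => (G 0 x).curry0) (fun x j => G j x) := by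
    refine ⟨fun _ => rfl, fun m _ x => ?_, fun m _ => hG m⟩
    refine hasFDerivAt_of_tlu (g := fun k => iteratedFDeriv ℝ m (f (ψ k)))
      (G' := fun x => (G (m + 1) x).curryLeft) (fun k => hd m _) (tlu_tendsto (hl m)) ?_ x
    exact (continuousMultilinearCurryLeftEquiv ℝ (fun _ : Fin (m + 1) => EE n)
      F).isometry.uniformContinuous.comp_tendstoLocallyUniformly (hl (m + 1))
  refine ⟨ψ, fun x => (G 0 x).curry0, hψ, hT.contDiff, fun j => ?_⟩
  have e : iteratedFDeriv ℝ j (fun x => (G 0 x).curry0) = G j :=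
    funext fun x => (hT.eq_iteratedFDeriv (by exact_mod_cast le_top) x).symm
  rw [e]
  exact hl j

end

end Crest.Agent.NLib.Ell
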