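import Crest.Agent.NLib.Ell.Solve0
import Crest.Agent.R238.MaxPOY
import Crest.Agent.R238.MaxPMat

/-!
# Omori-Yau points, interpolation, maximum principle (helper16)
-/

set_option autoImplicit false
open MeasureTheory Metric Set Filter Topology
open scoped ContDiff

namespace Crest.Agent.NLib.Ell

open Crest.Agent.R238.Sch Crest.Agent.R273.SchA_152 Crest.Agent.R273.SchD_152
open Crest.Agent.R273.SchB_152 (P2)
open Crest.Agent.R238 (Ell)

noncomputable section

variable {n : ℕ}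

theorem fderiv_quad (c : ℝ) (x0 y : EE n) :
    fderiv ℝ (fun y : EE n => c * ‖y + -x0‖ ^ 2) y = (2 * c) • innerSL ℝ (y + -x0) := by
  have h := R238.MaxP.fderiv_radial (E := EE n) (F := fun t => c * t) (F1 := fun _ => c)
    fun t _ => by simpa using (hasDerivAt_id t).const_mul c
  rw [fderiv_comp_add_right (f := fun y : EE n => c * ‖y‖ ^ 2) (-x0), h]

theorem D2_quad (c : ℝ) (x0 y v : EE n) :
    D2 (fun y : EE n => c * ‖y + -x0‖ ^ 2) y v v = 2 * c * ‖v‖ ^ 2 := by
  rw [D2_comp_add (fun y : EE n => c * ‖y‖ ^ 2) (-x0)]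
  have h := R238.MaxP.fderiv_fderiv_radial (E := EE n) (F := fun t => c * t) (F1 := fun _ => c)
    (F2 := fun _ => 0) (fun t _ => by simpa using (hasDerivAt_id t).const_mul c)
    (fun t _ => hasDerivAt_const t c) (y + -x0) v v
  unfold D2
  rw [h, real_inner_self_eq_norm_sq]
  ring

theorem oy : OYStmt := by
  intro n z x0 M δ ρ hρ hz hM h0
  obtain ⟨W, u, hW, hRW, -, hu, he⟩ := exists_ext hρ isOpen_ball
    (closedBall_subset_ball (by linarith)) hz
  have hδ : 0 < δ := by linarith [hM x0 (mem_closedBall_self hρ.le)]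
  set c := -(δ / ρ ^ 2) with hc
  have hq : ContDiff ℝ 2 fun y : EE n => c * ‖y + -x0‖ ^ 2 :=
    contDiff_const.mul ((contDiff_norm_sq ℝ).comp (contDiff_id.add contDiff_const))
  have hw := hu.add hq
  obtain ⟨x, hx, hmax⟩ := (isCompact_closedBall x0 ρ).exists_isMaxOn
    ⟨x0, mem_closedBall_self hρ.le⟩ hw.continuous.continuousOn
  have h1 : z x0 ≤ z x + c * ‖x - x0‖ ^ 2 := by
    have := hmax (mem_closedBall_self hρ.le)
    simp only [mem_setOf_eq, add_neg_cancel, norm_zero] at this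
    rw [he x (hRW hx), he x0 (hRW (mem_closedBall_self hρ.le)), ← sub_eq_add_neg] at this
    simpa using this
  have hx' : ‖x - x0‖ ≤ ρ := by rwa [mem_closedBall, dist_eq_norm] at hx
  have hlt : ‖x - x0‖ < ρ := by
    refine lt_of_le_of_ne hx' fun h => ?_
    rw [h, hc] at h1
    have : δ / ρ ^ 2 * ρ ^ 2 = δ := by field_simp
    linarith [hM x hx]
  have hloc : IsLocalMax (fun y => u y + c * ‖y + -x0‖ ^ 2) x :=
    hmax.isLocalMax (closedBall_mem_nhds_of_mem (by rwa [mem_ball, dist_eq_norm]))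
  have hev : u =ᶠ[𝓝 x] z := eventually_of_mem (hW.mem_nhds (hRW hx)) he
  have hc0 : 0 ≤ δ / ρ ^ 2 := by positivity
  refine ⟨x, hlt, ?_, ?_, fun v => ?_⟩
  · have : 0 ≤ δ / ρ ^ 2 * ‖x - x0‖ ^ 2 := by positivity
    rw [hc] at h1
    linarith
  · have h2 := hloc.fderiv_eq_zero
    rw [fderiv_add_fun hu hq] at h2
    simp only [fderiv_quad] at h2
    rw [← hev.fderiv_eq, eq_neg_of_add_eq_zero_left h2, norm_neg, norm_smul, innerSL_apply_norm,
      ← sub_eq_add_neg, hc, Real.norm_eq_abs, mul_neg, abs_neg, abs_of_nonneg (by positivity)]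
    calc 2 * (δ / ρ ^ 2) * ‖x - x0‖ ≤ 2 * (δ / ρ ^ 2) * ρ := by gcongr
      _ = 2 * δ / ρ := by field_simp
  · have h2 : D2 (fun y => u y + c * ‖y + -x0‖ ^ 2) x v v ≤ 0 :=
      R238.MaxP.second_deriv_nonpos_of_isLocalMax hw hloc v
    rw [D2_add_fun hu hq, add_apply, add_apply, D2_quad, D2_congr_open hW he (hRW hx), hc] at h2
    have : 2 * δ / ρ ^ 2 * ‖v‖ ^ 2 = 2 * (δ / ρ ^ 2) * ‖v‖ ^ 2 := by ring
    linarith

theorem interp : InterpStmt := by
  intro n F _ _ z x r M0 M2 hr hz h0 h2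
  have hsub : closedBall x r ⊆ ball x (2 * r) := closedBall_subset_ball (by linarith)
  have hc : ∀ y ∈ closedBall x r, ContDiffAt ℝ 2 z y := fun y hy =>
    hz.contDiffAt (isOpen_ball.mem_nhds (hsub hy))
  have hx : x ∈ closedBall x r := mem_closedBall_self hr.le
  have hM0 : 0 ≤ M0 := (norm_nonneg _).trans (h0 x hx)
  have hM2 : 0 ≤ M2 := le_trans (norm_nonneg (fderiv ℝ (fderiv ℝ z) x)) (h2 x hx)
  have hL : ∀ y ∈ closedBall x r, ‖fderiv ℝ z y - fderiv ℝ z x‖ ≤ M2 * r := fun y hy =>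
    ((convex_closedBall x r).norm_image_sub_le_of_norm_fderiv_le (f := fderiv ℝ z)
      (fun w hw => ((hc w hw).fderiv_right (m := 1) (by norm_num)).differentiableAt one_ne_zero)
      h2 hx hy).trans (mul_le_mul_of_nonneg_left (by rwa [mem_closedBall, dist_eq_norm] at hy) hM2)
  have := opNorm_le_of_sphere (fderiv ℝ z x) (C := 2 * M0 + M2 * r * r) hr (by positivity)
    fun e he => by
      have hy : x + e ∈ closedBall x r := by simp [he]
      have h3 := (convex_closedBall x r).norm_image_sub_le_of_norm_fderiv_le'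
        (fun w hw => (hc w hw).differentiableAt (by norm_num)) hL hx hy
      rw [add_sub_cancel_left, he] at h3
      have h4 := (norm_sub_le (z (x + e)) (z x)).trans (add_le_add (h0 _ hy) (h0 _ hx))
      have h5 := norm_sub_norm_le (fderiv ℝ z x e) (z (x + e) - z x)
      rw [norm_sub_rev (fderiv ℝ z x e)] at h5
      linarith
  refine this.trans (le_of_eq ?_)
  field_simp

theorem bilin_eq_sum (B : EE n →L[ℝ] EE n →L[ℝ] ℝ) (v w : EE n) :
    B v w = ∑ i, ∑ j, B (ee i) (ee j) * v i * w j := by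
  have h : ∀ u : EE n, u = ∑ i, u i • (ee i : EE n) := fun u => by
    simpa [ee] using ((EuclideanSpace.basisFun (Fin n) ℝ).sum_repr u).symm
  conv_lhs => rw [h v, h w]
  simp only [map_sum, map_smul, ContinuousLinearMap.sum_apply, ContinuousLinearMap.smul_apply,
    smul_eq_mul, Finset.mul_sum]
  rw [Finset.sum_comm]
  exact Finset.sum_congr rfl fun i _ => Finset.sum_congr rfl fun j _ => by ring

theorem ell_diag_le {lo hi : ℝ} {A : Matrix (Fin n) (Fin n) ℝ} (hA : Ell lo hi A) (i : Fin n) :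
    A i i ≤ hi := by
  simpa [Pi.single_apply] using (hA.2 (Pi.single i 1)).2

/-- `A : B ≤ ε n hi` if `0 ≤ A ≤ hi` and `B ≤ ε` -/
theorem contr_le {lo hi ε : ℝ} (hlo : 0 ≤ lo) (hε : 0 ≤ ε) {A : Matrix (Fin n) (Fin n) ℝ}
    (hA : Ell lo hi A) (B : EE n →L[ℝ] EE n →L[ℝ] ℝ) (hs : ∀ v w, B v w = B w v)
    (hB : ∀ v, B v v ≤ ε * ‖v‖ ^ 2) : ∑ i, ∑ j, A i j * B (ee i) (ee j) ≤ ε * (n * hi) := by
  have hP : A.PosSemidef := by
    apply Matrix.PosSemidef.of_dotProduct_mulVec_nonneg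
    · rw [Matrix.IsHermitian, Matrix.conjTranspose_eq_transpose_of_trivial]
      ext i j; exact hA.1 j i
    · intro x
      rw [← R238.MaxP.Q_eq]
      exact (mul_nonneg hlo (Finset.sum_nonneg fun i _ => sq_nonneg _)).trans (hA.2 x).1
  have h := R238.MaxP.trace_mul_ge hP (B := Matrix.of fun i j => -B (ee i) (ee j)) (c := -ε)
    (by ext i j; simp [hs (ee i) (ee j)]) fun z => by
      have h1 := hB (WithLp.toLp 2 z)
      rw [bilin_eq_sum, EuclideanSpace.real_norm_sq_eq] at h1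
      simp only [R238.MaxP.Q, Matrix.of_apply, neg_mul, Finset.sum_neg_distrib]
      simpa using h1
  have h2 : A.trace ≤ n * hi := by
    simpa [Matrix.trace] using Finset.sum_le_sum fun i (_ : i ∈ Finset.univ) => ell_diag_le hA i
  have h3 : (A * Matrix.of fun i j => -B (ee i) (ee j)).trace
      = -∑ i, ∑ j, A i j * B (ee i) (ee j) := by
    simp only [Matrix.trace, Matrix.diag, Matrix.mul_apply, Matrix.of_apply, mul_neg,
      Finset.sum_neg_distrib]
    congr 1
    exact Finset.sum_congr rfl fun i _ => Finset.sum_congr rfl fun j _ => by rw [hs]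
  rw [h3] at h
  nlinarith [mul_le_mul_of_nonneg_left h2 hε]

theorem D2_symm {z : EE n → ℝ} {x : EE n} (hz : ContDiffAt ℝ 2 z x) (v w : EE n) :
    D2 z x v w = D2 z x w v :=
  (hz.isSymmSndFDerivAt (by simp)).eq v w

theorem maxP_up {lo hi : ℝ} (hlo : 0 ≤ lo) {τ : EE n → Matrix (Fin n) (Fin n) ℝ} {z : EE n → ℝ}
    {N B : ℝ} (hell : ∀ x, Ell lo hi (τ x)) (hz : ContDiff ℝ 2 z) (hB : ∀ x, z x ≤ B)
    (h : ∀ x, z x - P2 τ z x ≤ N) (x0 : EE n) : z x0 ≤ N := by
  set δ := B - z x0 + 1 with hδ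
  have hδ0 : 0 < δ := by linarith [hB x0]
  have key : ∀ ρ : ℝ, 0 < ρ → z x0 ≤ N + 2 * δ / ρ ^ 2 * (n * hi) := by
    intro ρ hρ
    obtain ⟨x, -, h1, -, h2⟩ := oy n z x0 B δ ρ hρ hz.contDiffOn (fun y _ => hB y) (by linarith)
    have := contr_le hlo (by positivity) (hell x) (D2 z x) (D2_symm hz.contDiffAt) h2
    have h3 := h x
    unfold P2 at h3
    linarith
  have hl : Tendsto (fun ρ : ℝ => N + 2 * δ / ρ ^ 2 * (n * hi)) atTop (𝓝 (N + 0 * (n * hi))) :=
    ((tendsto_const_nhds.div_atTop (tendsto_pow_atTop two_ne_zero)).mul_const _).const_add _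
  simpa using ge_of_tendsto hl ((eventually_gt_atTop 0).mono key)

theorem maxP : MaxPStmt := by
  intro n lo hi hlo τ z N hell hz hB h x
  obtain ⟨B, hB⟩ := hB
  rw [abs_le']
  refine ⟨maxP_up hlo hell hz (fun y => (le_abs_self _).trans (hB y)) (fun y => ?_) x,
    maxP_up (z := fun y => -z y) hlo hell hz.neg (fun y => (neg_le_abs _).trans (hB y))
      (fun y => ?_) x⟩
  · linarith [(abs_le.1 (h y)).1]
  · rw [P2_neg_fun]; linarith [(abs_le.1 (h y)).2]

theorem gSch' : GSchStmt := gSch maxP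

theorem solve_all : SolveStmt := solve_of_maxP maxP

end

end Crest.Agent.NLib.Ell
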