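import Crest.Agent.NLib.Ell.Scale
import Crest.Agent.R238.HolDefs

/-!
# Matrix fluxes `A ∇u` (helper26)

`sup_div` : `|div (A ∇u)| ≤ N` on `ball x0 (2r)` gives `|u| ≤ C (avg L² + r² N)` on `ball x0 r`.
-/

set_option autoImplicit false
open MeasureTheory Metric Set Filter Topology InnerProductSpace
open scoped NNReal ENNReal RealInnerProductSpace Gradient ContDiff

namespace Crest.Agent.NLib.Ell

open Crest.Agent.R202.Moser
open Crest.Agent.R238 (Ell)

noncomputable section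

variable {n : ℕ}

local notation "E" n => EuclideanSpace ℝ (Fin n)

/-- matrix times vector -/
def mv (A : Matrix (Fin n) (Fin n) ℝ) (v : E n) : E n := WithLp.toLp 2 fun i => ∑ j, A i j * v j

@[simp] theorem mv_apply (A : Matrix (Fin n) (Fin n) ℝ) (v : E n) (i : Fin n) :
    mv A v i = ∑ j, A i j * v j := rfl

theorem inner_mv (A : Matrix (Fin n) (Fin n) ℝ) (v w : E n) :
    ⟪mv A v, w⟫ = ∑ i, ∑ j, A i j * w i * v j := by
  rw [inner_eq_sum]
  refine Finset.sum_congr rfl fun i _ => ?_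
  rw [mv_apply, Finset.sum_mul]
  exact Finset.sum_congr rfl fun j _ => by ring

variable {lo hi : ℝ} {A : Matrix (Fin n) (Fin n) ℝ}

theorem low_mv (h : Ell lo hi A) (v : E n) : lo * ‖v‖ ^ 2 ≤ ⟪mv A v, v⟫ := by
  rw [inner_mv, norm_sq_eq_sum]; exact (h.2 v).1

theorem up_mv' (h : Ell lo hi A) (v : E n) : ⟪mv A v, v⟫ ≤ hi * ‖v‖ ^ 2 := by
  rw [inner_mv, norm_sq_eq_sum]; exact (h.2 v).2

theorem mv_add (A : Matrix (Fin n) (Fin n) ℝ) (v w : E n) : mv A (v + w) = mv A v + mv A w := by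
  ext i; simp [mul_add, Finset.sum_add_distrib]

theorem mv_smul (A : Matrix (Fin n) (Fin n) ℝ) (c : ℝ) (v : E n) : mv A (c • v) = c • mv A v := by
  ext i; simp [Finset.mul_sum, mul_left_comm]

theorem mv_neg (A : Matrix (Fin n) (Fin n) ℝ) (v : E n) : mv A (-v) = -mv A v := by
  ext i; simp

theorem mv_symm (h : ∀ i j, A i j = A j i) (v w : E n) : ⟪mv A v, w⟫ = ⟪mv A w, v⟫ := by
  rw [inner_mv, inner_mv, Finset.sum_comm]
  exact Finset.sum_congr rfl fun i _ => Finset.sum_congr rfl fun j _ => by rw [h j i]; ring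

theorem up_mv (h : Ell lo hi A) (hlo : 0 ≤ lo) (hhi : 0 < hi) (v : E n) : ‖mv A v‖ ≤ hi * ‖v‖ := by
  set w := mv A v with hw
  have h1 := up_mv' h (hi • v + w)
  have h2 := (mul_nonneg hlo (sq_nonneg _)).trans (low_mv h (hi • v + -w))
  have h3 := parallelogram_law_with_norm ℝ (hi • v) w
  have h4 : ‖hi • v‖ = hi * ‖v‖ := by rw [norm_smul, Real.norm_eq_abs, abs_of_pos hhi]
  have h5 : ⟪mv A w, v⟫ = ‖w‖ ^ 2 := by rw [mv_symm h.1, ← hw, real_inner_self_eq_norm_sq]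
  simp only [mv_add, mv_smul, mv_neg, inner_add_left, inner_add_right, inner_smul_left,
    inner_smul_right, inner_neg_left, inner_neg_right, conj_trivial, ← hw, h5,
    real_inner_self_eq_norm_sq] at h1 h2
  rw [h4] at h3
  have h6 : ‖hi • v + w‖ ^ 2 ≤ 2 * ((hi * ‖v‖) ^ 2 + ‖w‖ ^ 2) := by
    nlinarith [sq_nonneg ‖hi • v - w‖]
  have h7 : hi * (2 * ‖w‖ ^ 2) ≤ hi * (2 * (hi * ‖v‖) ^ 2) := by
    nlinarith [mul_le_mul_of_nonneg_left h6 hhi.le]
  have h8 := le_of_mul_le_mul_left h7 hhi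
  exact (abs_le_of_sq_le_sq' (by linarith) (by positivity)).2

theorem contDiffOn_gradient {U : Set (E n)} (hU : IsOpen U) {u : (E n) → ℝ}
    (hu : ContDiffOn ℝ 2 u U) (i : Fin n) : ContDiffOn ℝ 1 (fun x => ∇ u x i) U := by
  simp only [gradient_apply]
  exact (hu.fderiv_of_isOpen hU (by norm_num)).clm_apply contDiffOn_const

theorem contDiffOn_mv {U : Set (E n)} (hU : IsOpen U) {u : (E n) → ℝ} (hu : ContDiffOn ℝ 2 u U)
    {A : (E n) → Matrix (Fin n) (Fin n) ℝ} (hA : ∀ i j, ContDiffOn ℝ 1 (fun x => A x i j) U) :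
    ContDiffOn ℝ 1 (fun x => mv (A x) (∇ u x)) U :=
  contDiffOn_euclidean.2 fun i => by
    simp only [mv_apply]
    exact ContDiffOn.sum fun j _ => (hA i j).mul (contDiffOn_gradient hU hu j)

theorem dvg_mv (A : (E n) → Matrix (Fin n) (Fin n) ℝ) (u : (E n) → ℝ) (x : E n) :
    dvg (fun x => mv (A x) (∇ u x)) x = ∑ i, fderiv ℝ (fun y => ∑ j, A y i j *
      fderiv ℝ u y (EuclideanSpace.single j 1)) x (EuclideanSpace.single i 1) := by
  simp only [dvg, mv_apply, gradient_apply]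

/-- Two-sided local sup bound for `|div (A ∇u)| ≤ N`. -/
theorem sup_div (hn : 3 ≤ n) (hlo : 0 < lo) (hhi : 0 < hi) :
    ∃ C : ℝ, 0 < C ∧ ∀ (A : (E n) → Matrix (Fin n) (Fin n) ℝ) (u : (E n) → ℝ) (x0 : E n) (r N : ℝ),
      0 < r → 0 ≤ N → (∀ i j, ContDiffOn ℝ 1 (fun x => A x i j) (ball x0 (2 * r))) →
      (∀ x ∈ ball x0 (2 * r), Ell lo hi (A x)) → ContDiffOn ℝ 2 u (ball x0 (2 * r)) →
      (∀ x ∈ ball x0 (2 * r), |dvg (fun x => mv (A x) (∇ u x)) x| ≤ N) → ∀ x ∈ ball x0 r,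
        |u x| ≤ C * (√((r ^ n)⁻¹ * ∫ y in closedBall x0 (3 / 2 * r), u y ^ 2) + r ^ 2 * N) := by
  obtain ⟨C, hC, H⟩ := locmax_div hn hlo hi
  refine ⟨C, hC, fun A u x0 r N hr hN hA hE hu hd x hx => ?_⟩
  have hF := contDiffOn_mv isOpen_ball hu hA
  have hu1 : ContDiffOn ℝ 1 u (ball x0 (2 * r)) := hu.of_le (by norm_num)
  have hsub : closedBall x0 (3 / 2 * r) ⊆ ball x0 (2 * r) := closedBall_subset_ball (by linarith)
  have cK := isCompact_closedBall x0 (3 / 2 * r)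
  have mono : ∀ {v : (E n) → ℝ}, ContinuousOn v (ball x0 (2 * r)) → (∀ y, v y ^ 2 = u y ^ 2) →
      C * (√((r ^ n)⁻¹ * ∫ y in closedBall x0 (3 / 2 * r), max (v y) 0 ^ 2) + r ^ 2 * N) ≤
      C * (√((r ^ n)⁻¹ * ∫ y in closedBall x0 (3 / 2 * r), u y ^ 2) + r ^ 2 * N) := by
    intro v hv hvu
    refine mul_le_mul_of_nonneg_left (add_le_add_left (Real.sqrt_le_sqrt
      (mul_le_mul_of_nonneg_left ?_ (by positivity))) _) hC.le
    refine setIntegral_mono_on ((((hv.mono hsub).sup continuousOn_const).pow 2).integrableOn_compact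
      cK) (((hu1.continuousOn.mono hsub).pow 2).integrableOn_compact cK) measurableSet_closedBall
      fun y _ => ?_
    rw [← hvu]
    rcases le_total (v y) 0 with h | h
    · rw [max_eq_right h]; nlinarith [sq_nonneg (v y)]
    · rw [max_eq_left h]
  refine abs_le.2 ⟨?_, (H u _ x0 r N hr hN hu1 hF (fun x hx => low_mv (hE x hx) _)
    (fun x hx => up_mv (hE x hx) hlo.le hhi _) (fun x hx => (abs_le.1 (hd x hx)).1) x hx).trans
    (mono hu1.continuousOn fun _ => rfl)⟩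
  have := (H (fun y => -u y) _ x0 r N hr hN hu1.neg hF.neg
    (fun x hx => by rw [gradient_neg, norm_neg, inner_neg_neg]; exact low_mv (hE x hx) _)
    (fun x hx => by rw [gradient_neg, norm_neg, norm_neg]; exact up_mv (hE x hx) hlo.le hhi _)
    (fun x hx => by rw [dvg_neg]; linarith [(abs_le.1 (hd x hx)).2]) x hx).trans
    (mono hu1.continuousOn.neg fun _ => by simp)
  linarith

end

end Crest.Agent.NLib.Ell
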