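import Crest.Agent.NLib.Ell.Growth

/-!
# Scaled forms of the local maximum principle and of the growth lemma; classical solutions
(helper26)

* `weak_of_div` : `∫ ⟪F, ∇φ⟫ = - ∫ (div F) φ` for `F` of class `C¹` on `U`;
* `locmax`, `growth` : balls of radius `r ≤ 1`;
* `locmax_div`, `growth_div` : any radius, `div F ≥ - N` resp. `div F ≤ N` with a homogeneous flux.
-/

set_option autoImplicit false
open MeasureTheory Metric Set Filter Topology InnerProductSpace
open scoped NNReal ENNReal RealInnerProductSpace Gradient ContDiff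

namespace Crest.Agent.NLib.Ell

open Crest.Agent.R202.Moser

noncomputable section

variable {n : ℕ}

local notation "E" n => EuclideanSpace ℝ (Fin n)

/-- flat divergence -/
def dvg (F : (E n) → E n) (x : E n) : ℝ :=
  ∑ i, fderiv ℝ (fun y => F y i) x (EuclideanSpace.single i 1)

theorem gradient_apply (φ : (E n) → ℝ) (x : E n) (i : Fin n) :
    (∇ φ x) i = fderiv ℝ φ x (EuclideanSpace.single i 1) := by
  have h1 : ⟪∇ φ x, EuclideanSpace.single i (1 : ℝ)⟫ = fderiv ℝ φ x (EuclideanSpace.single i 1) := by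
    unfold gradient
    exact InnerProductSpace.toDual_symm_apply
  rw [← h1, EuclideanSpace.inner_single_right]
  simp

theorem inner_eq_sum (v w : E n) : ⟪v, w⟫ = ∑ i, v i * w i := by
  rw [PiLp.inner_apply]
  exact Finset.sum_congr rfl fun i _ => by simp [mul_comm]

theorem norm_sq_eq_sum (v : E n) : ‖v‖ ^ 2 = ∑ i, v i ^ 2 := by
  rw [EuclideanSpace.real_norm_sq_eq]

theorem continuousOn_dvg {U : Set (E n)} (hU : IsOpen U) {F : (E n) → E n}
    (hF : ContDiffOn ℝ 1 F U) : ContinuousOn (dvg F) U :=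
  continuousOn_finsetSum _ fun i _ =>
    ((contDiffOn_euclidean.1 hF i).continuousOn_fderiv_of_isOpen hU le_rfl).clm_apply
      continuousOn_const

/-- Integration by parts against a test function. -/
theorem weak_of_div {U : Set (E n)} (hU : IsOpen U) {F : (E n) → E n} (hF : ContDiffOn ℝ 1 F U)
    {φ : (E n) → ℝ} (hφ : Test U φ) : ∫ x, ⟪F x, ∇ φ x⟫ = ∫ x, (-dvg F x) * φ x := by
  have hX := contDiffOn_euclidean.1 hF
  have hf1 : ∀ i, ContDiff ℝ 1 (fun x => φ x • F x i) := fun i =>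
    contDiff_mul_of_tsupport (m := 1) hU hφ.c1 hφ.sub (hX i)
  have hfc : ∀ i, HasCompactSupport (fun x => φ x • F x i) := fun i =>
    HasCompactSupport.intro hφ.cs.isCompact fun x hx => by
      rw [image_eq_zero_of_notMem_tsupport hx, zero_smul]
  have hint : ∀ i, Integrable
      (fun x => fderiv ℝ (fun x => φ x • F x i) x (EuclideanSpace.single i 1)) := fun i => by
    apply Continuous.integrable_of_hasCompactSupport
    · exact ((hf1 i).continuous_fderiv (by norm_num)).clm_apply continuous_const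
    · exact ((hfc i).fderiv ℝ).comp_left (g := fun L : (E n) →L[ℝ] ℝ => L _) (by simp)
  have hsum : ∫ x, ∑ i, fderiv ℝ (fun x => φ x • F x i) x (EuclideanSpace.single i 1) = 0 := by
    rw [integral_finsetSum _ fun i _ => hint i]
    exact Finset.sum_eq_zero fun i _ => integral_pderiv_eq_zero (hf1 i) (hfc i) _
  have e1 : ∀ x, ∑ i, fderiv ℝ (fun x => φ x • F x i) x (EuclideanSpace.single i 1) =
      ⟪F x, ∇ φ x⟫ - (-dvg F x) * φ x := fun x => by
    by_cases hx : x ∈ tsupport φ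
    · rw [inner_eq_sum, dvg, neg_mul, sub_neg_eq_add, Finset.sum_mul, ← Finset.sum_add_distrib]
      refine Finset.sum_congr rfl fun i _ => ?_
      have e3 := (hφ.c1.differentiable (by norm_num) x).hasFDerivAt.mul
        (diffAt hU (hX i) (hφ.sub hx)).hasFDerivAt
      have e4 : fderiv ℝ (fun x => φ x • F x i) x = _ := e3.fderiv
      rw [e4, gradient_apply]
      simp; ring
    · rw [gradient_eq_zero_of_notMem hx, image_eq_zero_of_notMem_tsupport hx, inner_zero_right,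
        mul_zero, sub_zero]
      refine Finset.sum_eq_zero fun i _ => ?_
      have : (fun x => φ x • F x i) =ᶠ[𝓝 x] fun _ => 0 := by
        filter_upwards [(isClosed_tsupport φ).isOpen_compl.mem_nhds hx] with y hy
        rw [image_eq_zero_of_notMem_tsupport hy, zero_smul]
      rw [this.fderiv_eq]
      simp
  simp only [e1] at hsum
  have i2 : Integrable fun x => (-dvg F x) * φ x :=
    hφ.int_mul (f := fun x => -dvg F x) (continuousOn_dvg hU hF).neg
  rw [integral_sub (hφ.int_inner hF.continuousOn) i2] at hsum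
  linarith

/-- A pointwise inequality `- div F ≤ G` gives the weak inequality. -/
theorem weak_of_div_le {U : Set (E n)} (hU : IsOpen U) {F : (E n) → E n} (hF : ContDiffOn ℝ 1 F U)
    {G : (E n) → ℝ} (hG : ContinuousOn G U) (h : ∀ x ∈ U, -dvg F x ≤ G x) {φ : (E n) → ℝ}
    (hφ : Test U φ) : ∫ x, ⟪F x, ∇ φ x⟫ ≤ ∫ x, G x * φ x := by
  rw [weak_of_div hU hF hφ]
  refine integral_mono (hφ.int_mul (continuousOn_dvg hU hF).neg) (hφ.int_mul hG) fun x => ?_
  by_cases hx : x ∈ tsupport φ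
  · exact mul_le_mul_of_nonneg_right (h x (hφ.sub hx)) (hφ.nonneg x)
  · simp [image_eq_zero_of_notMem_tsupport hx]

theorem dvg_neg (F : (E n) → E n) (x : E n) : dvg (fun y => -F y) x = -dvg F x := by
  simp only [dvg, PiLp.neg_apply, fderiv_fun_neg, neg_apply,
    Finset.sum_neg_distrib]

/-- Testing a weak inequality with `H(u) φ`. -/
theorem weak_mul' {U : Set (E n)} (hU : IsOpen U) {u G : (E n) → ℝ} {F : (E n) → E n}
    (cu : ContDiffOn ℝ 1 u U) (cF : ContinuousOn F U) (cG : ContinuousOn G U)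
    (h : ∀ φ, Test U φ → ∫ x, ⟪F x, ∇ φ x⟫ ≤ ∫ x, G x * φ x) {H H' : ℝ → ℝ} {S : Set ℝ}
    (hS : IsOpen S) (huS : ∀ x ∈ U, u x ∈ S) (hH : ∀ s ∈ S, HasDerivAt H (H' s) s)
    (hH' : ContinuousOn H' S) (H0 : ∀ s ∈ S, 0 ≤ H s) {φ : (E n) → ℝ} (hφ : Test U φ) :
    ∫ x, ⟪H (u x) • F x, ∇ φ x⟫ ≤ ∫ x, (G x * H (u x) - H' (u x) * ⟪F x, ∇ u x⟫) * φ x := by
  have hHc : ContDiffOn ℝ 1 H S := by
    rw [show (1 : WithTop ℕ∞) = 0 + 1 from rfl, contDiffOn_succ_iff_deriv_of_isOpen hS]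
    refine ⟨fun s hs => (hH s hs).differentiableAt.differentiableWithinAt, by simp, ?_⟩
    rw [contDiffOn_zero]
    exact hH'.congr fun s hs => (hH s hs).deriv
  have hHu : ContDiffOn ℝ 1 (fun x => H (u x)) U := hHc.comp cu huS
  have hT := hφ.mul hU hHu fun x hx => H0 _ (huS x hx)
  have c1 : ContinuousOn (fun x => H' (u x) * ⟪F x, ∇ u x⟫) U :=
    (hH'.comp cu.continuousOn huS).mul (cF.inner (continuousOn_gradient hU cu))
  have c2 : ContinuousOn (fun x => G x * H (u x)) U := cG.mul hHu.continuousOn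
  have key := h _ hT
  have e1 : ∫ x, ⟪F x, ∇ (fun x => φ x * H (u x)) x⟫ =
      ∫ x, (⟪H (u x) • F x, ∇ φ x⟫ + H' (u x) * ⟪F x, ∇ u x⟫ * φ x) := by
    refine integral_congr_ae (Eventually.of_forall fun x => ?_)
    by_cases hx : x ∈ tsupport φ
    · simp only
      rw [gradient_mul_comp (hφ.c1.differentiable (by norm_num) x) (diffAt hU cu (hφ.sub hx))
        (hH _ (huS x (hφ.sub hx)))]
      simp only [inner_add_right, inner_smul_right, inner_smul_left, conj_trivial]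
      ring
    · have hs : Function.support (fun x => φ x * H (u x)) ⊆ Function.support φ :=
        fun y hy h'' => hy (by simp only [h'', zero_mul])
      have : x ∉ tsupport fun x => φ x * H (u x) := fun h' => hx (closure_mono hs h')
      simp [gradient_eq_zero_of_notMem hx, gradient_eq_zero_of_notMem this,
        image_eq_zero_of_notMem_tsupport hx]
  have i1 : Integrable fun x => ⟪H (u x) • F x, ∇ φ x⟫ :=
    hφ.int_inner (F := fun x => H (u x) • F x) (hHu.continuousOn.smul cF)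
  rw [e1, integral_add i1 (hφ.int_mul c1)] at key
  simp only [sub_mul]
  rw [integral_sub (hφ.int_mul c2) (hφ.int_mul c1)]
  have e2 : ∫ x, G x * (φ x * H (u x)) = ∫ x, G x * H (u x) * φ x :=
    integral_congr_ae (Eventually.of_forall fun x => by simp only; ring)
  linarith

theorem setIntegral_aff (f : (E n) → ℝ) (x0 : E n) {r : ℝ} (hr : 0 < r) {S : Set (E n)}
    (hS : MeasurableSet S) :
    ∫ y in (fun y => x0 + r • y) ⁻¹' S, f (x0 + r • y) = (r ^ n)⁻¹ * ∫ x in S, f x := by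
  have hm : MeasurableSet ((fun y : E n => x0 + r • y) ⁻¹' S) := hS.preimage (by fun_prop)
  rw [← integral_indicator hm, ← integral_indicator hS, ← integral_affine _ x0 hr]
  rfl

theorem volume_aff (x0 : E n) {r : ℝ} (hr : 0 < r) {S : Set (E n)} (hS : MeasurableSet S) :
    volume.real ((fun y => x0 + r • y) ⁻¹' S) = (r ^ n)⁻¹ * volume.real S := by
  simpa using setIntegral_aff (fun _ => (1 : ℝ)) x0 hr hS

theorem preimage_aff_ball (x0 : E n) {r : ℝ} (hr : 0 < r) (ρ : ℝ) :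
    (fun y => x0 + r • y) ⁻¹' ball x0 (ρ * r) = ball 0 ρ := by
  ext y
  rw [mem_preimage, mem_ball_iff_norm, add_sub_cancel_left, norm_smul, Real.norm_eq_abs,
    abs_of_pos hr, mem_ball_zero_iff, mul_comm]
  exact mul_lt_mul_iff_left₀ hr

theorem preimage_aff_closedBall (x0 : E n) {r : ℝ} (hr : 0 < r) (ρ : ℝ) :
    (fun y => x0 + r • y) ⁻¹' closedBall x0 (ρ * r) = closedBall 0 ρ := by
  ext y
  rw [mem_preimage, mem_closedBall_iff_norm, add_sub_cancel_left, norm_smul, Real.norm_eq_abs,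
    abs_of_pos hr, mem_closedBall_zero_iff, mul_comm]
  exact mul_le_mul_iff_left₀ hr

theorem exists_aff {x0 x : E n} {r : ℝ} (hr : 0 < r) (hx : x ∈ ball x0 r) :
    ∃ y ∈ ball (0 : E n) 1, x0 + r • y = x := by
  have e : x0 + r • (r⁻¹ • (x - x0)) = x := by
    rw [smul_smul, mul_inv_cancel₀ hr.ne', one_smul, add_sub_cancel]
  refine ⟨_, ?_, e⟩
  rw [← preimage_aff_ball x0 hr, mem_preimage, e, one_mul]
  exact hx

/-- A cut-off between `closedBall x0 r` and `ball x0 (2 r)`. -/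
theorem exists_cutoff_at : ∃ C : ℝ, 0 < C ∧ ∀ (x0 : E n) (r : ℝ), 0 < r → ∃ η : (E n) → ℝ,
    Test (ball x0 (2 * r)) η ∧ (∀ x ∈ closedBall x0 r, η x = 1) ∧ (∀ x, η x ≤ 1) ∧
      ∀ x, ‖∇ η x‖ ≤ C / r := by
  obtain ⟨C, hC, h⟩ := exists_cutoff (n := n)
  refine ⟨2 * C, by positivity, fun x0 r hr => ?_⟩
  obtain ⟨η, h1, h2, h3, h4, h5, h6, h7⟩ := h r (3 / 2 * r) hr (by linarith)
  have ht : tsupport (fun x => η (x - x0)) ⊆ closedBall x0 (3 / 2 * r) := by
    refine closure_minimal (fun x hx => ?_) isClosed_closedBall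
    simpa [dist_eq_norm] using h3 (subset_tsupport _ hx)
  refine ⟨fun x => η (x - x0), ⟨h1.comp (by fun_prop), h2.comp_homeomorph (Homeomorph.subRight x0),
    ht.trans (closedBall_subset_ball (by linarith)), fun x => h5 _⟩, fun x hx => h4 _ ?_,
    fun x => h6 _, fun x => ?_⟩
  · simpa [dist_eq_norm] using hx
  · have : ∇ (fun x => η (x - x0)) x = ∇ η (x - x0) := by
      simp [gradient, sub_eq_add_neg, fderiv_comp_add_right]
    rw [this]
    refine (h7 _).trans (le_of_eq ?_)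
    field_simp; ring

variable {lam a b : ℝ}

/-- **Local maximum principle** on balls of radius `r ≤ 1`. -/
theorem locmax (hn : 3 ≤ n) (hlam : 0 < lam) (Lam : ℝ) (ha : 0 ≤ a) (hb : 0 ≤ b) :
    ∃ C : ℝ, 0 < C ∧ ∀ (u m : (E n) → ℝ) (F : (E n) → E n) (x0 : E n) (r k : ℝ), 0 < r → r ≤ 1 →
      Sub lam Lam a b (ball x0 (2 * r)) u m F → 0 ≤ k →
      (∀ x ∈ ball x0 (2 * r), m x ≤ max (u x) 0 + k) → ∀ x ∈ ball x0 r,
        u x ≤ C * (√((r ^ n)⁻¹ * ∫ y in closedBall x0 (3 / 2 * r), max (u y) 0 ^ 2) + r * k) := by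
  obtain ⟨C, hC, H⟩ := locmax_unit hn hlam Lam ha b
  refine ⟨C, hC, fun u m F x0 r k hr hr1 h hk hm x hx => ?_⟩
  obtain ⟨y, hy, rfl⟩ := exists_aff hr hx
  have h' := h.scale isOpen_ball ha hb x0 hr hr1
  have := H _ _ _ (r * k) (preimage_aff_ball x0 hr 2 ▸ h') (by positivity) (fun y hy => by
    have h1 := mul_le_mul_of_nonneg_left (hm (x0 + r • y) (by
      rw [← preimage_aff_ball x0 hr 2] at hy; exact hy)) hr.le
    nlinarith [le_max_right (u (x0 + r • y)) 0]) y hy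
  rwa [← preimage_aff_closedBall x0 hr, setIntegral_aff (fun y => max (u y) 0 ^ 2) x0 hr
    measurableSet_closedBall] at this

/-- **Growth lemma** on balls of radius `r ≤ 1`. -/
theorem growth (hn : 3 ≤ n) (hlam : 0 < lam) (Lam : ℝ) (ha : 0 ≤ a) (hb : 0 ≤ b) {θ : ℝ}
    (hθ : 0 < θ) : ∃ c : ℝ, 0 < c ∧ c ≤ 1 ∧ ∀ (u m : (E n) → ℝ) (F : (E n) → E n) (x0 : E n)
      (r k t : ℝ), 0 < r → r ≤ 1 → Sup lam Lam a b (ball x0 (4 * r)) u m F → 0 ≤ k →
      (∀ x ∈ ball x0 (4 * r), 0 ≤ u x) → (∀ x ∈ ball x0 (4 * r), m x ≤ u x + k) →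
      θ * r ^ n ≤ volume.real (ball x0 (2 * r) ∩ {x | t ≤ u x}) →
      ∀ x ∈ ball x0 r, c * t ≤ u x + r * k := by
  obtain ⟨c, hc, hc1, H⟩ := growth_unit hn hlam Lam ha b hθ
  refine ⟨c, hc, hc1, fun u m F x0 r k t hr hr1 h hk hu hm hθ' x hx => ?_⟩
  obtain ⟨y, hy, rfl⟩ := exists_aff hr hx
  have h' := Sub.scale isOpen_ball h ha hb x0 hr hr1
  rw [preimage_aff_ball x0 hr 4] at h'
  have hmem : ∀ y ∈ ball (0 : E n) 4, x0 + r • y ∈ ball x0 (4 * r) := fun y hy => by
    rw [← preimage_aff_ball x0 hr 4] at hy; exact hy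
  have cu : ContinuousOn u (ball x0 (2 * r)) :=
    (h.cu.continuousOn.neg.congr fun x _ => by simp).mono (ball_subset_ball (by linarith))
  refine H (fun y => u (x0 + r • y)) (fun y => r * m (x0 + r • y)) (fun y => r • F (x0 + r • y))
    (r * k) t (by simpa only [Sup, smul_neg] using h') (by positivity) (fun y hy => hu _ (hmem y hy))
    (fun y hy => ?_) ?_ y hy
  · nlinarith [mul_le_mul_of_nonneg_left (hm _ (hmem y hy)) hr.le, hu _ (hmem y hy)]
  · have := volume_aff x0 hr (measurableSet_inter_ge isOpen_ball cu t)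
    rw [preimage_inter, preimage_aff_ball x0 hr 2] at this
    rw [show {x | t ≤ u (x0 + r • x)} = (fun y => x0 + r • y) ⁻¹' {x | t ≤ u x} from rfl, this,
      le_inv_mul_iff₀ (by positivity), mul_comm]
    exact hθ'

/-- Rescaling a classical subsolution `div F ≥ - N` with a homogeneous flux (any radius). -/
theorem sub_of_div {Lam N : ℝ} {U : Set (E n)} (hU : IsOpen U) {u : (E n) → ℝ} {F : (E n) → E n}
    (hu : ContDiffOn ℝ 1 u U) (hF : ContDiffOn ℝ 1 F U) (hN : 0 ≤ N)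
    (low : ∀ x ∈ U, lam * ‖∇ u x‖ ^ 2 ≤ ⟪F x, ∇ u x⟫) (up : ∀ x ∈ U, ‖F x‖ ≤ Lam * ‖∇ u x‖)
    (hd : ∀ x ∈ U, -N ≤ dvg F x) (x0 : E n) {r : ℝ} (hr : 0 < r) :
    Sub lam Lam 1 0 ((fun y => x0 + r • y) ⁻¹' U) (fun y => u (x0 + r • y))
      (fun _ => r ^ 2 * N) (fun y => r • F (x0 + r • y)) := by
  have caff : Continuous (fun y : E n => x0 + r • y) := by fun_prop
  have daff : ContDiff ℝ 1 (fun y : E n => x0 + r • y) := by fun_prop
  have hg : ∀ y, x0 + r • y ∈ U → ∇ (fun y => u (x0 + r • y)) y = r • ∇ u (x0 + r • y) :=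
    fun y hy => gradient_affine (diffAt hU hu hy)
  have hn : ∀ v : E n, ‖r • v‖ = r * ‖v‖ := fun v => by
    rw [norm_smul, Real.norm_eq_abs, abs_of_pos hr]
  refine ⟨hu.comp daff.contDiffOn fun _ hy => hy, continuousOn_const,
    (hF.continuousOn.comp caff.continuousOn fun _ hy => hy).const_smul r, fun _ _ => by positivity,
    fun y hy => ?_, fun y hy => ?_, fun φ hφ => ?_⟩
  · rw [hg y hy, hn, inner_smul_left, inner_smul_right, conj_trivial]
    nlinarith [mul_le_mul_of_nonneg_left (low _ hy) (sq_nonneg r), sq_nonneg (r ^ 2 * N)]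
  · rw [hg y hy, hn, hn]
    nlinarith [mul_le_mul_of_nonneg_left (up _ hy) hr.le, mul_nonneg (sq_nonneg r) hN]
  · simpa using weak_scale (G := fun _ => N) (fun φ hφ => weak_of_div_le hU hF continuousOn_const
      (fun x hx => by linarith [hd x hx]) hφ) x0 hr hφ

/-- Local maximum principle for `div F ≥ - N`, any radius. -/
theorem locmax_div (hn : 3 ≤ n) (hlam : 0 < lam) (Lam : ℝ) :
    ∃ C : ℝ, 0 < C ∧ ∀ (u : (E n) → ℝ) (F : (E n) → E n) (x0 : E n) (r N : ℝ), 0 < r → 0 ≤ N →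
      ContDiffOn ℝ 1 u (ball x0 (2 * r)) → ContDiffOn ℝ 1 F (ball x0 (2 * r)) →
      (∀ x ∈ ball x0 (2 * r), lam * ‖∇ u x‖ ^ 2 ≤ ⟪F x, ∇ u x⟫) →
      (∀ x ∈ ball x0 (2 * r), ‖F x‖ ≤ Lam * ‖∇ u x‖) → (∀ x ∈ ball x0 (2 * r), -N ≤ dvg F x) →
      ∀ x ∈ ball x0 r, u x ≤
        C * (√((r ^ n)⁻¹ * ∫ y in closedBall x0 (3 / 2 * r), max (u y) 0 ^ 2) + r ^ 2 * N) := by
  obtain ⟨C, hC, H⟩ := locmax_unit hn hlam Lam zero_le_one 0
  refine ⟨C, hC, fun u F x0 r N hr hN hu hF low up hd x hx => ?_⟩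
  obtain ⟨y, hy, rfl⟩ := exists_aff hr hx
  have h' := sub_of_div isOpen_ball hu hF hN low up hd x0 hr
  have := H _ _ _ (r ^ 2 * N) (preimage_aff_ball x0 hr 2 ▸ h') (by positivity) (fun y _ => by
    linarith [le_max_right (u (x0 + r • y)) 0]) y hy
  rwa [← preimage_aff_closedBall x0 hr, setIntegral_aff (fun y => max (u y) 0 ^ 2) x0 hr
    measurableSet_closedBall] at this

/-- Growth lemma for `div F ≤ N`, any radius. -/
theorem growth_div (hn : 3 ≤ n) (hlam : 0 < lam) (Lam : ℝ) {θ : ℝ} (hθ : 0 < θ) :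
    ∃ c : ℝ, 0 < c ∧ c ≤ 1 ∧ ∀ (u : (E n) → ℝ) (F : (E n) → E n) (x0 : E n) (r N t : ℝ), 0 < r →
      0 ≤ N → ContDiffOn ℝ 1 u (ball x0 (4 * r)) → ContDiffOn ℝ 1 F (ball x0 (4 * r)) →
      (∀ x ∈ ball x0 (4 * r), lam * ‖∇ u x‖ ^ 2 ≤ ⟪F x, ∇ u x⟫) →
      (∀ x ∈ ball x0 (4 * r), ‖F x‖ ≤ Lam * ‖∇ u x‖) → (∀ x ∈ ball x0 (4 * r), dvg F x ≤ N) →
      (∀ x ∈ ball x0 (4 * r), 0 ≤ u x) →
      θ * r ^ n ≤ volume.real (ball x0 (2 * r) ∩ {x | t ≤ u x}) →
      ∀ x ∈ ball x0 r, c * t ≤ u x + r ^ 2 * N := by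
  obtain ⟨c, hc, hc1, H⟩ := growth_unit hn hlam Lam zero_le_one 0 hθ
  refine ⟨c, hc, hc1, fun u F x0 r N t hr hN cu hF low up hd hu hθ' x hx => ?_⟩
  obtain ⟨y, hy, rfl⟩ := exists_aff hr hx
  have h' := sub_of_div (lam := lam) (Lam := Lam) isOpen_ball cu.neg hF.neg hN
    (fun x hx => by rw [gradient_neg, norm_neg, inner_neg_neg]; exact low x hx)
    (fun x hx => by rw [gradient_neg, norm_neg, norm_neg]; exact up x hx)
    (fun x hx => by rw [dvg_neg]; linarith [hd x hx]) x0 hr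
  rw [preimage_aff_ball x0 hr 4] at h'
  have hmem : ∀ y ∈ ball (0 : E n) 4, x0 + r • y ∈ ball x0 (4 * r) := fun y hy => by
    rw [← preimage_aff_ball x0 hr 4] at hy; exact hy
  refine H (fun y => u (x0 + r • y)) (fun _ => r ^ 2 * N) (fun y => r • F (x0 + r • y))
    (r ^ 2 * N) t (by simpa only [Sup, smul_neg] using h') (by positivity)
    (fun y hy => hu _ (hmem y hy)) (fun y hy => by linarith [hu _ (hmem y hy)]) ?_ y hy
  have := volume_aff x0 hr (measurableSet_inter_ge isOpen_ball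
    (cu.continuousOn.mono (ball_subset_ball (by linarith : 2 * r ≤ 4 * r))) t)
  rw [preimage_inter, preimage_aff_ball x0 hr 2] at this
  rw [show {x | t ≤ u (x0 + r • x)} = (fun y => x0 + r • y) ⁻¹' {x | t ≤ u x} from rfl, this,
    le_inv_mul_iff₀ (by positivity), mul_comm]
  exact hθ'

end

end Crest.Agent.NLib.Ell
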