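import Crest.Agent.R273.SchD_152
import Crest.Agent.R335.HDefs
import Crest.Agent.R202.Moser3

/-!
# Toolbox of row 346: frozen statements (helper26)

Vocabulary: `HO a M s f`, `C2A a M s u` (R273), `Ell lo hi A`, `P2 τ u = τ^{ij} ∂_ij u`, `D2` (R238),
`WG U u g` (weak gradient), `Test U φ`, `pd`, `gr`, `L2loc`, `L2locV` (R335; `pd i = pderiv i` by `rfl`).
Each `…Stmt` is proved in its own file `NLib/Ell/<Name>.lean` as `theorem <name> : <Name>Stmt`.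
-/

set_option autoImplicit false
open MeasureTheory Metric Set Filter Topology
open scoped NNReal ENNReal RealInnerProductSpace ContDiff

namespace Crest.Agent.NLib.Ell

open Crest.Agent.R238.Sch Crest.Agent.R273.SchA_152 Crest.Agent.R273.SchD_152
open Crest.Agent.R273.SchB_152 (P2)
open Crest.Agent.R238 (Ell)
open Crest.Agent.R335 (WG pd gr L2loc L2locV)

noncomputable section

/-- Euclidean space. -/
abbrev EE (n : ℕ) : Type := EuclideanSpace ℝ (Fin n)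

/-- Quantitative `C^{k,a}` bound on an open set `U`, by recursion on partial derivatives. -/
def CKA {n : ℕ} {F : Type} [NormedAddCommGroup F] [NormedSpace ℝ F] (a : ℝ) (U : Set (EE n)) :
    ℕ → ℝ → (EE n → F) → Prop
  | 0, M, f => HO a M U f
  | k + 1, M, f => HO a M U f ∧ DifferentiableOn ℝ f U ∧
      ∀ i, CKA a U k M fun x => fderiv ℝ f x (EuclideanSpace.single i 1)

/-- The Dirichlet space `D^{1,2}(ℝⁿ)`: `u ∈ L^{2n/(n-2)}` with weak gradient `g ∈ L²`. -/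
structure D1 {n : ℕ} (u : EE n → ℝ) (g : EE n → EE n) : Prop where
  wg : WG univ u g
  memg : MemLp g 2 volume
  memu : MemLp u (ENNReal.ofReal (2 * R202.Moser.chi n)) volume

/-! ### T6: elementary tools -/

/-- Omori-Yau points, local form (maximise `z + δ (1 - ‖y - x0‖² / ρ²)` on the closed ball). -/
def OYStmt : Prop := ∀ (n : ℕ) (z : EE n → ℝ) (x0 : EE n) (M δ ρ : ℝ), 0 < ρ →
  ContDiffOn ℝ 2 z (ball x0 (2 * ρ)) → (∀ y ∈ closedBall x0 ρ, z y ≤ M) → M - δ < z x0 →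
    ∃ x, ‖x - x0‖ < ρ ∧ z x0 ≤ z x ∧ ‖fderiv ℝ z x‖ ≤ 2 * δ / ρ ∧
      ∀ v : EE n, D2 z x v v ≤ 2 * δ / ρ ^ 2 * ‖v‖ ^ 2

/-- Interpolation on a ball. -/
def InterpStmt : Prop := ∀ (n : ℕ) (F : Type) [NormedAddCommGroup F] [NormedSpace ℝ F]
  (z : EE n → F) (x : EE n) (r M0 M2 : ℝ), 0 < r → ContDiffOn ℝ 2 z (ball x (2 * r)) →
  (∀ y ∈ closedBall x r, ‖z y‖ ≤ M0) → (∀ y ∈ closedBall x r, ‖fderiv ℝ (fderiv ℝ z) y‖ ≤ M2) →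
  ‖fderiv ℝ z x‖ ≤ 2 * M0 / r + M2 * r

/-- Smooth Arzelà-Ascoli. -/
def ArzelaStmt : Prop := ∀ (n : ℕ) (F : Type) [NormedAddCommGroup F] [NormedSpace ℝ F]
  [FiniteDimensional ℝ F] (f : ℕ → EE n → F), (∀ k, ContDiff ℝ ∞ (f k)) →
  (∀ (j : ℕ) (R : ℝ), ∃ C : ℝ, ∀ k, ∀ x ∈ ball (0 : EE n) R, ‖iteratedFDeriv ℝ j (f k) x‖ ≤ C) →
  ∃ (ψ : ℕ → ℕ) (g : EE n → F), StrictMono ψ ∧ ContDiff ℝ ∞ g ∧ ∀ j : ℕ,
    TendstoLocallyUniformly (fun k => iteratedFDeriv ℝ j (f (ψ k))) (iteratedFDeriv ℝ j g) atTop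

/-- `C^{2,a}` Arzelà-Ascoli (compactness of `C^{2,a} → C^2_loc`; the bound passes to the limit). -/
def Arzela2Stmt : Prop := ∀ (n : ℕ) (a M : ℝ), 0 < a → ∀ f : ℕ → EE n → ℝ,
  (∀ k, ContDiff ℝ 2 (f k)) → (∀ k, C2A a M univ (f k)) →
  ∃ (ψ : ℕ → ℕ) (g : EE n → ℝ), StrictMono ψ ∧ ContDiff ℝ 2 g ∧ C2A a M univ g ∧
    TendstoLocallyUniformly (fun k => f (ψ k)) g atTop ∧
    TendstoLocallyUniformly (fun k => fderiv ℝ (f (ψ k))) (fderiv ℝ g) atTop ∧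
    TendstoLocallyUniformly (fun k => D2 (f (ψ k))) (D2 g) atTop

/-- Hölder classes are closed under composition with smooth maps, with uniform constants
(sums, products, inverses, determinants are special cases: use `F = F₁ × F₂` or `ι → ℝ`). -/
def CompStmt : Prop := ∀ (n k : ℕ) (a M : ℝ), 0 < a → a ≤ 1 →
  ∀ (F G : Type) [NormedAddCommGroup F] [NormedSpace ℝ F] [FiniteDimensional ℝ F]
    [NormedAddCommGroup G] [NormedSpace ℝ G] (Φ : F → G) (W K : Set F), IsOpen W → IsCompact K →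
    K ⊆ W → ContDiffOn ℝ ∞ Φ W → ∃ C : ℝ, ∀ (U : Set (EE n)) (f : EE n → F), IsOpen U →
      (∀ x ∈ U, f x ∈ K) → CKA a U k M f → CKA a U k C fun x => Φ (f x)

/-- Dictionary between `CKA` and `iteratedFDeriv`. -/
def CKADictStmt : Prop := ∀ (n k : ℕ) (a : ℝ), 0 < a → a ≤ 1 → ∃ C : ℝ, 1 ≤ C ∧
  ∀ (F : Type) [NormedAddCommGroup F] [NormedSpace ℝ F] (U : Set (EE n)) (f : EE n → F) (M : ℝ),
    IsOpen U →
    (CKA a U k M f → ContDiffOn ℝ k f U ∧ ∀ j ≤ k, HO a (C * M) U (iteratedFDeriv ℝ j f)) ∧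
    (ContDiffOn ℝ k f U → (∀ j ≤ k, HO a M U (iteratedFDeriv ℝ j f)) → CKA a U k M f) ∧
    (Convex ℝ U → ContDiffOn ℝ (k + 1 : ℕ) f U →
      (∀ j ≤ k + 1, ∀ x ∈ U, ‖iteratedFDeriv ℝ j f x‖ ≤ M) → CKA a U k (C * M) f)

/-- Interior Schauder estimates of all orders with lower order terms (regularity and estimate). -/
def SchAllStmt : Prop := ∀ (n k : ℕ) (a lo hi M R : ℝ), 0 < a → a < 1 → 0 < lo → lo ≤ hi →
  0 < R → R ≤ 1 → ∃ C : ℝ, 0 < C ∧ ∀ (x0 : EE n) (τ : EE n → Matrix (Fin n) (Fin n) ℝ)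
    (β : Fin n → EE n → ℝ) (c u f : EE n → ℝ) (N S : ℝ),
    (∀ x ∈ ball x0 R, Ell lo hi (τ x)) → (∀ i j, CKA a (ball x0 R) k M fun x => τ x i j) →
    (∀ i, CKA a (ball x0 R) k M (β i)) → CKA a (ball x0 R) k M c → CKA a (ball x0 R) k N f →
    (∃ V, CKA a (ball x0 R) 2 V u) → (∀ x ∈ ball x0 R, |u x| ≤ S) →
    (∀ x ∈ ball x0 R, P2 τ u x + ∑ i, β i x * pd i u x + c x * u x = f x) →
    CKA a (ball x0 (R / 2)) (k + 2) (C * (N + S)) u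

/-! ### T2: the global linear problem `τ : D²z - z = f` -/

/-- Maximum principle on `ℝⁿ` (gives uniqueness, hence periodicity). -/
def MaxPStmt : Prop := ∀ (n : ℕ) (lo hi : ℝ), 0 ≤ lo →
  ∀ (τ : EE n → Matrix (Fin n) (Fin n) ℝ) (z : EE n → ℝ) (N : ℝ), (∀ x, Ell lo hi (τ x)) →
    ContDiff ℝ 2 z → (∃ B, ∀ x, |z x| ≤ B) → (∀ x, |P2 τ z x - z x| ≤ N) → ∀ x, |z x| ≤ N

/-- Global Schauder estimate. -/
def GSchStmt : Prop := ∀ (n : ℕ) (a lo hi M : ℝ), 0 < a → a < 1 → 0 < lo → lo ≤ hi →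
  ∃ C : ℝ, 0 < C ∧ ∀ (τ : EE n → Matrix (Fin n) (Fin n) ℝ) (z : EE n → ℝ) (N : ℝ),
    (∀ x, Ell lo hi (τ x)) → (∀ i j, HO a M univ fun x => τ x i j) → ContDiff ℝ 2 z →
    (∃ V, C2A a V univ z) → HO a N univ (fun x => P2 τ z x - z x) → C2A a (C * N) univ z

/-- Solvability for the Laplacian. -/
def Solve0Stmt : Prop := ∀ (n : ℕ) (a : ℝ), 0 < a → a < 1 → ∀ (f : EE n → ℝ) (N : ℝ),
  HO a N univ f → ∃ z : EE n → ℝ, ContDiff ℝ 2 z ∧ (∃ V, C2A a V univ z) ∧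
    ∀ x, P2 (fun _ => 1) z x - z x = f x

/-- Solvability for Hölder coefficients. -/
def SolveStmt : Prop := ∀ (n : ℕ) (a lo hi M : ℝ), 0 < a → a < 1 → 0 < lo → lo ≤ hi →
  ∀ (τ : EE n → Matrix (Fin n) (Fin n) ℝ) (f : EE n → ℝ) (N : ℝ),
    (∀ x, Ell lo hi (τ x)) → (∀ i j, HO a M univ fun x => τ x i j) → HO a N univ f →
    ∃ z : EE n → ℝ, ContDiff ℝ 2 z ∧ (∃ V, C2A a V univ z) ∧ ∀ x, P2 τ z x - z x = f x

/-! ### T3: regularity of weak solutions -/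

/-- Linear systems with scalar principal part. -/
def RegSysStmt : Prop := ∀ (n : ℕ) (ι : Type) [Fintype ι] (U : Set (EE n)), IsOpen U →
  ∀ (A : EE n → Matrix (Fin n) (Fin n) ℝ) (B : Fin n → ι → ι → EE n → ℝ) (C : ι → ι → EE n → ℝ)
    (G : ι → EE n → ℝ), (∀ i j, ContDiffOn ℝ ∞ (fun x => A x i j) U) → (∀ x ∈ U, (A x).PosDef) →
    (∀ i a b, ContDiffOn ℝ ∞ (B i a b) U) → (∀ a b, ContDiffOn ℝ ∞ (C a b) U) →
    (∀ a, ContDiffOn ℝ ∞ (G a) U) → ∀ (ψ : ι → EE n → ℝ) (g : ι → EE n → EE n),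
    (∀ a, WG U (ψ a) (g a)) → (∀ a, L2loc U (ψ a)) → (∀ a, L2locV U (g a)) →
    (∀ a φ, R335.Test U φ → -∫ x, ∑ i, ∑ j, A x i j * g a x j * pd i φ x =
      ∫ x, (∑ b, (∑ i, B i a b x * g b x i + C a b x * ψ b x) + G a x) * φ x) →
    ∃ v : ι → EE n → ℝ, ∀ a, ContDiffOn ℝ ∞ (v a) U ∧ ψ a =ᵐ[volume.restrict U] v a ∧
      g a =ᵐ[volume.restrict U] gr (v a) ∧ ∀ x ∈ U,
        ∑ i, pd i (fun y => ∑ j, A y i j * pd j (v a) y) x =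
          ∑ b, (∑ i, B i a b x * pd i (v b) x + C a b x * v b x) + G a x

/-- Semilinear equations, `F (x, u x)` locally bounded. -/
def RegSemiStmt : Prop := ∀ (n : ℕ), 3 ≤ n → ∀ (U : Set (EE n)), IsOpen U →
  ∀ (A : EE n → Matrix (Fin n) (Fin n) ℝ) (F : EE n × ℝ → ℝ),
    (∀ i j, ContDiffOn ℝ ∞ (fun x => A x i j) U) → (∀ x ∈ U, (A x).PosDef) →
    ContDiffOn ℝ ∞ F (U ×ˢ univ) → ∀ (u : EE n → ℝ) (g : EE n → EE n), WG U u g → L2loc U u →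
    L2locV U g → (∀ K, IsCompact K → K ⊆ U → ∃ M, ∀ᵐ x, x ∈ K → |F (x, u x)| ≤ M) →
    (∀ φ, R335.Test U φ → -∫ x, ∑ i, ∑ j, A x i j * g x j * pd i φ x = ∫ x, F (x, u x) * φ x) →
    ∃ v : EE n → ℝ, ContDiffOn ℝ ∞ v U ∧ u =ᵐ[volume.restrict U] v ∧
      g =ᵐ[volume.restrict U] gr v ∧
      ∀ x ∈ U, ∑ i, pd i (fun y => ∑ j, A y i j * pd j v y) x = F (x, v x)

/-- De Giorgi-Nash-Moser interior estimate for smooth solutions with bounded right hand side. -/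
def HolderStmt : Prop := ∀ (n : ℕ), 3 ≤ n → ∀ lo hi L R : ℝ, 0 < lo → lo ≤ hi → 0 ≤ L → 0 < R →
  ∃ a C : ℝ, 0 < a ∧ a < 1 ∧ 0 < C ∧ ∀ (x0 : EE n) (A : EE n → Matrix (Fin n) (Fin n) ℝ)
    (u : EE n → ℝ) (N : ℝ), (∀ i j, ContDiffOn ℝ 1 (fun x => A x i j) (ball x0 (2 * R))) →
    (∀ x ∈ ball x0 (2 * R), Ell lo hi (A x)) → ContDiffOn ℝ 2 u (ball x0 (2 * R)) →
    IntegrableOn (fun x => u x ^ 2) (ball x0 (2 * R)) →
    (∀ x ∈ ball x0 (2 * R), |∑ i, pd i (fun y => ∑ j, A y i j * pd j u y) x| ≤ N + L * |u x|) →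
    0 ≤ N →
    HO a (C * (√(∫ x in ball x0 (2 * R), u x ^ 2) + N)) (ball x0 R) u

/-! ### T7: the Dirichlet space -/

/-- Density of test functions (keeping sup bounds). -/
def D1DenseStmt : Prop := ∀ (n : ℕ), 3 ≤ n → ∀ (u : EE n → ℝ) (g : EE n → EE n), D1 u g →
  ∃ φ : ℕ → EE n → ℝ, (∀ k, R335.Test univ (φ k)) ∧
    Tendsto (fun k => eLpNorm (fun x => gr (φ k) x - g x) 2 volume) atTop (𝓝 0) ∧
    Tendsto (fun k => eLpNorm (fun x => φ k x - u x) (ENNReal.ofReal (2 * R202.Moser.chi n)) volume)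
      atTop (𝓝 0) ∧ (∀ᵐ x, Tendsto (fun k => φ k x) atTop (𝓝 (u x))) ∧
    (∀ᵐ x, Tendsto (fun k => gr (φ k) x) atTop (𝓝 (g x))) ∧
    ∀ M : ℝ, (∀ᵐ x, |u x| ≤ M) → ∀ k x, |φ k x| ≤ M

/-- Sobolev and Hardy inequalities in `D^{1,2}`. -/
def D1IneqStmt : Prop := ∀ (n : ℕ), 3 ≤ n → ∃ C : ℝ, 0 < C ∧
  ∀ (u : EE n → ℝ) (g : EE n → EE n), D1 u g →
    (∫ x, |u x| ^ (2 * R202.Moser.chi n)) ^ (1 / R202.Moser.chi n) ≤ C * ∫ x, ‖g x‖ ^ 2 ∧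
    Integrable (fun x => u x ^ 2 / ‖x‖ ^ 2) ∧
    ∫ x, u x ^ 2 / ‖x‖ ^ 2 ≤ (2 / ((n : ℝ) - 2)) ^ 2 * ∫ x, ‖g x‖ ^ 2

/-- A function with square integrable weak gradient and the Hardy weight is in `D^{1,2}`. -/
def D1HardyStmt : Prop := ∀ (n : ℕ), 3 ≤ n → ∀ (u : EE n → ℝ) (g : EE n → EE n), WG univ u g →
  MemLp g 2 volume → Integrable (fun x => u x ^ 2 / (1 + ‖x‖ ^ 2)) → D1 u g

/-- Weak compactness (Rellich on balls) and lower semicontinuity. -/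
def D1CompactStmt : Prop := ∀ (n : ℕ), 3 ≤ n → ∀ (u : ℕ → EE n → ℝ) (g : ℕ → EE n → EE n)
  (B : ℝ), (∀ k, D1 (u k) (g k)) → (∀ k, ∫ x, ‖g k x‖ ^ 2 ≤ B) →
  ∃ (ψ : ℕ → ℕ) (v : EE n → ℝ) (h : EE n → EE n), StrictMono ψ ∧ D1 v h ∧
    (∀ᵐ x, Tendsto (fun k => u (ψ k) x) atTop (𝓝 (v x))) ∧
    (∀ R : ℝ, Tendsto (fun k => ∫ x in ball (0 : EE n) R, (u (ψ k) x - v x) ^ 2) atTop (𝓝 0)) ∧
    (∀ w : EE n → EE n, MemLp w 2 volume →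
      Tendsto (fun k => ∫ x, ⟪g (ψ k) x, w x⟫) atTop (𝓝 (∫ x, ⟪h x, w x⟫))) ∧
    ∀ (A : EE n → Matrix (Fin n) (Fin n) ℝ) (hi : ℝ), (∀ i j, Measurable fun x => A x i j) →
      (∀ x, Ell 0 hi (A x)) → ∀ ε > 0, ∀ᶠ k in atTop,
        ∫ x, ∑ i, ∑ j, A x i j * h x i * h x j ≤
          ∫ x, ∑ i, ∑ j, A x i j * g (ψ k) x i * g (ψ k) x j + ε

/-- Riesz / Lax-Milgram in `D^{1,2}`: `-div (A ∇u) + c u = f - div G`, `c ≥ 0`. -/
def D1SolveStmt : Prop := ∀ (n : ℕ), 3 ≤ n → ∀ (lo hi : ℝ), 0 < lo →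
  ∀ (A : EE n → Matrix (Fin n) (Fin n) ℝ) (c f : EE n → ℝ) (G : EE n → EE n),
    (∀ i j, Measurable fun x => A x i j) → (∀ x, Ell lo hi (A x)) → Measurable c → (∀ x, 0 ≤ c x) →
    (∃ B, ∀ x, c x ≤ B) → MemLp G 2 volume → AEStronglyMeasurable f volume →
    Integrable (fun x => f x ^ 2 * (1 + ‖x‖ ^ 2)) →
    ∃ (u : EE n → ℝ) (g : EE n → EE n), D1 u g ∧ Integrable (fun x => c x * u x ^ 2) ∧
      ∀ (v : EE n → ℝ) (h : EE n → EE n), D1 v h → Integrable (fun x => c x * v x ^ 2) →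
        ∫ x, (∑ i, ∑ j, A x i j * g x j * h x i + c x * u x * v x) =
          ∫ x, (f x * v x + ⟪G x, h x⟫)

/-- Divergence theorem on `ℝⁿ`. -/
def DivZeroStmt : Prop := ∀ (n : ℕ) (V : Fin n → EE n → ℝ), (∀ i, ContDiff ℝ 1 (V i)) →
  (∀ i, Integrable fun x => V i x / (1 + ‖x‖)) → Integrable (fun x => ∑ i, pd i (V i) x) →
  ∫ x, ∑ i, pd i (V i) x = 0

end

end Crest.Agent.NLib.Ell
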