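import Crest.Agent.NLib.Ell.LocMax

/-!
# The growth lemma (weak Harnack inequality in measure) on the unit scale (helper26)
-/

set_option autoImplicit false
open MeasureTheory Metric Set Filter Topology InnerProductSpace
open scoped NNReal ENNReal RealInnerProductSpace Gradient ContDiff

namespace Crest.Agent.NLib.Ell

open Crest.Agent.R202.Moser

noncomputable section

variable {n : ℕ}

local notation "E" n => EuclideanSpace ℝ (Fin n)

/-- Poincaré inequality for functions vanishing on a set `Z`. -/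
theorem poincare_zero {S Z : Set (E n)} (hS : IsOpen S) (hc : Convex ℝ S) (hSf : volume S ≠ ⊤)
    {f : (E n) → ℝ} (hf : ContDiffOn ℝ 1 f S) {d : ℝ} (hd0 : 0 ≤ d)
    (hd : ∀ x ∈ S, ∀ y ∈ S, dist x y ≤ d) (hZ : MeasurableSet Z) (hZS : Z ⊆ S)
    (h0 : ∀ x ∈ Z, f x = 0) (i1 : IntegrableOn f S) (i2 : IntegrableOn (fun x => ‖∇ f x‖) S) :
    volume.real Z * ∫ x in S, |f x| ≤ d * (2 ^ n * volume.real S * ∫ x in S, ‖∇ f x‖) := by
  have key := R236.Poinc.poincare hS hc hf hd
  have e1 : volume Z * ∫⁻ y in S, ‖f y‖ₑ ≤ ∫⁻ y in S, ∫⁻ x in S, ‖f y - f x‖ₑ := by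
    rw [← lintegral_const_mul' _ _ (ne_top_of_le_ne_top hSf (measure_mono hZS))]
    refine lintegral_mono fun y => ?_
    calc volume Z * ‖f y‖ₑ = ∫⁻ x in Z, ‖f y - f x‖ₑ := by
          rw [setLIntegral_congr_fun hZ (g := fun _ => ‖f y‖ₑ) fun x hx => by simp [h0 x hx],
            setLIntegral_const, mul_comm]
      _ ≤ _ := lintegral_mono_set hZS
  have e2 : ∫⁻ y in S, ‖f y‖ₑ = ENNReal.ofReal (∫ x in S, |f x|) :=
    (ofReal_integral_norm_eq_lintegral_enorm i1).symm
  have e3 : ∫⁻ z in S, ‖fderiv ℝ f z‖ₑ = ENNReal.ofReal (∫ x in S, ‖∇ f x‖) := by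
    rw [ofReal_integral_eq_lintegral_ofReal i2 (Eventually.of_forall fun x => norm_nonneg _)]
    simp only [norm_gradient, ofReal_norm]
  have e4 := e1.trans key
  rw [e2, e3, ← ofReal_measureReal (ne_top_of_le_ne_top hSf (measure_mono hZS)),
    ← ofReal_measureReal hSf, ← ENNReal.ofReal_mul measureReal_nonneg,
    show (2 : ℝ≥0∞) ^ n = ENNReal.ofReal (2 ^ n) by
      rw [ENNReal.ofReal_pow (by norm_num)]; norm_num,
    ← ENNReal.ofReal_mul (by positivity), ← ENNReal.ofReal_mul (by positivity),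
    ← ENNReal.ofReal_mul hd0] at e4
  exact (ENNReal.ofReal_le_ofReal_iff (by positivity)).1 e4

/-- `(max s 0)²`, a `C¹` function. -/
def psq (s : ℝ) : ℝ := (s ^ 2 + sp 1 s) / 2

theorem psq_eq (s : ℝ) : psq s = max s 0 ^ 2 := by
  rw [psq, sp, Real.rpow_one]
  rcases le_total s 0 with h | h
  · rw [abs_of_nonpos h, max_eq_right h]; ring
  · rw [abs_of_nonneg h, max_eq_left h]; ring

theorem hasDerivAt_psq (s : ℝ) : HasDerivAt psq (2 * max s 0) s := by
  refine (((hasDerivAt_pow 2 s).add (hasDerivAt_sp zero_le_one s)).div_const 2).congr_deriv ?_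
  rw [Real.rpow_one]
  rcases le_total s 0 with h | h
  · rw [abs_of_nonpos h, max_eq_right h]; norm_num
  · rw [abs_of_nonneg h, max_eq_left h]; norm_num

theorem contDiff_psq : ContDiff ℝ 1 psq :=
  ((contDiff_id.pow 2).add (contDiff_sp zero_le_one)).div_const 2

/-- `L²` bound of the positive part of a function that is nonpositive on a set of measure `θ`. -/
theorem posPart_sq_le {U Z : Set (E n)} (hU : IsOpen U) {ρ θ : ℝ} (hρ : 0 < ρ) (hθ : 0 < θ)
    (hB : closedBall (0 : E n) ρ ⊆ U) {w : (E n) → ℝ} (hw : ContDiffOn ℝ 1 w U)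
    (hZ : MeasurableSet Z) (hZS : Z ⊆ ball 0 ρ) (hθZ : θ ≤ volume.real Z) (h0 : ∀ x ∈ Z, w x ≤ 0) :
    ∫ x in ball (0 : E n) ρ, max (w x) 0 ^ 2 ≤
      (4 * ρ * 2 ^ n * volume.real (ball (0 : E n) ρ) / θ) ^ 2 * ∫ x in ball (0 : E n) ρ, ‖∇ w x‖ ^ 2 := by
  have hsub : ball (0 : E n) ρ ⊆ U := ball_subset_closedBall.trans hB
  have io : ∀ {f : (E n) → ℝ}, ContinuousOn f U → IntegrableOn f (ball 0 ρ) := fun hf =>
    ((hf.mono hB).integrableOn_compact (isCompact_closedBall _ _)).mono_set ball_subset_closedBall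
  have cf : ContDiffOn ℝ 1 (fun x => psq (w x)) U := contDiff_psq.comp_contDiffOn hw
  have cg := continuousOn_gradient hU hw
  have cp : ContinuousOn (fun x => max (w x) 0) U := hw.continuousOn.sup continuousOn_const
  have key := poincare_zero isOpen_ball (convex_ball 0 ρ) measure_ball_lt_top.ne (cf.mono hsub)
    (d := 2 * ρ) (by positivity) (fun x hx y hy => by
      linarith [dist_triangle_right x y 0, mem_ball.1 hx, mem_ball.1 hy]) hZ hZS
    (fun x hx => by rw [psq_eq, max_eq_right (h0 x hx)]; norm_num) (io cf.continuousOn)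
    (io (continuousOn_gradient hU cf).norm)
  set V := volume.real (ball (0 : E n) ρ) with hV
  have hV0 : 0 < V := lt_of_lt_of_le hθ (hθZ.trans (measureReal_mono hZS measure_ball_lt_top.ne))
  set I := ∫ x in ball (0 : E n) ρ, max (w x) 0 ^ 2 with hI
  set J := ∫ x in ball (0 : E n) ρ, ‖∇ w x‖ ^ 2 with hJ
  have hI0 : 0 ≤ I := by positivity
  have e1 : ∫ x in ball (0 : E n) ρ, |psq (w x)| = I := by
    simp only [psq_eq, abs_pow, sq_abs, hI]
  set D := 4 * ρ * 2 ^ n * V / θ with hD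
  have hD0 : 0 < D := by positivity
  have e2 : ∫ x in ball (0 : E n) ρ, ‖∇ (fun x => psq (w x)) x‖ ≤ D⁻¹ * I + D * J := by
    have i1 : IntegrableOn (fun x => D⁻¹ * max (w x) 0 ^ 2) (ball 0 ρ) := (io (cp.pow 2)).const_mul _
    have i2 : IntegrableOn (fun x => D * ‖∇ w x‖ ^ 2) (ball 0 ρ) := (io (cg.norm.pow 2)).const_mul _
    rw [hI, hJ, ← integral_const_mul, ← integral_const_mul, ← integral_add i1 i2]
    refine setIntegral_mono_on (io (continuousOn_gradient hU cf).norm) (i1.add i2)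
      measurableSet_ball fun x hx => ?_
    rw [gradient_comp (diffAt hU hw (hsub hx)) (hasDerivAt_psq _), norm_smul, Real.norm_eq_abs,
      abs_of_nonneg (by positivity)]
    have h1 : D⁻¹ * max (w x) 0 ^ 2 + D * ‖∇ w x‖ ^ 2 - 2 * max (w x) 0 * ‖∇ w x‖ =
        D⁻¹ * (max (w x) 0 - D * ‖∇ w x‖) ^ 2 := by field_simp; ring
    have h2 : 0 ≤ D⁻¹ * (max (w x) 0 - D * ‖∇ w x‖) ^ 2 := by positivity
    linarith
  rw [e1] at key
  have e3 : θ * I ≤ 2 * ρ * (2 ^ n * V * (D⁻¹ * I + D * J)) :=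
    (mul_le_mul_of_nonneg_right hθZ hI0).trans (key.trans (by gcongr))
  have e4 : 2 * ρ * (2 ^ n * V * (D⁻¹ * I + D * J)) = θ / 2 * I + θ / 2 * (D ^ 2 * J) := by
    rw [hD]; field_simp; ring
  rw [e4] at e3
  nlinarith

variable {lam Lam a b : ℝ} {U : Set (E n)} {u m : (E n) → ℝ} {F : (E n) → E n}

theorem gradient_log (hU : IsOpen U) (hu : ContDiffOn ℝ 1 u U) {k : ℝ} (c : ℝ)
    (hpos : ∀ x ∈ U, 0 < u x + k) {x : E n} (hx : x ∈ U) :
    ∇ (fun x => c - Real.log (u x + k)) x = (-(u x + k)⁻¹) • ∇ u x :=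
  gradient_comp (H := fun s => c - Real.log (s + k)) (diffAt hU hu hx) (by
    simpa using (((hasDerivAt_id' (u x)).add_const k).log (hpos x hx).ne').const_sub c)

/-- The logarithmic weak inequality for a positive supersolution. -/
theorem Sup.weak_log (hU : IsOpen U) (ha : 0 ≤ a) (h : Sup lam Lam a b U u m F) {k : ℝ} (c : ℝ)
    (hpos : ∀ x ∈ U, 0 < u x + k) (hm : ∀ x ∈ U, m x ≤ u x + k) {φ : (E n) → ℝ} (hφ : Test U φ) :
    ∫ x, ⟪(-(u x + k)⁻¹) • F x, ∇ φ x⟫ ≤
      ∫ x, (b * ‖∇ (fun x => c - Real.log (u x + k)) x‖ + (a + a ^ 2) -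
        lam * ‖∇ (fun x => c - Real.log (u x + k)) x‖ ^ 2) * φ x := by
  have hu : ContDiffOn ℝ 1 u U := by simpa using h.cu.neg
  have cw : ContDiffOn ℝ 1 (fun x => c - Real.log (u x + k)) U :=
    contDiffOn_const.sub ((hu.add contDiffOn_const).log fun x hx => (hpos x hx).ne')
  have cH : ContinuousOn (fun s : ℝ => ((k - s) ^ 2)⁻¹) (Iio k) :=
    ((continuousOn_const.sub continuousOn_id).pow 2).inv₀ fun s hs =>
      pow_ne_zero 2 (sub_pos.2 hs).ne'
  have hS : ∀ x ∈ U, -u x ∈ Iio k := fun x hx => by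
    rw [mem_Iio]; linarith [hpos x hx]
  have key := Sub.weak_mul hU h (H := fun s => (k - s)⁻¹) (H' := fun s => ((k - s) ^ 2)⁻¹)
    isOpen_Iio hS (fun s hs => (((hasDerivAt_id' s).const_sub k).fun_inv
      (sub_pos.2 hs).ne').congr_deriv (by simp [div_eq_mul_inv]))
    cH (fun s hs => (inv_pos.2 (sub_pos.2 hs)).le) hφ
  have cg := continuousOn_gradient hU h.cu
  have cg' := (continuousOn_gradient hU cw).norm
  have c0 : ContinuousOn (fun x => (k - -u x)⁻¹) U :=
    (continuousOn_const.sub h.cu.continuousOn).inv₀ fun x hx => (sub_pos.2 (hS x hx)).ne'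
  refine le_trans (le_of_eq ?_) (key.trans (integral_mono (hφ.int_mul ((((continuousOn_const.mul
    cg.norm).add (continuousOn_const.mul h.cm)).mul c0).sub
    ((cH.comp h.cu.continuousOn hS).mul (h.cF.inner cg)))) (hφ.int_mul (((continuousOn_const.mul
    cg').add continuousOn_const).sub (continuousOn_const.mul (cg'.pow 2)))) fun x => ?_))
  · simp only [sub_neg_eq_add, add_comm k, smul_neg, neg_smul]
  · by_cases hx : x ∈ tsupport φ
    · have hx' := hφ.sub hx
      refine mul_le_mul_of_nonneg_right ?_ (hφ.nonneg x)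
      have hp := hpos x hx'
      have hl := h.low x hx'
      rw [gradient_log hU hu c hpos hx', norm_smul, norm_neg, norm_inv, Real.norm_eq_abs,
        abs_of_pos hp, sub_neg_eq_add, add_comm k]
      rw [gradient_neg, norm_neg] at hl ⊢
      set i := (u x + k)⁻¹ with hi
      have hi0 : 0 < i := inv_pos.2 hp
      have e0 : ((u x + k) ^ 2)⁻¹ = i ^ 2 := by rw [hi, inv_pow]
      have e1 : m x * i ≤ 1 := by
        rw [hi, ← div_eq_mul_inv, div_le_one hp]; exact hm x hx'
      have e2 : (m x * i) ^ 2 ≤ 1 := pow_le_one₀ (mul_nonneg (h.m0 x hx') hi0.le) e1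
      have e3 := mul_le_mul_of_nonneg_left hl (sq_nonneg i)
      have e4 := mul_le_mul_of_nonneg_left e1 ha
      have e5 := mul_le_mul_of_nonneg_left e2 (sq_nonneg a)
      rw [e0]
      nlinarith
    · simp [image_eq_zero_of_notMem_tsupport hx]

/-- Minus the logarithm of a positive supersolution is a subsolution. -/
theorem Sup.log (hU : IsOpen U) (hlam : 0 ≤ lam) (ha : 0 ≤ a) (h : Sup lam Lam a b U u m F)
    {k : ℝ} (c : ℝ) (hpos : ∀ x ∈ U, 0 < u x + k) (hm : ∀ x ∈ U, m x ≤ u x + k) :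
    Sub lam Lam (a + a ^ 2) b U (fun x => c - Real.log (u x + k)) (fun _ => 1)
      (fun x => (-(u x + k)⁻¹) • F x) := by
  have hu : ContDiffOn ℝ 1 u U := by simpa using h.cu.neg
  have hF : ContinuousOn F U := h.cF.neg.congr fun x _ => by simp
  have cw : ContDiffOn ℝ 1 (fun x => c - Real.log (u x + k)) U :=
    contDiffOn_const.sub ((hu.add contDiffOn_const).log fun x hx => (hpos x hx).ne')
  have e1 : ∀ x ∈ U, a * m x * (u x + k)⁻¹ ≤ a := fun x hx => by
    rw [mul_assoc]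
    refine mul_le_of_le_one_right ha ?_
    rw [← div_eq_mul_inv, div_le_one (hpos x hx)]; exact hm x hx
  have cg' := (continuousOn_gradient hU cw).norm
  refine ⟨cw, continuousOn_const, (((hu.continuousOn.add continuousOn_const).inv₀ fun x hx =>
    (hpos x hx).ne').neg).smul hF, fun _ _ => zero_le_one, fun x hx => ?_, fun x hx => ?_,
    fun φ hφ => ?_⟩
  · have hl := h.low x hx
    rw [gradient_neg, norm_neg, inner_neg_neg] at hl
    rw [gradient_log hU hu c hpos hx, norm_smul, inner_smul_left, inner_smul_right, conj_trivial,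
      Real.norm_eq_abs, mul_pow, sq_abs]
    have e2 := pow_le_pow_left₀ (mul_nonneg (mul_nonneg ha (h.m0 x hx)) (inv_pos.2 (hpos x hx)).le)
      ((e1 x hx).trans (by nlinarith [sq_nonneg a] : a ≤ a + a ^ 2)) 2
    have e3 := mul_le_mul_of_nonneg_left hl (sq_nonneg (u x + k)⁻¹)
    nlinarith
  · have hl := h.up x hx
    rw [gradient_neg, norm_neg, norm_neg] at hl
    rw [gradient_log hU hu c hpos hx, norm_smul, norm_smul, norm_neg, norm_inv, Real.norm_eq_abs,
      abs_of_pos (hpos x hx)]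
    have e3 := mul_le_mul_of_nonneg_left hl (inv_pos.2 (hpos x hx)).le
    nlinarith [e1 x hx, sq_nonneg a]
  · refine (h.weak_log hU ha c hpos hm hφ).trans (integral_mono (hφ.int_mul
      (((continuousOn_const.mul cg').add continuousOn_const).sub (continuousOn_const.mul (cg'.pow 2))))
      (hφ.int_mul ((continuousOn_const.mul cg').add continuousOn_const)) fun x => ?_)
    refine mul_le_mul_of_nonneg_right ?_ (hφ.nonneg x)
    have := mul_nonneg hlam (sq_nonneg ‖∇ (fun x => c - Real.log (u x + k)) x‖)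
    linarith

/-- The logarithmic energy estimate. -/
theorem Sup.log_energy (hU : IsOpen U) (hlam : 0 < lam) (ha : 0 ≤ a)
    (h : Sup lam Lam a b U u m F) {k : ℝ} (c : ℝ) (hpos : ∀ x ∈ U, 0 < u x + k)
    (hm : ∀ x ∈ U, m x ≤ u x + k) {η : (E n) → ℝ} (hη : Test U η) :
    ∫ x, ‖∇ (fun x => c - Real.log (u x + k)) x‖ ^ 2 * η x ^ 2 ≤
      2 * K0 lam Lam (a + a ^ 2) b / lam * ∫ x, (η x ^ 2 + ‖∇ η x‖ ^ 2) := by
  have h' := h.log hU hlam.le ha c hpos hm
  have key := h.weak_log hU ha c hpos hm hη.sq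
  have cg := (continuousOn_gradient hU h'.cu).norm
  have dη := hη.c1.differentiable (by norm_num)
  have z0 : ∀ x, x ∉ tsupport η → η x = 0 := fun x hx => image_eq_zero_of_notMem_tsupport hx
  have z1 : ∀ x, x ∉ tsupport η → ∇ η x = 0 := fun x hx => gradient_eq_zero_of_notMem hx
  have iY : Integrable fun x => η x ^ 2 + ‖∇ η x‖ ^ 2 :=
    integrable_of_on hη.cs.isCompact hη.sub ((hη.c1.continuous.pow 2).add
      ((continuous_gradient hη.c1).norm.pow 2)).continuousOn fun x hx => by simp [z0 x hx, z1 x hx]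
  have e1 := int_le_of_weak (hη.sq.int_inner h'.cF) (hη.sq.int_mul (((continuousOn_const.mul
    cg).add continuousOn_const).sub (continuousOn_const.mul (cg.pow 2))))
    ((hη.sq.int_mul (cg.pow 2)).const_mul (lam / 2)) (iY.const_mul (K0 lam Lam (a + a ^ 2) b))
    key fun x => ?_
  · rw [integral_const_mul, integral_const_mul] at e1
    simp only [Pi.pow_apply] at e1
    rw [div_mul_eq_mul_div, le_div_iff₀ hlam]
    linarith
  · by_cases hx : x ∈ tsupport η
    · have hx' := hη.sub hx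
      simp only [Pi.pow_apply, Pi.sub_apply, Pi.add_apply, Pi.mul_apply]
      rw [gradient_sq (dη x), inner_smul_right]
      set G := (-(u x + k)⁻¹) • F x
      set g := ‖∇ (fun x => c - Real.log (u x + k)) x‖
      have hJ : -((Lam * g + (a + a ^ 2) * 1) * ‖∇ η x‖) ≤ ⟪G, ∇ η x⟫ := by
        have h1 := abs_real_inner_le_norm G (∇ η x)
        have h2 := mul_le_mul_of_nonneg_right (h'.up x hx') (norm_nonneg (∇ η x))
        linarith [neg_abs_le ⟪G, ∇ η x⟫]
      have := cacc_pt (b := b) (I := lam * g ^ 2) hlam (by positivity : 0 ≤ a + a ^ 2) le_rfl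
        zero_le_one (hη.nonneg x) (by nlinarith [sq_nonneg (a + a ^ 2)]) hJ
      nlinarith
    · rw [gradient_sq (dη x)]
      simp [z0 x hx, z1 x hx]

theorem measurableSet_inter_ge {S : Set (E n)} (hS : IsOpen S) (hu : ContinuousOn u S) (t : ℝ) :
    MeasurableSet (S ∩ {x | t ≤ u x}) := by
  have := hS.measurableSet.diff (hu.isOpen_inter_preimage hS (isOpen_Iio (a := t))).measurableSet
  convert this using 1
  ext y
  exact ⟨fun h => ⟨h.1, fun h' => not_lt.2 h.2.out h'.2⟩,
    fun h => ⟨h.1, (not_lt.1 fun h' : u y < t => h.2 ⟨h.1, h'⟩ : t ≤ u y)⟩⟩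

/-- **Growth lemma** on the unit scale. -/
theorem growth_unit (hn : 3 ≤ n) (hlam : 0 < lam) (Lam : ℝ) (ha : 0 ≤ a) (b : ℝ) {θ : ℝ}
    (hθ : 0 < θ) : ∃ c : ℝ, 0 < c ∧ c ≤ 1 ∧ ∀ (u m : (E n) → ℝ) (F : (E n) → E n) (k t : ℝ),
      Sup lam Lam a b (ball 0 4) u m F → 0 ≤ k → (∀ x ∈ ball (0 : E n) 4, 0 ≤ u x) →
      (∀ x ∈ ball (0 : E n) 4, m x ≤ u x + k) →
      θ ≤ volume.real (ball (0 : E n) 2 ∩ {x | t ≤ u x}) →
      ∀ x ∈ ball (0 : E n) 1, c * t ≤ u x + k := by
  obtain ⟨C, hC, hloc⟩ := locmax_unit hn hlam Lam (a := a + a ^ 2) (by positivity) b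
  obtain ⟨C2, -, hcut⟩ := exists_cutoff (n := n)
  obtain ⟨η, hη1, hηc, hηs, hη1', hη0, -, -⟩ := hcut 2 3 (by norm_num) (by norm_num)
  have hη : Test (ball 0 4) η := ⟨hη1, hηc, hηs.trans (closedBall_subset_ball (by norm_num)), hη0⟩
  set L := C * (√((4 * 2 * 2 ^ n * volume.real (ball (0 : E n) 2) / θ) ^ 2 *
    (2 * K0 lam Lam (a + a ^ 2) b / lam * ∫ x, (η x ^ 2 + ‖∇ η x‖ ^ 2))) + 1) with hL
  have hL0 : 0 ≤ L := by positivity
  refine ⟨Real.exp (-L), Real.exp_pos _, Real.exp_le_one_iff.2 (by linarith),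
    fun u m F k t h hk hu0 hm hθ' x hx => ?_⟩
  have h14 : ball (0 : E n) 1 ⊆ ball 0 4 := ball_subset_ball (by norm_num)
  have h24 : ball (0 : E n) 2 ⊆ ball 0 4 := ball_subset_ball (by norm_num)
  rcases le_or_gt t 0 with ht | ht
  · nlinarith [Real.exp_pos (-L), hu0 x (h14 hx)]
  refine le_of_forall_pos_le_add fun ε hε => ?_
  rw [add_assoc]
  set k' := k + ε with hk'
  have hpos : ∀ x ∈ ball (0 : E n) 4, 0 < u x + k' := fun x hx => by linarith [hu0 x hx]
  have hm' : ∀ x ∈ ball (0 : E n) 4, m x ≤ u x + k' := fun x hx => by linarith [hm x hx]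
  have h' := h.log isOpen_ball hlam.le ha (Real.log t) hpos hm'
  have hu : ContDiffOn ℝ 1 u (ball 0 4) := by simpa using h.cu.neg
  have e1 := h.log_energy isOpen_ball hlam ha (Real.log t) hpos hm' hη
  have cg := (continuousOn_gradient isOpen_ball h'.cu).norm
  have hB : closedBall (0 : E n) 2 ⊆ ball 0 4 := closedBall_subset_ball (by norm_num)
  have hZ : MeasurableSet (ball (0 : E n) 2 ∩ {x | t ≤ u x}) :=
    measurableSet_inter_ge isOpen_ball (hu.continuousOn.mono h24) t
  have e2 := posPart_sq_le isOpen_ball (ρ := 2) (by norm_num) hθ hB h'.cu hZ inter_subset_left hθ'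
    fun y hy => sub_nonpos.2 (Real.log_le_log ht (by linarith [hy.2.out]))
  have e3 : ∫ x in ball (0 : E n) 2, ‖∇ (fun x => Real.log t - Real.log (u x + k')) x‖ ^ 2 ≤
      ∫ x, ‖∇ (fun x => Real.log t - Real.log (u x + k')) x‖ ^ 2 * η x ^ 2 := by
    refine le_trans (le_of_eq ?_) (setIntegral_le_integral (s := ball 0 2)
      (hη.sq.int_mul (cg.pow 2)) (Eventually.of_forall fun x => by positivity))
    refine setIntegral_congr_fun measurableSet_ball fun y hy => ?_
    simp [hη1' y (ball_subset_closedBall hy)]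
  have e4 := hloc _ _ _ 1 (h'.restrict h24) zero_le_one
    (fun y _ => by linarith [le_max_right (Real.log t - Real.log (u y + k')) 0]) x hx
  have e5 : ∫ y in closedBall (0 : E n) (3 / 2), max (Real.log t - Real.log (u y + k')) 0 ^ 2 ≤
      ∫ y in ball (0 : E n) 2, max (Real.log t - Real.log (u y + k')) 0 ^ 2 :=
    setIntegral_mono_set ((((h'.cu.continuousOn.sup continuousOn_const).pow 2).mono
      hB).integrableOn_compact (isCompact_closedBall _ _) |>.mono_set ball_subset_closedBall)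
      (Eventually.of_forall fun x => by positivity)
      (LE.le.eventuallyLE (closedBall_subset_ball (by norm_num)))
  have e6 : Real.log t - Real.log (u x + k') ≤ L := by
    refine e4.trans (mul_le_mul_of_nonneg_left (add_le_add_left (Real.sqrt_le_sqrt ?_) 1) hC.le)
    exact e5.trans (e2.trans (mul_le_mul_of_nonneg_left (e3.trans e1) (sq_nonneg _)))
  rw [← Real.exp_log ht, ← Real.exp_log (hpos x (h14 hx)), ← Real.exp_add, Real.exp_le_exp]
  linarith

end

end Crest.Agent.NLib.Ell
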