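import Crest.Agent.NLib.Ell.Shapes

/-!
# Calculus of the quantitative Hölder classes `CKA` (helper8, task T6c, part 1)

`CKA.{ho,diff,pd,mono,mono',subset,congr,pred,of_le,const,zero,add,neg,sub,clm,smul,sum,sum_le,
bilin,mul,smulF,prod,pi,apply,fderiv,of_fderiv,contDiffOn,affine,translate,dilate}`.
-/

set_option autoImplicit false
open Metric Set Filter Topology
open scoped ContDiff

namespace Crest.Agent.NLib.Ell

open Crest.Agent.R273.SchA_152

noncomputable section

/-- coordinate vectors -/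
abbrev ei {n : ℕ} (i : Fin n) : EE n := EuclideanSpace.single i (1 : ℝ)

theorem norm_ei {n : ℕ} (i : Fin n) : ‖(ei i : EE n)‖ = 1 := by simp

/-! ### `HO` -/

section ho

variable {X F G H : Type*} [NormedAddCommGroup X] [NormedAddCommGroup F] [NormedAddCommGroup G]
  [NormedAddCommGroup H] {a M N : ℝ} {s : Set X}

theorem ho_empty (f : X → F) : HO a M (∅ : Set X) f :=
  ⟨fun _ h => h.elim, fun _ h => h.elim⟩

theorem ho_mono' {f : X → F} (h : HO a M s f) (hMN : 0 ≤ M → M ≤ N) : HO a N s f := by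
  rcases s.eq_empty_or_nonempty with rfl | ⟨x, hx⟩
  · exact ho_empty f
  · exact h.mono (hMN (h.nonneg hx))

theorem ho_const (c : F) : HO a ‖c‖ s (fun _ : X => c) :=
  ⟨fun _ _ => le_rfl, fun x _ y _ => by
    rw [sub_self, norm_zero]
    exact mul_nonneg (norm_nonneg _) (Real.rpow_nonneg (norm_nonneg _) _)⟩

/-- maps which are `L`-Lipschitz and fix `0` -/
theorem ho_map {f : X → F} (h : HO a M s f) {T : F → G} {L : ℝ} (hL : 0 ≤ L)
    (h0 : ∀ u, ‖T u‖ ≤ L * ‖u‖) (h1 : ∀ u v, ‖T u - T v‖ ≤ L * ‖u - v‖) :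
    HO a (L * M) s (fun x => T (f x)) :=
  ⟨fun x hx => (h0 _).trans (mul_le_mul_of_nonneg_left (h.bdd x hx) hL), fun x hx y hy => by
    rw [mul_assoc]
    exact (h1 _ _).trans (mul_le_mul_of_nonneg_left (h.hol x hx y hy) hL)⟩

theorem ho_continuousOn {f : X → F} (h : HO a M s f) (ha : 0 < a) : ContinuousOn f s := by
  intro x hx
  rw [ContinuousWithinAt, tendsto_iff_norm_sub_tendsto_zero]
  have h1 : Tendsto (fun y => M * ‖y - x‖ ^ a) (𝓝[s] x) (𝓝 0) := by
    have h2 : ContinuousAt (fun y : X => M * ‖y - x‖ ^ a) x :=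
      continuousAt_const.mul (((continuousAt_id.sub continuousAt_const).norm).rpow_const
        (Or.inr ha.le))
    have h3 := h2.tendsto
    simp only [sub_self, norm_zero, Real.zero_rpow ha.ne', mul_zero] at h3
    exact h3.mono_left nhdsWithin_le_nhds
  refine squeeze_zero' (Eventually.of_forall fun _ => norm_nonneg _) ?_ h1
  filter_upwards [self_mem_nhdsWithin] with y hy using h.hol y hy x hx

variable [NormedSpace ℝ F] [NormedSpace ℝ G] [NormedSpace ℝ H]

theorem ho_clm {f : X → F} (h : HO a M s f) (T : F →L[ℝ] G) {L : ℝ} (hL : ‖T‖ ≤ L) :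
    HO a (L * M) s (fun x => T (f x)) :=
  ho_map h ((norm_nonneg _).trans hL)
    (fun u => (T.le_opNorm u).trans (mul_le_mul_of_nonneg_right hL (norm_nonneg _)))
    (fun u v => by
      rw [← map_sub]
      exact (T.le_opNorm _).trans (mul_le_mul_of_nonneg_right hL (norm_nonneg _)))

theorem ho_bilin {f : X → F} {g : X → G} (B : F →L[ℝ] G →L[ℝ] H) {L : ℝ} (hL : ‖B‖ ≤ L)
    (hf : HO a M s f) (hg : HO a N s g) :
    HO a (2 * (L * (M * N))) s (fun x => B (f x) (g x)) := by
  have hL0 : 0 ≤ L := (norm_nonneg B).trans hL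
  have key : ∀ u v p q, ‖u‖ ≤ p → ‖v‖ ≤ q → ‖B u v‖ ≤ L * (p * q) := fun u v p q hu hv => by
    have hp : 0 ≤ p := (norm_nonneg _).trans hu
    refine (B.le_opNorm₂ u v).trans ?_
    rw [mul_assoc]
    exact mul_le_mul hL (mul_le_mul hu hv (norm_nonneg _) hp) (by positivity) hL0
  refine ⟨fun x hx => ?_, fun x hx y hy => ?_⟩
  · have h1 := key _ _ _ _ (hf.bdd x hx) (hg.bdd x hx)
    have h2 := (norm_nonneg _).trans h1
    linarith
  · have e : B (f x) (g x) - B (f y) (g y) = B (f x - f y) (g x) + B (f y) (g x - g y) := by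
      simp only [map_sub, _root_.sub_apply]; abel
    rw [e]
    refine (norm_add_le _ _).trans ?_
    have h1 := key _ _ _ _ (hf.hol x hx y hy) (hg.bdd x hx)
    have h2 := key _ _ _ _ (hf.bdd y hy) (hg.hol x hx y hy)
    linarith

end ho

/-! ### `CKA` -/

variable {n : ℕ} {F G H : Type} [NormedAddCommGroup F] [NormedSpace ℝ F] [NormedAddCommGroup G]
  [NormedSpace ℝ G] [NormedAddCommGroup H] [NormedSpace ℝ H] {a M N : ℝ} {U V : Set (EE n)}
  {k : ℕ} {f g : EE n → F}

theorem cka_zero : CKA a U 0 M f ↔ HO a M U f := Iff.rfl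

theorem cka_succ : CKA a U (k + 1) M f ↔ HO a M U f ∧ DifferentiableOn ℝ f U ∧
    ∀ i, CKA a U k M fun x => fderiv ℝ f x (ei i) := Iff.rfl

namespace CKA

theorem ho (h : CKA a U k M f) : HO a M U f := by
  cases k with
  | zero => exact h
  | succ k => exact h.1

theorem diff (h : CKA a U (k + 1) M f) : DifferentiableOn ℝ f U := h.2.1

theorem diffAt (h : CKA a U (k + 1) M f) (hU : IsOpen U) {x : EE n} (hx : x ∈ U) :
    DifferentiableAt ℝ f x := h.diff.differentiableAt (hU.mem_nhds hx)

theorem pd (h : CKA a U (k + 1) M f) (i : Fin n) :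
    CKA a U k M fun x => fderiv ℝ f x (ei i) := h.2.2 i

theorem bdd (h : CKA a U k M f) {x : EE n} (hx : x ∈ U) : ‖f x‖ ≤ M := h.ho.bdd x hx

theorem nonneg (h : CKA a U k M f) {x : EE n} (hx : x ∈ U) : 0 ≤ M := h.ho.nonneg hx

theorem empty (f : EE n → F) : CKA a (∅ : Set (EE n)) k M f := by
  induction k generalizing f with
  | zero => exact ho_empty f
  | succ k ih => exact ⟨ho_empty f, differentiableOn_empty, fun i => ih _⟩

theorem mono (h : CKA a U k M f) (hMN : M ≤ N) : CKA a U k N f := by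
  induction k generalizing f with
  | zero => exact HO.mono h hMN
  | succ k ih => exact ⟨h.1.mono hMN, h.2.1, fun i => ih (h.2.2 i)⟩

/-- monotonicity, `0 ≤ M` may be assumed -/
theorem mono' (h : CKA a U k M f) (hMN : 0 ≤ M → M ≤ N) : CKA a U k N f := by
  rcases U.eq_empty_or_nonempty with rfl | ⟨x, hx⟩
  · exact empty f
  · exact h.mono (hMN (h.nonneg hx))

theorem subset (h : CKA a U k M f) (hV : V ⊆ U) : CKA a V k M f := by
  induction k generalizing f with
  | zero => exact HO.subset h hV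
  | succ k ih => exact ⟨h.1.subset hV, h.2.1.mono hV, fun i => ih (h.2.2 i)⟩

theorem congr (h : CKA a U k M f) (hU : IsOpen U) (e : ∀ x ∈ U, g x = f x) : CKA a U k M g := by
  induction k generalizing f g with
  | zero => exact HO.congr h e
  | succ k ih =>
    refine ⟨h.1.congr e, h.2.1.congr e, fun i => ih (h.2.2 i) fun x hx => ?_⟩
    have : g =ᶠ[𝓝 x] f := eventually_of_mem (hU.mem_nhds hx) e
    rw [this.fderiv_eq]

theorem pred (h : CKA a U (k + 1) M f) : CKA a U k M f := by
  induction k generalizing f with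
  | zero => exact h.1
  | succ k ih => exact ⟨h.1, h.2.1, fun i => ih (h.2.2 i)⟩

theorem of_le (h : CKA a U k M f) {j : ℕ} (hj : j ≤ k) : CKA a U j M f := by
  induction hj with
  | refl => exact h
  | step _ ih => exact ih h.pred

theorem const (c : F) : CKA a U k ‖c‖ fun _ : EE n => c := by
  induction k generalizing c with
  | zero => exact ho_const c
  | succ k ih =>
    refine ⟨ho_const c, differentiableOn_const c, fun i => ?_⟩
    have := (ih (0 : F)).mono (N := ‖c‖) (by simp)
    simpa using this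

theorem zero : CKA a U k 0 fun _ : EE n => (0 : F) := by
  simpa using const (a := a) (U := U) (k := k) (0 : F)

theorem add (hU : IsOpen U) (hf : CKA a U k M f) (hg : CKA a U k N g) :
    CKA a U k (M + N) fun x => f x + g x := by
  induction k generalizing f g with
  | zero => exact HO.add hf hg
  | succ k ih =>
    refine ⟨hf.1.add hg.1, hf.2.1.add hg.2.1, fun i => ?_⟩
    refine (ih (hf.2.2 i) (hg.2.2 i)).congr hU fun x hx => ?_
    rw [fderiv_fun_add (hf.diffAt hU hx) (hg.diffAt hU hx)]
    rfl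

theorem clm (hU : IsOpen U) (h : CKA a U k M f) (T : F →L[ℝ] G) {L : ℝ} (hL : ‖T‖ ≤ L) :
    CKA a U k (L * M) fun x => T (f x) := by
  induction k generalizing f with
  | zero => exact ho_clm h T hL
  | succ k ih =>
    refine ⟨ho_clm h.1 T hL, T.differentiable.comp_differentiableOn h.2.1, fun i => ?_⟩
    refine (ih (h.2.2 i)).congr hU fun x hx => ?_
    have h1 := (T.hasFDerivAt.comp x (h.diffAt hU hx).hasFDerivAt).fderiv
    have h2 : (fun x => T (f x)) = T ∘ f := rfl
    rw [h2, h1]
    rfl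

/-- contractions -/
theorem clm1 (hU : IsOpen U) (h : CKA a U k M f) (T : F →L[ℝ] G) (hL : ‖T‖ ≤ 1) :
    CKA a U k M fun x => T (f x) := by
  simpa using h.clm hU T hL

theorem smul (hU : IsOpen U) (h : CKA a U k M f) (c : ℝ) :
    CKA a U k (|c| * M) fun x => c • f x :=
  h.clm hU (c • ContinuousLinearMap.id ℝ F) (by
    rw [norm_smul, Real.norm_eq_abs]
    exact mul_le_of_le_one_right (abs_nonneg _) ContinuousLinearMap.norm_id_le)

theorem const_mul {f : EE n → ℝ} (hU : IsOpen U) (h : CKA a U k M f) (c : ℝ) :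
    CKA a U k (|c| * M) fun x => c * f x := h.smul hU c

theorem neg (hU : IsOpen U) (h : CKA a U k M f) : CKA a U k M fun x => -f x := by
  simpa using h.smul hU (-1)

theorem sub (hU : IsOpen U) (hf : CKA a U k M f) (hg : CKA a U k N g) :
    CKA a U k (M + N) fun x => f x - g x := by
  simpa [sub_eq_add_neg] using hf.add hU (hg.neg hU)

theorem sum (hU : IsOpen U) {ι : Type*} (s : Finset ι) {f : ι → EE n → F} {M : ι → ℝ}
    (h : ∀ i ∈ s, CKA a U k (M i) (f i)) :
    CKA a U k (∑ i ∈ s, M i) fun x => ∑ i ∈ s, f i x := by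
  classical
  induction s using Finset.induction_on with
  | empty => simpa using zero
  | insert i s hi ih =>
    simp only [Finset.sum_insert hi]
    exact (h i (Finset.mem_insert_self _ _)).add hU
      (ih fun j hj => h j (Finset.mem_insert_of_mem hj))

theorem sum_le (hU : IsOpen U) {ι : Type*} [Fintype ι] {f : ι → EE n → F}
    (h : ∀ i, CKA a U k M (f i)) :
    CKA a U k (Fintype.card ι * M) fun x => ∑ i, f i x := by
  simpa using sum hU Finset.univ (M := fun _ => M) fun i _ => h i

theorem bilin {g : EE n → G} (hU : IsOpen U) (B : F →L[ℝ] G →L[ℝ] H) {L : ℝ} (hL : ‖B‖ ≤ L)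
    (hf : CKA a U k M f) (hg : CKA a U k N g) :
    CKA a U k (2 ^ (k + 1) * (L * (M * N))) fun x => B (f x) (g x) := by
  induction k generalizing f g with
  | zero => simpa [cka_zero] using ho_bilin B hL hf hg
  | succ k ih =>
    refine ⟨ho_mono' (ho_bilin B hL hf.1 hg.1) fun h0 => ?_, fun x hx => ?_, fun i => ?_⟩
    · have h1 : (2 : ℝ) ≤ 2 ^ (k + 1 + 1) := le_self_pow₀ (by norm_num) (by omega)
      exact mul_le_mul_of_nonneg_right h1 (by linarith)
    · exact ((B.differentiableAt.comp x (hf.diffAt hU hx)).clm_apply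
        (hg.diffAt hU hx)).differentiableWithinAt
    · have h1 := (ih (hf.2.2 i) hg.pred).add hU (ih hf.pred (hg.2.2 i))
      refine (h1.congr hU fun x hx => ?_).mono (le_of_eq (by ring))
      have h2 := (B.hasFDerivAt_of_bilinear (hf.diffAt hU hx).hasFDerivAt
        (hg.diffAt hU hx).hasFDerivAt).fderiv
      rw [h2]
      simp [add_comm]

theorem mul {f g : EE n → ℝ} (hU : IsOpen U) (hf : CKA a U k M f) (hg : CKA a U k N g) :
    CKA a U k (2 ^ (k + 1) * (M * N)) fun x => f x * g x := by
  simpa using bilin hU (ContinuousLinearMap.mul ℝ ℝ) (L := 1)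
    (ContinuousLinearMap.opNorm_mul_le ℝ ℝ) hf hg

/-- scalar function times vector function -/
theorem smulF {c : EE n → ℝ} (hU : IsOpen U) (hc : CKA a U k N c) (hf : CKA a U k M f) :
    CKA a U k (2 ^ (k + 1) * (N * M)) fun x => c x • f x := by
  simpa using bilin hU (ContinuousLinearMap.lsmul ℝ ℝ : ℝ →L[ℝ] F →L[ℝ] F) (L := 1)
    (ContinuousLinearMap.opNorm_lsmul_le) hc hf

/-- operator valued function applied to a vector function -/
theorem app {A : EE n → F →L[ℝ] G} (hU : IsOpen U) (hA : CKA a U k N A) (hf : CKA a U k M f) :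
    CKA a U k (2 ^ (k + 1) * (N * M)) fun x => A x (f x) := by
  simpa using bilin hU (ContinuousLinearMap.id ℝ (F →L[ℝ] G)) (L := 1)
    ContinuousLinearMap.norm_id_le hA hf

theorem prod {g : EE n → G} (hU : IsOpen U) (hf : CKA a U k M f) (hg : CKA a U k N g) :
    CKA a U k (M + N) fun x => (f x, g x) := by
  have h1 := hf.clm1 hU (ContinuousLinearMap.inl ℝ F G) (ContinuousLinearMap.norm_inl_le_one ℝ F G)
  have h2 := hg.clm1 hU (ContinuousLinearMap.inr ℝ F G) (ContinuousLinearMap.norm_inr_le_one ℝ F G)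
  simpa using h1.add hU h2

theorem fst {f : EE n → F × G} (hU : IsOpen U) (h : CKA a U k M f) :
    CKA a U k M fun x => (f x).1 :=
  h.clm1 hU (ContinuousLinearMap.fst ℝ F G) (ContinuousLinearMap.norm_fst_le ℝ F G)

theorem snd {f : EE n → F × G} (hU : IsOpen U) (h : CKA a U k M f) :
    CKA a U k M fun x => (f x).2 :=
  h.clm1 hU (ContinuousLinearMap.snd ℝ F G) (ContinuousLinearMap.norm_snd_le ℝ F G)

theorem apply {ι : Type} [Fintype ι] {f : EE n → ι → F} (hU : IsOpen U) (h : CKA a U k M f)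
    (i : ι) : CKA a U k M fun x => f x i :=
  h.clm1 hU (ContinuousLinearMap.proj i)
    (ContinuousLinearMap.opNorm_le_bound _ zero_le_one fun v => by
      simpa using norm_le_pi_norm v i)

theorem pi {ι : Type} [Fintype ι] {f : ι → EE n → F} (hU : IsOpen U)
    (h : ∀ i, CKA a U k M (f i)) : CKA a U k (Fintype.card ι * M) fun x i => f i x := by
  classical
  have h1 : ∀ i, CKA a U k M fun x => (Pi.single i (f i x) : ι → F) := fun i =>
    (h i).clm1 hU (ContinuousLinearMap.single ℝ (fun _ : ι => F) i)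
      (ContinuousLinearMap.opNorm_le_bound _ zero_le_one fun v => by
        simp [Pi.norm_single])
  refine (sum_le hU h1).congr hU fun x _ => ?_
  exact (Finset.univ_sum_single fun i => f i x).symm

end CKA

theorem clm_eq_sum (T : EE n →L[ℝ] F) :
    T = ∑ i, ContinuousLinearMap.smulRightL ℝ (EE n) F (EuclideanSpace.proj i) (T (ei i)) := by
  ext v
  have h : v = ∑ i, v i • (ei i : EE n) := by
    have := (EuclideanSpace.basisFun (Fin n) ℝ).sum_repr v
    simpa using this.symm
  conv_lhs => rw [h]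
  simp

theorem norm_smulRightL_proj (i : Fin n) :
    ‖ContinuousLinearMap.smulRightL ℝ (EE n) F (EuclideanSpace.proj i)‖ ≤ 1 := by
  refine ContinuousLinearMap.opNorm_le_bound _ zero_le_one fun u => ?_
  refine ContinuousLinearMap.opNorm_le_bound _ (by positivity) fun v => ?_
  have : |v i| ≤ ‖v‖ := by simpa using PiLp.norm_apply_le v i
  simp only [ContinuousLinearMap.smulRightL_apply_apply, ContinuousLinearMap.smulRight_apply,
    norm_smul, one_mul]
  rw [mul_comm]
  exact mul_le_mul_of_nonneg_left (by simpa using this) (norm_nonneg _)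

namespace CKA

/-- the total derivative -/
theorem fderiv (hU : IsOpen U) (h : CKA a U (k + 1) M f) : CKA a U k (n * M) (fderiv ℝ f) := by
  have h1 := sum_le hU fun i => (h.pd i).clm1 hU _ (norm_smulRightL_proj i)
  rw [Fintype.card_fin] at h1
  exact h1.congr hU fun x _ => clm_eq_sum _

theorem of_fderiv (hU : IsOpen U) (h0 : HO a M U f) (hd : DifferentiableOn ℝ f U)
    (h : CKA a U k M (_root_.fderiv ℝ f)) : CKA a U (k + 1) M f :=
  ⟨h0, hd, fun i => h.clm1 hU (ContinuousLinearMap.apply ℝ F (ei i))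
    (ContinuousLinearMap.opNorm_le_bound _ zero_le_one fun T => by
      simpa using T.le_opNorm (ei i))⟩

theorem contDiffOn (hU : IsOpen U) (ha : 0 < a) (h : CKA a U k M f) : ContDiffOn ℝ k f U := by
  induction k generalizing F M with
  | zero => simpa using ho_continuousOn h ha
  | succ k ih =>
    rw [Nat.cast_succ, contDiffOn_succ_iff_fderiv_of_isOpen hU]
    exact ⟨h.diff, by simp, ih (h.fderiv hU)⟩

/-- affine change of variables -/
theorem affine (hU : IsOpen U) (ha : 0 ≤ a) (ha1 : a ≤ 1) (h : CKA a U k M f) (c : EE n)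
    {r L : ℝ} (hr : |r| ≤ L) (hL : 1 ≤ L) :
    CKA a ((fun x => c + r • x) ⁻¹' U) k (L ^ (k + 1) * M) fun x => f (c + r • x) := by
  have hA : ∀ y : EE n, HasFDerivAt (fun y : EE n => c + r • y)
      (r • ContinuousLinearMap.id ℝ (EE n)) y := fun y =>
    ((hasFDerivAt_id y).const_smul r).const_add c
  have hO : IsOpen ((fun x : EE n => c + r • x) ⁻¹' U) :=
    hU.preimage (continuous_const.add (continuous_id.const_smul r))
  have h0 : ∀ {f : EE n → F}, HO a M U f →
      HO a (L * M) ((fun x => c + r • x) ⁻¹' U) fun x => f (c + r • x) := fun {f} h => by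
    refine ⟨fun x hx => (h.bdd _ hx).trans (le_mul_of_one_le_left (h.nonneg hx) hL),
      fun x hx y hy => (h.hol _ hx _ hy).trans ?_⟩
    have e : c + r • x - (c + r • y) = r • (x - y) := by rw [smul_sub]; abel
    rw [e, norm_smul, Real.norm_eq_abs, Real.mul_rpow (abs_nonneg _) (norm_nonneg _)]
    have h1 : |r| ^ a ≤ L := by
      calc |r| ^ a ≤ L ^ a := Real.rpow_le_rpow (abs_nonneg _) hr ha
        _ ≤ L ^ (1 : ℝ) := Real.rpow_le_rpow_of_exponent_le hL ha1
        _ = L := Real.rpow_one L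
    have h2 := mul_le_mul_of_nonneg_right h1
      (mul_nonneg (h.nonneg hx) (Real.rpow_nonneg (norm_nonneg (x - y)) a))
    linarith
  rcases ((fun x : EE n => c + r • x) ⁻¹' U).eq_empty_or_nonempty with he | ⟨x1, hx1⟩
  · rw [he]; exact empty _
  have hM : 0 ≤ M := h.nonneg hx1
  induction k generalizing f with
  | zero => simpa [cka_zero] using h0 h
  | succ k ih =>
    refine ⟨(h0 h.1).mono ?_, fun x hx => ?_, fun i => ?_⟩
    · exact mul_le_mul_of_nonneg_right (le_self_pow₀ hL (by omega)) hM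
    · exact ((h.diffAt hU hx).comp x (hA x).differentiableAt).differentiableWithinAt
    · refine (((ih (h.pd i)).smul hO r).congr hO fun x hx => ?_).mono ?_
      · have h1 := ((h.diffAt hU hx).hasFDerivAt.comp x (hA x)).fderiv
        have h2 : (fun x => f (c + r • x)) = f ∘ fun x => c + r • x := rfl
        rw [h2, h1]
        simp
      · have h2 : 0 ≤ L ^ (k + 1) * M := mul_nonneg (pow_nonneg (by linarith) _) hM
        calc _ ≤ _ := mul_le_mul_of_nonneg_right hr h2
          _ = _ := by ring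

/-- contraction of the variable: same constant -/
theorem dilate (hU : IsOpen U) (ha : 0 ≤ a) (ha1 : a ≤ 1) (h : CKA a U k M f) (c : EE n)
    {r : ℝ} (hr : |r| ≤ 1) :
    CKA a ((fun x => c + r • x) ⁻¹' U) k M fun x => f (c + r • x) := by
  simpa using h.affine hU ha ha1 c hr le_rfl

theorem translate (hU : IsOpen U) (ha : 0 ≤ a) (ha1 : a ≤ 1) (h : CKA a U k M f) (c : EE n) :
    CKA a ((fun x => x + c) ⁻¹' U) k M fun x => f (x + c) := by
  simpa [add_comm] using h.dilate hU ha ha1 c (r := 1) (by simp)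

end CKA

end

end Crest.Agent.NLib.Ell
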