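import Crest.Agent.NLib.Ell.Defs

/-!
# Caccioppoli inequality for powers and the Moser iteration (helper26)
-/

set_option autoImplicit false
open MeasureTheory Metric Set Filter Topology InnerProductSpace
open scoped NNReal ENNReal RealInnerProductSpace Gradient ContDiff

namespace Crest.Agent.NLib.Ell

open Crest.Agent.R202.Moser

noncomputable section

variable {n : ℕ}

local notation "E" n => EuclideanSpace ℝ (Fin n)

/-- The structure constant of the Caccioppoli inequalities. -/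
def K0 (lam Lam a b : ℝ) : ℝ := a ^ 2 + 2 * a + b ^ 2 / lam + 4 * Lam ^ 2 / lam

theorem K0_nonneg {lam Lam a b : ℝ} (hlam : 0 < lam) (ha : 0 ≤ a) : 0 ≤ K0 lam Lam a b := by
  unfold K0; positivity

theorem gradient_sq {η : (E n) → ℝ} {x : E n} (hη : DifferentiableAt ℝ η x) :
    ∇ (fun y => η y ^ 2) x = (2 * η x) • ∇ η x := by
  have := gradient_comp (H := fun s => s ^ 2) (H' := 2 * η x) hη (by simpa using hasDerivAt_pow 2 (η x))
  exact this

theorem young (lam s t : ℝ) (hlam : 0 < lam) : s * t ≤ lam / 4 * s ^ 2 + t ^ 2 / lam := by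
  have : lam / 4 * s ^ 2 + t ^ 2 / lam - s * t = (lam * s - 2 * t) ^ 2 / (4 * lam) := by
    field_simp; ring
  have h2 : 0 ≤ (lam * s - 2 * t) ^ 2 / (4 * lam) := by positivity
  linarith

theorem cacc_pt {lam Lam a b p η e g v I J : ℝ} (hlam : 0 < lam) (ha : 0 ≤ a) (hp : 1 ≤ p)
    (hv : 0 ≤ v) (hη : 0 ≤ η) (hI : lam * g ^ 2 - a ^ 2 * v ^ 2 ≤ I)
    (hJ : -((Lam * g + a * v) * e) ≤ J) :
    p * (lam / 2) * (η ^ 2 * g ^ 2) + (((b * g + a * v) * v - p * I) * η ^ 2 - v * (2 * η * J)) ≤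
      p * K0 lam Lam a b * ((η ^ 2 + e ^ 2) * v ^ 2) := by
  have y1 := young lam (η * g) (2 * Lam * e * v) hlam
  have y2 := young lam (η * g) (b * η * v) hlam
  have e1 : p * η ^ 2 * (lam * g ^ 2 - a ^ 2 * v ^ 2) ≤ p * η ^ 2 * I :=
    mul_le_mul_of_nonneg_left hI (by positivity)
  have e2 : 2 * v * η * (-((Lam * g + a * v) * e)) ≤ 2 * v * η * J :=
    mul_le_mul_of_nonneg_left hJ (by positivity)
  have e3 : a * v ^ 2 * (2 * η * e) ≤ a * v ^ 2 * (η ^ 2 + e ^ 2) :=
    mul_le_mul_of_nonneg_left (by nlinarith [sq_nonneg (η - e)]) (by positivity)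
  have e4 : lam / 2 * (η ^ 2 * g ^ 2) ≤ p * (lam / 2 * (η ^ 2 * g ^ 2)) :=
    le_mul_of_one_le_left (by positivity) hp
  set Y := η ^ 2 * v ^ 2 with hY
  set Z := e ^ 2 * v ^ 2 with hZ
  have hY0 : 0 ≤ Y := by positivity
  have hZ0 : 0 ≤ Z := by positivity
  have e5 : (b ^ 2 / lam + 2 * a) * Y + (4 * Lam ^ 2 / lam + a) * Z ≤
      p * ((b ^ 2 / lam + 2 * a) * Y + (4 * Lam ^ 2 / lam + a) * Z) :=
    le_mul_of_one_le_left (by positivity) hp
  have e6 : 0 ≤ p * ((4 * Lam ^ 2 / lam) * Y + (a ^ 2 + a + b ^ 2 / lam) * Z) := by positivity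
  have r1 : (2 * Lam * e * v) ^ 2 / lam = 4 * Lam ^ 2 / lam * Z := by rw [hZ]; ring
  have r2 : (b * η * v) ^ 2 / lam = b ^ 2 / lam * Y := by rw [hY]; ring
  have r3 : p * K0 lam Lam a b * ((η ^ 2 + e ^ 2) * v ^ 2) =
      p * a ^ 2 * Y + p * ((b ^ 2 / lam + 2 * a) * Y + (4 * Lam ^ 2 / lam + a) * Z) +
        p * ((4 * Lam ^ 2 / lam) * Y + (a ^ 2 + a + b ^ 2 / lam) * Z) := by
    rw [K0, hY, hZ]; ring
  rw [r1] at y1
  rw [r2] at y2
  rw [r3]
  nlinarith

/-- Integrating a pointwise inequality against a weak inequality. -/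
theorem int_le_of_weak {A B X Y : (E n) → ℝ} (iA : Integrable A) (iB : Integrable B)
    (iX : Integrable X) (iY : Integrable Y) (key : ∫ x, A x ≤ ∫ x, B x)
    (pt : ∀ x, X x + B x - A x ≤ Y x) : ∫ x, X x ≤ ∫ x, Y x := by
  have i1 : Integrable fun x => X x + B x := iX.add iB
  have i2 : Integrable fun x => X x + B x - A x := i1.sub iA
  have e2 := integral_mono i2 iY pt
  rw [integral_sub i1 iA, integral_add iX iB] at e2
  linarith

variable {lam Lam a b : ℝ} {U : Set (E n)} {v : (E n) → ℝ} {F : (E n) → E n}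

/-- Caccioppoli inequality for the powers of a positive subsolution. -/
theorem cacc_pow (hU : IsOpen U) (hlam : 0 < lam) (ha : 0 ≤ a) (h : Sub lam Lam a b U v v F)
    (hv : ∀ x ∈ U, 0 < v x) {q : ℝ} (hq : 1 ≤ q) {η : (E n) → ℝ} (hη : Test U η) :
    ∫ x, ‖∇ (fun y => η y * v y ^ q) x‖ ^ 2 ≤
      q ^ 2 * (4 * K0 lam Lam a b / lam + 2) * ∫ x, (η x ^ 2 + ‖∇ η x‖ ^ 2) * v x ^ (2 * q) := by
  obtain ⟨p, hp⟩ : ∃ p, p = 2 * q - 1 := ⟨_, rfl⟩
  have hp1 : 1 ≤ p := by linarith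
  have hK := K0_nonneg (Lam := Lam) (b := b) hlam ha
  have key := h.weak_mul hU (H := fun s => s ^ p) (H' := fun s => p * s ^ (p - 1)) isOpen_Ioi hv
    (fun s hs => Real.hasDerivAt_rpow_const (Or.inl (ne_of_gt hs)))
    (continuousOn_const.mul (continuousOn_id.rpow_const fun s hs => Or.inl (ne_of_gt hs)))
    (fun s hs => Real.rpow_nonneg (le_of_lt hs) _) hη.sq
  have hg := continuousOn_gradient hU h.cu
  have cη := (continuous_gradient hη.c1).continuousOn (s := U)
  have cη0 := hη.c1.continuous.continuousOn (s := U)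
  have cv : ∀ t : ℝ, ContinuousOn (fun x => v x ^ t) U := fun t =>
    h.cu.continuousOn.rpow_const fun x hx => Or.inl (hv x hx).ne'
  have dη := hη.c1.differentiable (by norm_num)
  have z0 : ∀ x, x ∉ tsupport η → η x = 0 := fun x hx => image_eq_zero_of_notMem_tsupport hx
  have z1 : ∀ x, x ∉ tsupport η → ∇ η x = 0 := fun x hx => gradient_eq_zero_of_notMem hx
  have io : ∀ {f : (E n) → ℝ}, ContinuousOn f U → (∀ x, x ∉ tsupport η → f x = 0) → Integrable f :=
    fun hf h0 => integrable_of_on hη.cs.isCompact hη.sub hf h0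
  have iX : Integrable fun x => η x ^ 2 * ‖∇ v x‖ ^ 2 * v x ^ (p - 1) :=
    io (((cη0.pow 2).mul (hg.norm.pow 2)).mul (cv _)) fun x hx => by simp [z0 x hx]
  have iY : Integrable fun x => (η x ^ 2 + ‖∇ η x‖ ^ 2) * v x ^ (2 * q) :=
    io (((cη0.pow 2).add (cη.norm.pow 2)).mul (cv _)) fun x hx => by simp [z0 x hx, z1 x hx]
  have iA : Integrable fun x => ⟪v x ^ p • F x, ∇ (fun y => η y ^ 2) x⟫ :=
    hη.sq.int_inner (F := fun x => v x ^ p • F x) ((cv _).smul h.cF)
  have iB : Integrable fun x => ((b * ‖∇ v x‖ + a * v x) * v x ^ p -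
      p * v x ^ (p - 1) * ⟪F x, ∇ v x⟫) * η x ^ 2 :=
    hη.sq.int_mul ((((continuousOn_const.mul hg.norm).add (continuousOn_const.mul h.cm)).mul
      (cv _)).sub ((continuousOn_const.mul (cv _)).mul (h.cF.inner hg)))
  have pw1 : ∀ x ∈ U, v x ^ p = v x * v x ^ (p - 1) := fun x hx => by
    rw [Real.rpow_sub_one (hv x hx).ne']; field_simp [(hv x hx).ne']
  have pw2 : ∀ x ∈ U, v x ^ (2 * q) = v x ^ 2 * v x ^ (p - 1) := fun x hx => by
    rw [show 2 * q = 2 + (p - 1) by rw [hp]; ring, Real.rpow_add (hv x hx), Real.rpow_two]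
  have e1 : p * (lam / 2) * ∫ x, η x ^ 2 * ‖∇ v x‖ ^ 2 * v x ^ (p - 1) ≤
      p * K0 lam Lam a b * ∫ x, (η x ^ 2 + ‖∇ η x‖ ^ 2) * v x ^ (2 * q) := by
    rw [← integral_const_mul, ← integral_const_mul]
    refine int_le_of_weak iA iB (iX.const_mul _) (iY.const_mul _) key fun x => ?_
    · by_cases hx : x ∈ tsupport η
      · have hx' := hη.sub hx
        rw [gradient_sq (dη x), pw1 x hx', pw2 x hx', inner_smul_left, inner_smul_right,
          conj_trivial]
        have hJ : -((Lam * ‖∇ v x‖ + a * v x) * ‖∇ η x‖) ≤ ⟪F x, ∇ η x⟫ := by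
          have h1 := abs_real_inner_le_norm (F x) (∇ η x)
          have h2 := mul_le_mul_of_nonneg_right (h.up x hx') (norm_nonneg (∇ η x))
          linarith [neg_abs_le ⟪F x, ∇ η x⟫]
        have := mul_le_mul_of_nonneg_right (cacc_pt (b := b) hlam ha hp1 (hv x hx').le
          (hη.nonneg x) (h.low x hx') hJ) (Real.rpow_nonneg (hv x hx').le (p - 1))
        nlinarith
      · rw [gradient_sq (dη x)]
        simp [z0 x hx, z1 x hx]
  have e3 : ∫ x, η x ^ 2 * ‖∇ v x‖ ^ 2 * v x ^ (p - 1) ≤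
      2 * K0 lam Lam a b / lam * ∫ x, (η x ^ 2 + ‖∇ η x‖ ^ 2) * v x ^ (2 * q) := by
    rw [mul_assoc, mul_assoc] at e1
    have := le_of_mul_le_mul_left e1 (by linarith)
    rw [div_mul_eq_mul_div, le_div_iff₀ hlam]
    linarith
  have cq : ContDiffOn ℝ 1 (fun y => v y ^ q) U := h.cu.rpow_const_of_ne fun x hx => (hv x hx).ne'
  have hT := hη.mul hU cq fun x hx => Real.rpow_nonneg (hv x hx).le _
  have hs : tsupport (fun y => η y * v y ^ q) ⊆ tsupport η :=
    closure_mono fun y hy h' => hy (by simp only [h', zero_mul])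
  have iL : Integrable fun x => ‖∇ (fun y => η y * v y ^ q) x‖ ^ 2 :=
    io ((continuous_gradient hT.c1).norm.pow 2).continuousOn fun x hx => by
      rw [gradient_eq_zero_of_notMem fun h' => hx (hs h')]; simp
  have e4 := integral_mono iL ((iX.const_mul (2 * q ^ 2)).add (iY.const_mul 2)) fun x => ?_
  · simp only [Pi.add_apply] at e4
    rw [integral_add (iX.const_mul _) (iY.const_mul _), integral_const_mul, integral_const_mul] at e4
    have hY : 0 ≤ ∫ x, (η x ^ 2 + ‖∇ η x‖ ^ 2) * v x ^ (2 * q) := by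
      refine integral_nonneg fun x => ?_
      by_cases hx : x ∈ tsupport η
      · exact mul_nonneg (by positivity) (Real.rpow_nonneg (hv x (hη.sub hx)).le _)
      · simp [z0 x hx, z1 x hx]
    have h5 := mul_le_mul_of_nonneg_left e3 (by positivity : 0 ≤ 2 * q ^ 2)
    have h6 : 1 ≤ q ^ 2 := one_le_pow₀ hq
    have h7 := mul_le_mul_of_nonneg_right h6 hY
    have h8 : 2 * q ^ 2 * (2 * K0 lam Lam a b / lam * ∫ x, (η x ^ 2 + ‖∇ η x‖ ^ 2) * v x ^ (2 * q))
        = q ^ 2 * (4 * K0 lam Lam a b / lam) * ∫ x, (η x ^ 2 + ‖∇ η x‖ ^ 2) * v x ^ (2 * q) := by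
      ring
    nlinarith
  · by_cases hx : x ∈ tsupport η
    · have hx' := hη.sub hx
      simp only [Pi.add_apply]
      rw [gradient_mul_comp (F := fun s => s ^ q) (dη x) (diffAt hU h.cu hx')
        (Real.hasDerivAt_rpow_const (Or.inl (hv x hx').ne'))]
      have n1 := norm_add_le ((η x * (q * v x ^ (q - 1))) • ∇ v x) (v x ^ q • ∇ η x)
      rw [norm_smul, norm_smul, Real.norm_eq_abs, Real.norm_eq_abs] at n1
      have n2 := pow_le_pow_left₀ (norm_nonneg _) n1 2
      have s1 : (v x ^ (q - 1)) ^ 2 = v x ^ (p - 1) := by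
        rw [← Real.rpow_two, ← Real.rpow_mul (hv x hx').le, hp]; congr 1; ring
      have s2 : (v x ^ q) ^ 2 = v x ^ (2 * q) := by
        rw [← Real.rpow_two, ← Real.rpow_mul (hv x hx').le]; congr 1; ring
      have s3 : (|η x * (q * v x ^ (q - 1))| * ‖∇ v x‖) ^ 2 =
          q ^ 2 * (η x ^ 2 * ‖∇ v x‖ ^ 2 * v x ^ (p - 1)) := by
        rw [mul_pow, sq_abs, ← s1]; ring
      have s4 : (|v x ^ q| * ‖∇ η x‖) ^ 2 = ‖∇ η x‖ ^ 2 * v x ^ (2 * q) := by
        rw [mul_pow, sq_abs, s2]; ring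
      have s5 : 0 ≤ η x ^ 2 * v x ^ (2 * q) :=
        mul_nonneg (sq_nonneg _) (Real.rpow_nonneg (hv x hx').le _)
      nlinarith [sq_nonneg (|η x * (q * v x ^ (q - 1))| * ‖∇ v x‖ - |v x ^ q| * ‖∇ η x‖)]
    · rw [gradient_eq_zero_of_notMem fun h' => hx (hs h')]
      simp [z0 x hx, z1 x hx]

/-- One step of the Moser iteration. -/
theorem moser_step (hn : 3 ≤ n) (hlam : 0 < lam) (Lam : ℝ) (ha : 0 ≤ a) (b : ℝ) :
    ∃ K : ℝ, 0 < K ∧ ∀ (v : (E n) → ℝ) (F : (E n) → E n), Sub lam Lam a b (ball 0 2) v v F →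
      (∀ x ∈ ball (0 : E n) 2, 0 < v x) → ∀ s' s : ℝ, 0 < s' → s' < s → s < 2 → ∀ q : ℝ, 1 ≤ q →
      (∫ x in closedBall (0 : E n) s', v x ^ (2 * (chi n * q))) ^ (1 / chi n)
        ≤ K * q ^ 2 / (s - s') ^ 2 * ∫ x in closedBall (0 : E n) s, v x ^ (2 * q) := by
  obtain ⟨C1, hC1, hsob⟩ := sobolev hn
  obtain ⟨C2, hC2, hcut⟩ := exists_cutoff (n := n)
  have hχ := one_lt_chi hn
  have hK := K0_nonneg (Lam := Lam) (b := b) hlam ha
  refine ⟨C1 * ((4 * K0 lam Lam a b / lam + 2) * (4 + C2 ^ 2)), by positivity, ?_⟩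
  intro v F h hv s' s hs' hss hs2 q hq
  obtain ⟨η, hη1, hηc, hηs, hη1', hη0, hηle, hηg⟩ := hcut s' s hs' hss
  have hsub : closedBall (0 : E n) s ⊆ ball 0 2 := closedBall_subset_ball hs2
  have hη : Test (ball 0 2) η := ⟨hη1, hηc, hηs.trans hsub, hη0⟩
  have cac := cacc_pow isOpen_ball hlam ha h hv hq hη
  have cq : ContDiffOn ℝ 1 (fun y => v y ^ q) (ball 0 2) :=
    h.cu.rpow_const_of_ne fun x hx => (hv x hx).ne'
  have hT := hη.mul isOpen_ball cq fun x hx => Real.rpow_nonneg (hv x hx).le _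
  have sob := hsob _ hT.c1 hT.cs
  have cv : ∀ t : ℝ, ContinuousOn (fun x => v x ^ t) (closedBall 0 s) := fun t =>
    (h.cu.continuousOn.rpow_const fun x hx => Or.inl (hv x hx).ne').mono hsub
  have lowb : (∫ x in closedBall (0 : E n) s', v x ^ (2 * (chi n * q)))
      ≤ ∫ x, |η x * v x ^ q| ^ (2 * chi n) := by
    have i1 : Integrable (fun x => |η x * v x ^ q| ^ (2 * chi n)) := by
      have hc : Continuous (fun x => |η x * v x ^ q| ^ (2 * chi n)) :=
        (continuous_abs_rpow (by linarith)).comp hT.c1.continuous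
      apply hc.integrable_of_hasCompactSupport
      refine HasCompactSupport.intro hηc.isCompact fun x hx => ?_
      rw [image_eq_zero_of_notMem_tsupport hx, zero_mul, abs_zero, Real.zero_rpow (by linarith)]
    refine le_trans (le_of_eq ?_) (setIntegral_le_integral (s := closedBall 0 s') i1
      (Eventually.of_forall fun x => by positivity))
    refine setIntegral_congr_fun measurableSet_closedBall fun x hx => ?_
    have hx' := hv x (hsub (closedBall_subset_closedBall hss.le hx))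
    rw [hη1' x hx, one_mul, abs_of_pos (Real.rpow_pos_of_pos hx' _), ← Real.rpow_mul hx'.le]
    congr 1; ring
  have upb : ∫ x, (η x ^ 2 + ‖∇ η x‖ ^ 2) * v x ^ (2 * q)
      ≤ (4 + C2 ^ 2) / (s - s') ^ 2 * ∫ x in closedBall (0 : E n) s, v x ^ (2 * q) := by
    rw [← setIntegral_eq_integral_of_forall_compl_eq_zero (s := closedBall (0 : E n) s)
      fun x hx => by
        have : x ∉ tsupport η := fun h' => hx (hηs h')
        simp [image_eq_zero_of_notMem_tsupport this, gradient_eq_zero_of_notMem this],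
      ← integral_const_mul]
    refine setIntegral_mono_on (((((hη1.continuous.pow 2).add ((continuous_gradient hη1).norm.pow
      2)).continuousOn).mul (cv _)).integrableOn_compact (isCompact_closedBall _ _))
      ((continuousOn_const.mul (cv _)).integrableOn_compact (isCompact_closedBall _ _))
      measurableSet_closedBall fun x hx => ?_
    refine mul_le_mul_of_nonneg_right ?_ (Real.rpow_nonneg (hv x (hsub hx)).le _)
    have h4 : ‖∇ η x‖ ^ 2 ≤ (C2 / (s - s')) ^ 2 := pow_le_pow_left₀ (norm_nonneg _) (hηg x) 2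
    have h5 : η x ^ 2 ≤ 1 := pow_le_one₀ (hη0 x) (hηle x)
    have hd : 0 < s - s' := by linarith
    have h6 : 1 ≤ 4 / (s - s') ^ 2 := by
      rw [le_div_iff₀ (by positivity)]; nlinarith
    rw [div_pow] at h4
    rw [add_div]
    linarith
  have hpos : 0 ≤ ∫ x in closedBall (0 : E n) s', v x ^ (2 * (chi n * q)) :=
    setIntegral_nonneg measurableSet_closedBall fun x hx =>
      Real.rpow_nonneg (hv x (hsub (closedBall_subset_closedBall hss.le hx))).le _
  calc (∫ x in closedBall (0 : E n) s', v x ^ (2 * (chi n * q))) ^ (1 / chi n)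
      ≤ (∫ x, |η x * v x ^ q| ^ (2 * chi n)) ^ (1 / chi n) :=
        Real.rpow_le_rpow hpos lowb (by positivity)
    _ ≤ C1 * ∫ x, ‖∇ (fun y => η y * v y ^ q) x‖ ^ 2 := sob
    _ ≤ C1 * (q ^ 2 * (4 * K0 lam Lam a b / lam + 2) * ((4 + C2 ^ 2) / (s - s') ^ 2 *
          ∫ x in closedBall (0 : E n) s, v x ^ (2 * q))) := by
        refine mul_le_mul_of_nonneg_left (cac.trans ?_) hC1.le
        exact mul_le_mul_of_nonneg_left upb (by positivity)
    _ = _ := by ring

end

end Crest.Agent.NLib.Ell
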