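import Crest.Agent.R202.Moser
import Crest.Agent.R236.Poinc

/-!
# De Giorgi-Nash-Moser theory for `C¹` weak sub/supersolutions with structure conditions
(helper26).  Definitions and elementary operations.

`Sub lam Lam a b U u m F` says: on the open set `U`, `- div F ≤ b |∇u| + a m` weakly, where the
flux `F` satisfies `⟪F, ∇u⟫ ≥ lam |∇u|² - a² m²` and `|F| ≤ Lam |∇u| + a m`.
For `F = A ∇u + f` this covers `div (A ∇ u + f) + ⟪B, ∇u⟫ + c u + g ≥ 0`.
-/

set_option autoImplicit false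
open MeasureTheory Metric Set Filter Topology InnerProductSpace
open scoped NNReal ENNReal RealInnerProductSpace Gradient ContDiff

namespace Crest.Agent.NLib.Ell

open Crest.Agent.R202.Moser

noncomputable section

variable {n : ℕ}

local notation "E" n => EuclideanSpace ℝ (Fin n)

/-- Nonnegative `C¹` test functions with compact support in `U`. -/
structure Test (U : Set (E n)) (φ : (E n) → ℝ) : Prop where
  c1 : ContDiff ℝ 1 φ
  cs : HasCompactSupport φ
  sub : tsupport φ ⊆ U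
  nonneg : ∀ x, 0 ≤ φ x

/-- Weak subsolutions with structure conditions. -/
structure Sub (lam Lam a b : ℝ) (U : Set (E n)) (u m : (E n) → ℝ) (F : (E n) → (E n)) : Prop where
  cu : ContDiffOn ℝ 1 u U
  cm : ContinuousOn m U
  cF : ContinuousOn F U
  m0 : ∀ x ∈ U, 0 ≤ m x
  low : ∀ x ∈ U, lam * ‖∇ u x‖ ^ 2 - a ^ 2 * m x ^ 2 ≤ ⟪F x, ∇ u x⟫
  up : ∀ x ∈ U, ‖F x‖ ≤ Lam * ‖∇ u x‖ + a * m x
  weak : ∀ φ, Test U φ → ∫ x, ⟪F x, ∇ φ x⟫ ≤ ∫ x, (b * ‖∇ u x‖ + a * m x) * φ x

/-- Weak supersolutions: `- div F ≥ - (b |∇u| + a m)`. -/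
def Sup (lam Lam a b : ℝ) (U : Set (E n)) (u m : (E n) → ℝ) (F : (E n) → (E n)) : Prop :=
  Sub lam Lam a b U (fun x => - u x) m (fun x => - F x)

theorem gradient_eq_zero_of_notMem {φ : (E n) → ℝ} {x : E n} (hx : x ∉ tsupport φ) :
    ∇ φ x = 0 := by
  have : fderiv ℝ φ x = 0 := by
    by_contra h
    exact hx (support_fderiv_subset ℝ h)
  simp [gradient, this]

theorem continuousOn_gradient {u : (E n) → ℝ} {U : Set (E n)} (hU : IsOpen U)
    (hu : ContDiffOn ℝ 1 u U) : ContinuousOn (∇ u) U := by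
  unfold gradient
  exact (LinearIsometryEquiv.continuous _).comp_continuousOn
    (hu.continuousOn_fderiv_of_isOpen hU le_rfl)

theorem gradient_congr {u v : (E n) → ℝ} {U : Set (E n)} (hU : IsOpen U)
    (h : ∀ x ∈ U, u x = v x) {x : E n} (hx : x ∈ U) : ∇ u x = ∇ v x := by
  have : u =ᶠ[𝓝 x] v := by filter_upwards [hU.mem_nhds hx] with y hy using h y hy
  simp [gradient, this.fderiv_eq]

theorem gradient_comp {v : (E n) → ℝ} {H : ℝ → ℝ} {H' : ℝ} {x : E n}
    (hv : DifferentiableAt ℝ v x) (hH : HasDerivAt H H' (v x)) :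
    ∇ (fun y => H (v y)) x = H' • ∇ v x := by
  have h1 : HasFDerivAt (fun y => H (v y)) (H' • fderiv ℝ v x) x :=
    hH.comp_hasFDerivAt x hv.hasFDerivAt
  unfold gradient
  rw [h1.fderiv]
  simp

theorem gradient_neg (u : (E n) → ℝ) (x : E n) : ∇ (fun y => - u y) x = - ∇ u x := by
  simp [gradient, fderiv_fun_neg]

theorem diffAt {u : (E n) → ℝ} {U : Set (E n)} (hU : IsOpen U) (hu : ContDiffOn ℝ 1 u U) {x : E n}
    (hx : x ∈ U) : DifferentiableAt ℝ u x :=
  (hu.contDiffAt (hU.mem_nhds hx)).differentiableAt (by norm_num)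

/-- A function that is continuous on `U` and vanishes outside a compact subset is integrable. -/
theorem integrable_of_on {f : (E n) → ℝ} {U K : Set (E n)} (hK : IsCompact K) (hKU : K ⊆ U)
    (hf : ContinuousOn f U) (h0 : ∀ x, x ∉ K → f x = 0) : Integrable f :=
  (integrableOn_iff_integrable_of_support_subset (s := K) fun x hx => by
    by_contra h; exact hx (h0 x h)).1 ((hf.mono hKU).integrableOn_compact hK)

theorem Test.mono {U V : Set (E n)} {φ : (E n) → ℝ} (h : Test V φ) (hVU : V ⊆ U) : Test U φ :=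
  ⟨h.c1, h.cs, h.sub.trans hVU, h.nonneg⟩

theorem Test.int_mul {U : Set (E n)} {φ f : (E n) → ℝ} (h : Test U φ) (hf : ContinuousOn f U) :
    Integrable fun x => f x * φ x :=
  integrable_of_on h.cs.isCompact h.sub (hf.mul h.c1.continuous.continuousOn) fun x hx => by
    rw [image_eq_zero_of_notMem_tsupport hx, mul_zero]

theorem Test.int_inner {U : Set (E n)} {φ : (E n) → ℝ} {F : (E n) → E n} (h : Test U φ)
    (hF : ContinuousOn F U) : Integrable fun x => ⟪F x, ∇ φ x⟫ :=
  integrable_of_on h.cs.isCompact h.sub (hF.inner (continuous_gradient h.c1).continuousOn)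
    fun x hx => by rw [gradient_eq_zero_of_notMem hx, inner_zero_right]

/-- The product of a test function with a nonnegative function that is `C¹` on `U`. -/
theorem Test.mul {U : Set (E n)} (hU : IsOpen U) {φ h : (E n) → ℝ} (hφ : Test U φ)
    (hh : ContDiffOn ℝ 1 h U) (h0 : ∀ x ∈ U, 0 ≤ h x) : Test U fun x => φ x * h x := by
  have hs : Function.support (fun x => φ x * h x) ⊆ Function.support φ := fun x hx h' =>
    hx (by simp only [h', zero_mul])
  refine ⟨contDiff_mul_of_tsupport (m := 1) hU hφ.c1 hφ.sub hh, hφ.cs.mono hs,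
    (closure_mono hs).trans hφ.sub, fun x => ?_⟩
  by_cases hx : x ∈ tsupport φ
  · exact mul_nonneg (hφ.nonneg x) (h0 x (hφ.sub hx))
  · rw [image_eq_zero_of_notMem_tsupport hx, zero_mul]

theorem Test.sq {U : Set (E n)} {φ : (E n) → ℝ} (hφ : Test U φ) : Test U fun x => φ x ^ 2 := by
  have hs : Function.support (fun x => φ x ^ 2) ⊆ Function.support φ := fun x hx h' =>
    hx (by simp [h'])
  exact ⟨hφ.c1.pow 2, hφ.cs.mono hs, (closure_mono hs).trans hφ.sub, fun x => sq_nonneg _⟩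

/-- Rescaling of a weak differential inequality `- div F ≤ G`. -/
theorem weak_scale {U : Set (E n)} {F : (E n) → E n} {G : (E n) → ℝ}
    (h : ∀ φ, Test U φ → ∫ x, ⟪F x, ∇ φ x⟫ ≤ ∫ x, G x * φ x) (x0 : E n) {r : ℝ} (hr : 0 < r)
    {φ : (E n) → ℝ} (hφ : Test ((fun y => x0 + r • y) ⁻¹' U) φ) :
    ∫ y, ⟪r • F (x0 + r • y), ∇ φ y⟫ ≤ ∫ y, (r ^ 2 * G (x0 + r • y)) * φ y := by
  let ψ : (E n) → ℝ := fun x => φ (r⁻¹ • (x - x0))
  have hψφ : ∀ y, ψ (x0 + r • y) = φ y := fun y => by
    simp only [ψ, add_sub_cancel_left, smul_smul, inv_mul_cancel₀ hr.ne', one_smul]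
  let e : (E n) ≃ₜ (E n) :=
    (Homeomorph.subRight x0).trans (Homeomorph.smulOfNeZero r⁻¹ (by positivity))
  have hψe : ψ = φ ∘ e := rfl
  have hts : tsupport ψ = e ⁻¹' tsupport φ := by
    rw [hψe, tsupport, tsupport, Function.support_comp_eq_preimage, e.preimage_closure]
  have hψ : Test U ψ := by
    refine ⟨hφ.c1.comp (by fun_prop), hψe ▸ hφ.cs.comp_homeomorph e, fun x hx => ?_,
      fun x => hφ.nonneg _⟩
    have h1 : x0 + r • (r⁻¹ • (x - x0)) ∈ U := hφ.sub (hts ▸ hx : x ∈ e ⁻¹' tsupport φ)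
    rwa [smul_smul, mul_inv_cancel₀ hr.ne', one_smul, add_sub_cancel] at h1
  have hgφ : ∀ y, ∇ φ y = r • ∇ ψ (x0 + r • y) := fun y => by
    rw [← gradient_affine (hψ.c1.differentiable (by norm_num) _)]
    simp only [hψφ]
  have key := h ψ hψ
  have e1 : ∫ y, ⟪r • F (x0 + r • y), ∇ φ y⟫ = r ^ 2 * ((r ^ n)⁻¹ * ∫ x, ⟪F x, ∇ ψ x⟫) := by
    rw [← integral_affine (fun x => ⟪F x, ∇ ψ x⟫) x0 hr, ← integral_const_mul]
    refine integral_congr_ae (Eventually.of_forall fun y => ?_)
    simp only [hgφ y, inner_smul_left, inner_smul_right, conj_trivial]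
    ring
  have e2 : r ^ 2 * ((r ^ n)⁻¹ * ∫ x, G x * ψ x) = ∫ y, (r ^ 2 * G (x0 + r • y)) * φ y := by
    rw [← integral_affine (fun x => G x * ψ x) x0 hr, ← integral_const_mul]
    simp only [hψφ, mul_assoc]
  rw [e1, ← e2]
  exact mul_le_mul_of_nonneg_left (mul_le_mul_of_nonneg_left key (by positivity)) (sq_nonneg r)

namespace Sub

variable {lam Lam a b : ℝ} {U : Set (E n)} {u m : (E n) → ℝ} {F : (E n) → E n}

theorem restrict (h : Sub lam Lam a b U u m F) {V : Set (E n)} (hVU : V ⊆ U) :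
    Sub lam Lam a b V u m F :=
  ⟨h.cu.mono hVU, h.cm.mono hVU, h.cF.mono hVU, fun x hx => h.m0 x (hVU hx),
    fun x hx => h.low x (hVU hx), fun x hx => h.up x (hVU hx),
    fun φ hφ => h.weak φ (hφ.mono hVU)⟩

/-- Weaken the structure: only the products `a * m` matter. -/
theorem mono (hU : IsOpen U) (h : Sub lam Lam a b U u m F) {lam' Lam' a' b' : ℝ}
    {m' : (E n) → ℝ} (h1 : lam' ≤ lam) (h2 : Lam ≤ Lam') (h3 : b ≤ b') (ha : 0 ≤ a)
    (cm' : ContinuousOn m' U) (m0' : ∀ x ∈ U, 0 ≤ m' x) (hm : ∀ x ∈ U, a * m x ≤ a' * m' x) :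
    Sub lam' Lam' a' b' U u m' F := by
  have hg := (continuousOn_gradient hU h.cu).norm
  refine ⟨h.cu, cm', h.cF, m0', fun x hx => ?_, fun x hx => ?_, fun φ hφ => ?_⟩
  · have e1 := h.low x hx
    have e2 : (a * m x) ^ 2 ≤ (a' * m' x) ^ 2 :=
      pow_le_pow_left₀ (mul_nonneg ha (h.m0 x hx)) (hm x hx) 2
    have e3 := mul_le_mul_of_nonneg_right h1 (sq_nonneg ‖∇ u x‖)
    rw [mul_pow, mul_pow] at e2
    linarith
  · have e3 := mul_le_mul_of_nonneg_right h2 (norm_nonneg (∇ u x))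
    linarith [h.up x hx, hm x hx]
  · refine (h.weak φ hφ).trans (integral_mono
      (hφ.int_mul ((continuousOn_const.mul hg).add (continuousOn_const.mul h.cm)))
      (hφ.int_mul ((continuousOn_const.mul hg).add (continuousOn_const.mul cm'))) fun x => ?_)
    by_cases hx : x ∈ tsupport φ
    · have e3 := mul_le_mul_of_nonneg_right h3 (norm_nonneg (∇ u x))
      exact mul_le_mul_of_nonneg_right (by linarith [hm x (hφ.sub hx)]) (hφ.nonneg x)
    · simp [image_eq_zero_of_notMem_tsupport hx]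

theorem congr (hU : IsOpen U) (h : Sub lam Lam a b U u m F) {u' m' : (E n) → ℝ}
    {F' : (E n) → E n} (hu : ∀ x ∈ U, u' x = u x) (hm : ∀ x ∈ U, m' x = m x)
    (hF : ∀ x ∈ U, F' x = F x) : Sub lam Lam a b U u' m' F' := by
  have hg : ∀ x ∈ U, ∇ u' x = ∇ u x := fun x hx => gradient_congr hU hu hx
  refine ⟨h.cu.congr hu, h.cm.congr hm, h.cF.congr hF, fun x hx => hm x hx ▸ h.m0 x hx,
    fun x hx => by rw [hg x hx, hm x hx, hF x hx]; exact h.low x hx,
    fun x hx => by rw [hg x hx, hm x hx, hF x hx]; exact h.up x hx, fun φ hφ => ?_⟩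
  convert h.weak φ hφ using 2
  · funext x
    by_cases hx : x ∈ tsupport φ
    · rw [hF x (hφ.sub hx)]
    · simp [gradient_eq_zero_of_notMem hx]
  · funext x
    by_cases hx : x ∈ tsupport φ
    · rw [hg x (hφ.sub hx), hm x (hφ.sub hx)]
    · simp [image_eq_zero_of_notMem_tsupport hx]

/-- Adding a constant to `u`. -/
theorem add_const (h : Sub lam Lam a b U u m F) (c : ℝ) :
    Sub lam Lam a b U (fun x => u x + c) m F := by
  have hg : ∀ x, ∇ (fun x => u x + c) x = ∇ u x := fun x => by simp [gradient, fderiv_add_const]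
  exact ⟨h.cu.add contDiffOn_const, h.cm, h.cF, h.m0, fun x hx => by rw [hg]; exact h.low x hx,
    fun x hx => by rw [hg]; exact h.up x hx, fun φ hφ => by simp only [hg]; exact h.weak φ hφ⟩

/-- The basic identity behind all changes of the dependent variable: test with `H(u) φ`. -/
theorem weak_mul (hU : IsOpen U) (h : Sub lam Lam a b U u m F) {H H' : ℝ → ℝ} {S : Set ℝ}
    (hS : IsOpen S) (huS : ∀ x ∈ U, u x ∈ S) (hH : ∀ s ∈ S, HasDerivAt H (H' s) s)
    (hH' : ContinuousOn H' S) (H0 : ∀ s ∈ S, 0 ≤ H s) {φ : (E n) → ℝ} (hφ : Test U φ) :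
    ∫ x, ⟪H (u x) • F x, ∇ φ x⟫ ≤
      ∫ x, ((b * ‖∇ u x‖ + a * m x) * H (u x) - H' (u x) * ⟪F x, ∇ u x⟫) * φ x := by
  have hHc : ContDiffOn ℝ 1 H S := by
    rw [show (1 : WithTop ℕ∞) = 0 + 1 from rfl, contDiffOn_succ_iff_deriv_of_isOpen hS]
    refine ⟨fun s hs => (hH s hs).differentiableAt.differentiableWithinAt, by simp, ?_⟩
    rw [contDiffOn_zero]
    exact hH'.congr fun s hs => (hH s hs).deriv
  have hHu : ContDiffOn ℝ 1 (fun x => H (u x)) U := hHc.comp h.cu huS
  have hT := hφ.mul hU hHu fun x hx => H0 _ (huS x hx)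
  have hg := continuousOn_gradient hU h.cu
  have c1 : ContinuousOn (fun x => H' (u x) * ⟪F x, ∇ u x⟫) U :=
    (hH'.comp h.cu.continuousOn huS).mul (h.cF.inner hg)
  have c2 : ContinuousOn (fun x => (b * ‖∇ u x‖ + a * m x) * H (u x)) U :=
    ((continuousOn_const.mul hg.norm).add (continuousOn_const.mul h.cm)).mul hHu.continuousOn
  have key := h.weak _ hT
  have e1 : ∫ x, ⟪F x, ∇ (fun x => φ x * H (u x)) x⟫ =
      ∫ x, (⟪H (u x) • F x, ∇ φ x⟫ + H' (u x) * ⟪F x, ∇ u x⟫ * φ x) := by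
    refine integral_congr_ae (Eventually.of_forall fun x => ?_)
    by_cases hx : x ∈ tsupport φ
    · simp only
      rw [gradient_mul_comp (hφ.c1.differentiable (by norm_num) x) (diffAt hU h.cu (hφ.sub hx))
        (hH _ (huS x (hφ.sub hx)))]
      simp only [inner_add_right, inner_smul_right, inner_smul_left, conj_trivial]
      ring
    · have hs : Function.support (fun x => φ x * H (u x)) ⊆ Function.support φ :=
        fun y hy h'' => hy (by simp only [h'', zero_mul])
      have : x ∉ tsupport fun x => φ x * H (u x) := fun h' => hx (closure_mono hs h')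
      simp [gradient_eq_zero_of_notMem hx, gradient_eq_zero_of_notMem this,
        image_eq_zero_of_notMem_tsupport hx]
  have i1 : Integrable fun x => ⟪H (u x) • F x, ∇ φ x⟫ :=
    hφ.int_inner (F := fun x => H (u x) • F x) (hHu.continuousOn.smul h.cF)
  rw [e1, integral_add i1 (hφ.int_mul c1)] at key
  simp only [sub_mul]
  rw [integral_sub (hφ.int_mul c2) (hφ.int_mul c1)]
  have e2 : ∫ x, (b * ‖∇ u x‖ + a * m x) * (φ x * H (u x)) =
      ∫ x, (b * ‖∇ u x‖ + a * m x) * H (u x) * φ x :=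
    integral_congr_ae (Eventually.of_forall fun x => by simp only; ring)
  linarith

/-- Rescaling to the unit scale (`r ≤ 1`). -/
theorem scale (hU : IsOpen U) (h : Sub lam Lam a b U u m F) (ha : 0 ≤ a) (hb : 0 ≤ b) (x0 : E n)
    {r : ℝ} (hr : 0 < r) (hr1 : r ≤ 1) :
    Sub lam Lam a b ((fun y => x0 + r • y) ⁻¹' U) (fun y => u (x0 + r • y))
      (fun y => r * m (x0 + r • y)) (fun y => r • F (x0 + r • y)) := by
  have caff : Continuous (fun y : E n => x0 + r • y) := by fun_prop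
  have daff : ContDiff ℝ 1 (fun y : E n => x0 + r • y) := by fun_prop
  have hg : ∀ y, x0 + r • y ∈ U → ∇ (fun y => u (x0 + r • y)) y = r • ∇ u (x0 + r • y) :=
    fun y hy => gradient_affine (diffAt hU h.cu hy)
  have hn : ∀ v : E n, ‖r • v‖ = r * ‖v‖ := fun v => by
    rw [norm_smul, Real.norm_eq_abs, abs_of_pos hr]
  have cu : ContDiffOn ℝ 1 (fun y => u (x0 + r • y)) ((fun y => x0 + r • y) ⁻¹' U) :=
    h.cu.comp daff.contDiffOn fun _ hy => hy
  have cm : ContinuousOn (fun y => r * m (x0 + r • y)) ((fun y => x0 + r • y) ⁻¹' U) :=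
    continuousOn_const.mul (h.cm.comp caff.continuousOn fun _ hy => hy)
  refine ⟨cu, cm, (h.cF.comp caff.continuousOn fun _ hy => hy).const_smul r,
    fun y hy => mul_nonneg hr.le (h.m0 _ hy), fun y hy => ?_, fun y hy => ?_, fun φ hφ => ?_⟩
  · rw [hg y hy, hn, inner_smul_left, inner_smul_right, conj_trivial]
    have := mul_le_mul_of_nonneg_left (h.low _ hy) (sq_nonneg r)
    nlinarith
  · rw [hg y hy, hn, hn]
    have := mul_le_mul_of_nonneg_left (h.up _ hy) hr.le
    nlinarith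
  · have hU' : IsOpen ((fun y => x0 + r • y) ⁻¹' U) := hU.preimage caff
    refine (weak_scale h.weak x0 hr hφ).trans ?_
    refine integral_mono (hφ.int_mul (continuousOn_const.mul ((continuousOn_const.mul
      (((continuousOn_gradient hU h.cu).comp caff.continuousOn fun _ hy => hy).norm)).add
      (continuousOn_const.mul (h.cm.comp caff.continuousOn fun _ hy => hy)))))
      (hφ.int_mul ((continuousOn_const.mul (continuousOn_gradient hU' cu).norm).add
        (continuousOn_const.mul cm))) fun y => ?_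
    by_cases hy : y ∈ tsupport φ
    · have hy' : x0 + r • y ∈ U := hφ.sub hy
      simp only
      rw [hg y hy', hn]
      refine mul_le_mul_of_nonneg_right ?_ (hφ.nonneg y)
      have h1 : 0 ≤ b * ‖∇ u (x0 + r • y)‖ + a * m (x0 + r • y) :=
        add_nonneg (mul_nonneg hb (norm_nonneg _)) (mul_nonneg ha (h.m0 _ hy'))
      have h2 : r ^ 2 ≤ r := by nlinarith
      nlinarith [mul_le_mul_of_nonneg_right h2 h1]
    · simp [image_eq_zero_of_notMem_tsupport hy]

end Sub

end

end Crest.Agent.NLib.Ell
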