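import Crest.Agent.NLib.Ell.Cacc

/-!
# The local maximum principle (`L² → L^∞`) for weak subsolutions (helper26)
-/

set_option autoImplicit false
open MeasureTheory Metric Set Filter Topology InnerProductSpace
open scoped NNReal ENNReal RealInnerProductSpace Gradient ContDiff

namespace Crest.Agent.NLib.Ell

open Crest.Agent.R202.Moser

noncomputable section

variable {n : ℕ}

local notation "E" n => EuclideanSpace ℝ (Fin n)

theorem iter_bound' {χ b D : ℝ} (hχ : 1 < χ) (hb : 1 ≤ b) (hD : 1 ≤ D) :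
    ∃ B : ℝ, 0 < B ∧ ∀ M : ℕ → ℝ, (∀ k, 0 ≤ M k) →
      (∀ k, M (k + 1) ≤ (b * D ^ k) ^ ((χ⁻¹) ^ k) * M k) → ∀ k, M k ≤ B * M 0 := by
  set r := χ⁻¹ with hr
  have hr0 : 0 < r := by positivity
  have hr1 : r < 1 := inv_lt_one_of_one_lt₀ hχ
  have hs1 : Summable (fun j : ℕ => r ^ j) := summable_geometric_of_lt_one hr0.le hr1
  have hs2 : Summable (fun j : ℕ => (j : ℝ) * r ^ j) := by
    have := summable_pow_mul_geometric_of_norm_lt_one (R := ℝ) 1 (r := r)
      (by rw [Real.norm_eq_abs, abs_of_pos hr0]; exact hr1)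
    simpa using this
  set S : ℕ → ℝ := fun k => ∑ j ∈ Finset.range k, (r ^ j * Real.log b + (j * r ^ j) * Real.log D)
    with hS
  have hlb : 0 ≤ Real.log b := Real.log_nonneg hb
  have hl4 : 0 ≤ Real.log D := Real.log_nonneg hD
  have hsum : Summable (fun j : ℕ => r ^ j * Real.log b + (j * r ^ j) * Real.log D) :=
    (hs1.mul_right _).add (hs2.mul_right _)
  set T := ∑' j : ℕ, (r ^ j * Real.log b + (j * r ^ j) * Real.log D) with hT
  have hST : ∀ k, S k ≤ T := fun k => hsum.sum_le_tsum _ fun j _ => by positivity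
  refine ⟨Real.exp T, Real.exp_pos _, fun M hM0 hM k => ?_⟩
  have key : ∀ k, M k ≤ Real.exp (S k) * M 0 := by
    intro k
    induction k with
    | zero => simp [hS]
    | succ k ih =>
      have h1 : (b * D ^ k) ^ (r ^ k) = Real.exp (r ^ k * Real.log b + (k * r ^ k) * Real.log D) := by
        rw [Real.rpow_def_of_pos (by positivity), Real.log_mul (by positivity) (by positivity),
          Real.log_pow]
        congr 1; ring
      have h2 : S (k + 1) = S k + (r ^ k * Real.log b + (k * r ^ k) * Real.log D) := by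
        simp only [hS, Finset.sum_range_succ]
      calc M (k + 1) ≤ (b * D ^ k) ^ (r ^ k) * M k := hM k
        _ ≤ (b * D ^ k) ^ (r ^ k) * (Real.exp (S k) * M 0) := by gcongr
        _ = Real.exp (S (k + 1)) * M 0 := by rw [h1, h2, Real.exp_add (S k)]; ring
  calc M k ≤ Real.exp (S k) * M 0 := key k
    _ ≤ Real.exp T * M 0 := by
      have := hM0 0
      have := hST k
      gcongr

/-- The abstract Moser iteration: reverse Hölder inequalities give a sup bound. -/
theorem moser_iter {χ K : ℝ} (hχ : 1 < χ) (hK : 0 < K) :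
    ∃ C : ℝ, 0 < C ∧ ∀ v : (E n) → ℝ, ContinuousOn v (ball 0 2) → (∀ x ∈ ball (0 : E n) 2, 0 < v x) →
      (∀ s' s : ℝ, 0 < s' → s' < s → s < 2 → ∀ q : ℝ, 1 ≤ q →
        (∫ x in closedBall (0 : E n) s', v x ^ (2 * (χ * q))) ^ (1 / χ)
          ≤ K * q ^ 2 / (s - s') ^ 2 * ∫ x in closedBall (0 : E n) s, v x ^ (2 * q)) →
      ∀ x ∈ ball (0 : E n) 1, v x ^ 2 ≤ C * ∫ y in closedBall (0 : E n) (3 / 2), v y ^ 2 := by
  have hχ0 : 0 < χ := by linarith
  obtain ⟨B, hB, hiter⟩ := iter_bound' (χ := χ) (b := 16 * K + 1) (D := 4 * χ ^ 2) hχ (by linarith)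
    (by nlinarith)
  refine ⟨B, hB, ?_⟩
  intro v hvc hv hstep x hx
  set s : ℕ → ℝ := fun k => 1 + (1 / 2) ^ (k + 1) with hs
  have hs2 : ∀ k, s k < 2 := fun k => by
    simp only [hs]
    have : (1 / 2 : ℝ) ^ (k + 1) < 1 := pow_lt_one₀ (by norm_num) (by norm_num) (by omega)
    linarith
  have hsub : ∀ k, closedBall (0 : E n) (s k) ⊆ ball 0 2 := fun k => closedBall_subset_ball (hs2 k)
  set W : ℕ → ℝ := fun k => ∫ y in closedBall (0 : E n) (s k), v y ^ (2 * χ ^ k) with hW
  set M : ℕ → ℝ := fun k => W k ^ (χ⁻¹ ^ k) with hM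
  have hW0 : ∀ k, 0 ≤ W k := fun k => setIntegral_nonneg measurableSet_closedBall fun y hy =>
    Real.rpow_nonneg (hv y (hsub k hy)).le _
  have hM0 : ∀ k, 0 ≤ M k := fun k => Real.rpow_nonneg (hW0 k) _
  have hrec : ∀ k, M (k + 1) ≤ ((16 * K + 1) * (4 * χ ^ 2) ^ k) ^ (χ⁻¹ ^ k) * M k := by
    intro k
    have hsk : s (k + 1) < s k := by
      simp only [hs]
      have : (1 / 2 : ℝ) ^ (k + 1 + 1) < (1 / 2) ^ (k + 1) := by
        apply pow_lt_pow_right_of_lt_one₀ (by norm_num) (by norm_num) (by omega)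
      linarith
    have hs0 : 0 < s (k + 1) := by simp only [hs]; positivity
    have h1 := hstep (s (k + 1)) (s k) hs0 hsk (hs2 k) (χ ^ k) (one_le_pow₀ hχ.le)
    have h2 : χ * χ ^ k = χ ^ (k + 1) := by ring
    rw [h2] at h1
    have h3 : K * (χ ^ k) ^ 2 / (s k - s (k + 1)) ^ 2 ≤ (16 * K + 1) * (4 * χ ^ 2) ^ k := by
      have h4 : s k - s (k + 1) = (1 / 2) ^ (k + 2) := by
        simp only [hs]; ring
      rw [h4, div_le_iff₀ (by positivity)]
      have h5 : ((1 / 2 : ℝ) ^ (k + 2)) ^ 2 = (1 / 16) * (1 / 4) ^ k := by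
        rw [← pow_mul, mul_comm, pow_mul, pow_add]; norm_num; ring
      rw [h5]
      have h6 : (16 * K + 1) * (4 * χ ^ 2) ^ k * ((1 / 16) * (1 / 4) ^ k) =
          (16 * K + 1) / 16 * (χ ^ k) ^ 2 := by
        have : (4 : ℝ) ^ k * (1 / 4) ^ k = 1 := by rw [← mul_pow]; norm_num
        calc (16 * K + 1) * (4 * χ ^ 2) ^ k * ((1 / 16) * (1 / 4) ^ k)
            = (16 * K + 1) / 16 * (χ ^ k) ^ 2 * ((4 : ℝ) ^ k * (1 / 4) ^ k) := by
              rw [mul_pow, ← pow_mul, ← pow_mul, mul_comm 2 k]; ring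
          _ = _ := by rw [this, mul_one]
      rw [h6]
      exact mul_le_mul_of_nonneg_right (by linarith) (by positivity)
    have h7 : W (k + 1) ^ (1 / χ) ≤ (16 * K + 1) * (4 * χ ^ 2) ^ k * W k :=
      h1.trans (mul_le_mul_of_nonneg_right h3 (hW0 k))
    calc M (k + 1) = (W (k + 1) ^ (1 / χ)) ^ (χ⁻¹ ^ k) := by
          simp only [hM]
          rw [← Real.rpow_mul (hW0 _)]
          congr 1
          rw [one_div]; ring
      _ ≤ ((16 * K + 1) * (4 * χ ^ 2) ^ k * W k) ^ (χ⁻¹ ^ k) :=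
          Real.rpow_le_rpow (Real.rpow_nonneg (hW0 _) _) h7 (by positivity)
      _ = _ := by rw [Real.mul_rpow (by positivity) (hW0 k)]
  have hall := hiter M hM0 hrec
  have hM00 : M 0 = ∫ y in closedBall (0 : E n) (3 / 2), v y ^ 2 := by
    simp only [hM, hW, hs, pow_zero, Real.rpow_one, mul_one, Real.rpow_two]
    norm_num
  by_contra hcon
  rw [not_le] at hcon
  rw [← hM00] at hcon
  obtain ⟨t, ht1, ht2⟩ := exists_between hcon
  have ht : 0 < t := lt_of_le_of_lt (mul_nonneg hB.le (hM0 0)) ht1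
  have h12 : ball (0 : E n) 1 ⊆ ball 0 2 := ball_subset_ball (by norm_num)
  set U : Set (E n) := ball 0 1 ∩ (fun y => v y ^ 2) ⁻¹' Ioi t with hU
  have hUo : IsOpen U := ((hvc.mono h12).pow 2).isOpen_inter_preimage isOpen_ball isOpen_Ioi
  have hUx : x ∈ U := ⟨hx, ht2⟩
  have hUf : volume U < ⊤ := lt_of_le_of_lt (measure_mono inter_subset_left) measure_ball_lt_top
  have hUm : 0 < (volume U).toReal := by
    rw [ENNReal.toReal_pos_iff]
    exact ⟨hUo.measure_pos volume ⟨x, hUx⟩, hUf⟩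
  set m := (volume U).toReal with hm
  have hlow : ∀ k, m ^ (χ⁻¹ ^ k) * t ≤ M k := by
    intro k
    have h1 : m * t ^ (χ ^ k) ≤ W k := by
      have hsub' : U ⊆ closedBall (0 : E n) (s k) := by
        refine inter_subset_left.trans ((ball_subset_ball ?_).trans ball_subset_closedBall)
        simp only [hs]
        have : (0 : ℝ) < (1 / 2) ^ (k + 1) := by positivity
        linarith
      have hint : IntegrableOn (fun y => v y ^ (2 * χ ^ k)) (closedBall (0 : E n) (s k)) :=
        ((hvc.rpow_const fun y hy => Or.inl (hv y hy).ne').mono (hsub k)).integrableOn_compact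
          (isCompact_closedBall _ _)
      calc m * t ^ (χ ^ k) = ∫ _y in U, t ^ (χ ^ k) := by
            rw [setIntegral_const, smul_eq_mul, measureReal_def]
        _ ≤ ∫ y in U, v y ^ (2 * χ ^ k) := by
            refine setIntegral_mono_on (integrableOn_const hUf.ne) (hint.mono_set hsub')
              hUo.measurableSet fun y hy => ?_
            rw [Real.rpow_mul (hv y (h12 hy.1)).le, Real.rpow_two]
            exact Real.rpow_le_rpow ht.le (le_of_lt hy.2) (by positivity)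
        _ ≤ W k := by
            refine setIntegral_mono_set hint ?_ (LE.le.eventuallyLE hsub')
            filter_upwards [ae_restrict_mem measurableSet_closedBall] with y hy
            exact Real.rpow_nonneg (hv y (hsub k hy)).le _
    calc m ^ (χ⁻¹ ^ k) * t = (m * t ^ (χ ^ k)) ^ (χ⁻¹ ^ k) := by
          rw [Real.mul_rpow hUm.le (by positivity), ← Real.rpow_mul ht.le]
          have : χ ^ k * χ⁻¹ ^ k = 1 := by
            rw [← mul_pow, mul_inv_cancel₀ hχ0.ne', one_pow]
          rw [this, Real.rpow_one]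
      _ ≤ M k := Real.rpow_le_rpow (by positivity) h1 (by positivity)
  have hlim : Tendsto (fun k : ℕ => m ^ (χ⁻¹ ^ k) * t) atTop (𝓝 (1 * t)) := by
    apply Tendsto.mul_const
    have h1 : Tendsto (fun k : ℕ => χ⁻¹ ^ k) atTop (𝓝 0) :=
      tendsto_pow_atTop_nhds_zero_of_lt_one (by positivity) (inv_lt_one_of_one_lt₀ hχ)
    have h2 := (Real.continuousAt_const_rpow hUm.ne' (b := 0)).tendsto.comp h1
    simpa [Function.comp_def] using h2
  have hle : 1 * t ≤ B * M 0 :=
    le_of_tendsto hlim (Eventually.of_forall fun k => (hlow k).trans (hall k))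
  linarith

/-- The smooth convex approximation `(s + √(s² + k²)) / 2` of the positive part. -/
def pp (k s : ℝ) : ℝ := (s + √(s ^ 2 + k ^ 2)) / 2

theorem pp_ge (k s : ℝ) : max s 0 ≤ pp k s := by
  have h : |s| ≤ √(s ^ 2 + k ^ 2) := Real.abs_le_sqrt (by nlinarith [sq_nonneg k])
  rw [pp, max_le_iff]
  constructor <;> linarith [le_abs_self s, neg_abs_le s]

theorem pp_le {k : ℝ} (hk : 0 ≤ k) (s : ℝ) : pp k s ≤ max s 0 + k / 2 := by
  have h : √(s ^ 2 + k ^ 2) ≤ |s| + k := by
    rw [Real.sqrt_le_left (by positivity)]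
    nlinarith [sq_abs s, abs_nonneg s]
  rw [pp]
  rcases le_total s 0 with h0 | h0
  · rw [abs_of_nonpos h0] at h; rw [max_eq_right h0]; linarith
  · rw [abs_of_nonneg h0] at h; rw [max_eq_left h0]; linarith

theorem hasDerivAt_sq {k : ℝ} (hk : 0 < k) (s : ℝ) :
    HasDerivAt (fun s => √(s ^ 2 + k ^ 2)) (s / √(s ^ 2 + k ^ 2)) s := by
  have h1 : HasDerivAt (fun s => s ^ 2 + k ^ 2) (2 * s) s := by
    simpa using (hasDerivAt_pow 2 s).add_const (k ^ 2)
  convert h1.sqrt (by positivity) using 1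
  field_simp

theorem hasDerivAt_pp {k : ℝ} (hk : 0 < k) (s : ℝ) :
    HasDerivAt (pp k) ((1 + s / √(s ^ 2 + k ^ 2)) / 2) s :=
  ((hasDerivAt_id s).add (hasDerivAt_sq hk s)).div_const 2

theorem hasDerivAt_pp' {k : ℝ} (hk : 0 < k) (s : ℝ) :
    HasDerivAt (fun s => (1 + s / √(s ^ 2 + k ^ 2)) / 2) (k ^ 2 / (2 * √(s ^ 2 + k ^ 2) ^ 3)) s := by
  have h0 : 0 < √(s ^ 2 + k ^ 2) := Real.sqrt_pos.2 (by positivity)
  have h1 := (((hasDerivAt_id' s).div (hasDerivAt_sq hk s) h0.ne').const_add 1).div_const 2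
  refine h1.congr_deriv ?_
  have h2 : √(s ^ 2 + k ^ 2) ^ 2 = s ^ 2 + k ^ 2 := Real.sq_sqrt (by positivity)
  field_simp
  linarith

variable {lam Lam a b : ℝ} {U : Set (E n)} {u m : (E n) → ℝ} {F : (E n) → E n}

/-- The regularised positive part of a subsolution is a positive subsolution. -/
theorem Sub.posPart (hU : IsOpen U) (hlam : 0 ≤ lam) (ha : 0 ≤ a) (h : Sub lam Lam a b U u m F)
    {k : ℝ} (hk : 0 < k) (hm : ∀ x ∈ U, m x ≤ max (u x) 0 + k) :
    Sub lam Lam (a + a ^ 2) b U (fun x => pp k (u x) + k) (fun x => pp k (u x) + k)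
      (fun x => ((1 + u x / √(u x ^ 2 + k ^ 2)) / 2) • F x) := by
  have h0 : ∀ s : ℝ, 0 < √(s ^ 2 + k ^ 2) := fun s => Real.sqrt_pos.2 (by positivity)
  have hab : ∀ s : ℝ, |s| ≤ √(s ^ 2 + k ^ 2) := fun s => Real.abs_le_sqrt (by nlinarith [sq_nonneg k])
  have hk' : ∀ s : ℝ, k ≤ √(s ^ 2 + k ^ 2) := fun s => Real.le_sqrt_of_sq_le (by nlinarith [sq_nonneg s])
  have d0 : ∀ s : ℝ, 0 ≤ (1 + s / √(s ^ 2 + k ^ 2)) / 2 := fun s => by
    have : -1 ≤ s / √(s ^ 2 + k ^ 2) := by
      rw [le_div_iff₀ (h0 s)]; linarith [neg_abs_le s, hab s]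
    linarith
  have d1 : ∀ s : ℝ, (1 + s / √(s ^ 2 + k ^ 2)) / 2 ≤ 1 := fun s => by
    have : s / √(s ^ 2 + k ^ 2) ≤ 1 := by
      rw [div_le_iff₀ (h0 s)]; linarith [le_abs_self s, hab s]
    linarith
  have cs : Continuous fun s : ℝ => √(s ^ 2 + k ^ 2) := by fun_prop
  have c1 : Continuous fun s : ℝ => (1 + s / √(s ^ 2 + k ^ 2)) / 2 :=
    (continuous_const.add (continuous_id.div cs fun s => (h0 s).ne')).div_const 2
  have c2 : Continuous fun s : ℝ => k ^ 2 / (2 * √(s ^ 2 + k ^ 2) ^ 3) :=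
    continuous_const.div (by fun_prop) fun s => by have := h0 s; positivity
  have cp : ContDiff ℝ 1 (pp k) := by
    rw [contDiff_one_iff_deriv]
    refine ⟨fun s => (hasDerivAt_pp hk s).differentiableAt, ?_⟩
    rw [show deriv (pp k) = _ from funext fun s => (hasDerivAt_pp hk s).deriv]
    exact c1
  have cu : ContDiffOn ℝ 1 (fun x => pp k (u x) + k) U :=
    (cp.comp_contDiffOn h.cu).add contDiffOn_const
  have hg : ∀ x ∈ U, ∇ (fun x => pp k (u x) + k) x =
      ((1 + u x / √(u x ^ 2 + k ^ 2)) / 2) • ∇ u x := fun x hx =>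
    gradient_comp (H := fun s => pp k s + k) (diffAt hU h.cu hx) ((hasDerivAt_pp hk _).add_const k)
  have hmv : ∀ x ∈ U, m x ≤ pp k (u x) + k := fun x hx => by linarith [hm x hx, pp_ge k (u x)]
  have hkv : ∀ x, k ≤ pp k (u x) + k := fun x => by
    linarith [pp_ge k (u x), le_max_right (u x) 0]
  have hamv : ∀ x ∈ U, a * m x ≤ (a + a ^ 2) * (pp k (u x) + k) := fun x hx => by
    have h1 := mul_le_mul_of_nonneg_left (hmv x hx) ha
    nlinarith [hkv x, sq_nonneg a, mul_nonneg (sq_nonneg a) (hk.le.trans (hkv x))]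
  refine ⟨cu, cu.continuousOn, (c1.comp_continuousOn h.cu.continuousOn).smul h.cF,
    fun x _ => hk.le.trans (hkv x), fun x hx => ?_, fun x hx => ?_, fun φ hφ => ?_⟩
  · rw [hg x hx, norm_smul, inner_smul_left, inner_smul_right, conj_trivial, Real.norm_eq_abs,
      mul_pow, sq_abs, ← mul_pow (a + a ^ 2)]
    set d := (1 + u x / √(u x ^ 2 + k ^ 2)) / 2
    have e1 := mul_le_mul_of_nonneg_left (h.low x hx) (sq_nonneg d)
    have e2 := pow_le_pow_left₀ (mul_nonneg ha (h.m0 x hx)) (hamv x hx) 2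
    have e3 : d ^ 2 * (a * m x) ^ 2 ≤ (a * m x) ^ 2 :=
      mul_le_of_le_one_left (sq_nonneg _) (pow_le_one₀ (d0 _) (d1 _))
    nlinarith
  · rw [hg x hx, norm_smul, norm_smul, Real.norm_eq_abs, abs_of_nonneg (d0 _)]
    set d := (1 + u x / √(u x ^ 2 + k ^ 2)) / 2
    have e1 : d * _ ≤ d * _ := mul_le_mul_of_nonneg_left (h.up x hx) (d0 (u x))
    have e3 : d * (a * m x) ≤ a * m x := mul_le_of_le_one_left (mul_nonneg ha (h.m0 x hx)) (d1 _)
    nlinarith [hamv x hx]
  · have key := h.weak_mul hU isOpen_univ (fun _ _ => mem_univ _) (fun s _ => hasDerivAt_pp' hk s)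
      c2.continuousOn (fun s _ => d0 s) hφ
    have cg := continuousOn_gradient hU h.cu
    refine key.trans (integral_mono (hφ.int_mul ((((continuousOn_const.mul cg.norm).add
      (continuousOn_const.mul h.cm)).mul (c1.comp_continuousOn h.cu.continuousOn)).sub
      ((c2.comp_continuousOn h.cu.continuousOn).mul (h.cF.inner cg))))
      (hφ.int_mul ((continuousOn_const.mul (continuousOn_gradient hU cu).norm).add
        (continuousOn_const.mul cu.continuousOn))) fun x => ?_)
    by_cases hx : x ∈ tsupport φ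
    · have hx' := hφ.sub hx
      refine mul_le_mul_of_nonneg_right ?_ (hφ.nonneg x)
      rw [hg x hx', norm_smul, Real.norm_eq_abs, abs_of_nonneg (d0 _)]
      set d := (1 + u x / √(u x ^ 2 + k ^ 2)) / 2
      set S := √(u x ^ 2 + k ^ 2) with hS
      have hS0 : 0 < S := h0 _
      have e0 : 0 ≤ k ^ 2 / (2 * S ^ 3) := by positivity
      have e1 := mul_le_mul_of_nonneg_left (h.low x hx') e0
      have e2 : m x ≤ |u x| + k := by
        linarith [hm x hx', max_le (le_abs_self (u x)) (abs_nonneg (u x))]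
      have e3 : m x ^ 2 ≤ 2 * S ^ 2 := by
        rw [hS, Real.sq_sqrt (by positivity)]
        nlinarith [pow_le_pow_left₀ (h.m0 x hx') e2 2, sq_abs (u x), sq_nonneg (|u x| - k)]
      have e4 : k ^ 2 / (2 * S ^ 3) * m x ^ 2 ≤ k := by
        rw [div_mul_eq_mul_div, div_le_iff₀ (by positivity)]
        have e5 : k * m x ^ 2 ≤ S * (2 * S ^ 2) := mul_le_mul (hk' _) e3 (sq_nonneg _) hS0.le
        nlinarith
      have e5 : d * (a * m x) ≤ a * m x := mul_le_of_le_one_left (mul_nonneg ha (h.m0 x hx')) (d1 _)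
      have e6 := mul_le_mul_of_nonneg_left (e4.trans (hkv x)) (sq_nonneg a)
      have e7 := mul_le_mul_of_nonneg_left (hmv x hx') ha
      have e8 : 0 ≤ k ^ 2 / (2 * S ^ 3) * (lam * ‖∇ u x‖ ^ 2) := by positivity
      nlinarith
    · simp [image_eq_zero_of_notMem_tsupport hx]

/-- Local maximum principle on the unit scale. -/
theorem locmax_unit (hn : 3 ≤ n) (hlam : 0 < lam) (Lam : ℝ) (ha : 0 ≤ a) (b : ℝ) :
    ∃ C : ℝ, 0 < C ∧ ∀ (u m : (E n) → ℝ) (F : (E n) → E n) (k : ℝ),
      Sub lam Lam a b (ball 0 2) u m F → 0 ≤ k → (∀ x ∈ ball (0 : E n) 2, m x ≤ max (u x) 0 + k) →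
      ∀ x ∈ ball (0 : E n) 1,
        u x ≤ C * (√(∫ y in closedBall (0 : E n) (3 / 2), max (u y) 0 ^ 2) + k) := by
  obtain ⟨K, hK, hstep⟩ := moser_step hn hlam Lam (a := a + a ^ 2) (by positivity) b
  obtain ⟨C, hC, hit⟩ := moser_iter (n := n) (one_lt_chi hn) hK
  set V := (volume (closedBall (0 : E n) (3 / 2))).toReal with hV
  have hV0 : 0 ≤ V := ENNReal.toReal_nonneg
  refine ⟨√(C * (2 + 5 * V)), Real.sqrt_pos.2 (by positivity), fun u m F k h hk hm x hx => ?_⟩
  set I := ∫ y in closedBall (0 : E n) (3 / 2), max (u y) 0 ^ 2 with hI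
  have hI0 : 0 ≤ I := by positivity
  have main : ∀ k', k < k' → u x ≤ √(C * (2 + 5 * V)) * (√I + k') := by
    intro k' hk'
    have hk0 : 0 < k' := lt_of_le_of_lt hk hk'
    have h' := h.posPart isOpen_ball hlam.le ha hk0 fun x hx => by linarith [hm x hx]
    have hpos : ∀ x ∈ ball (0 : E n) 2, 0 < pp k' (u x) + k' := fun x _ => by
      linarith [pp_ge k' (u x), le_max_right (u x) 0]
    have h1 := hit _ h'.cm hpos (hstep _ _ h' hpos) x hx
    have hsub : closedBall (0 : E n) (3 / 2) ⊆ ball 0 2 := closedBall_subset_ball (by norm_num)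
    have cK := isCompact_closedBall (0 : E n) (3 / 2)
    have i1 : IntegrableOn (fun y => max (u y) 0 ^ 2) (closedBall (0 : E n) (3 / 2)) :=
      (((h.cu.continuousOn.mono hsub).sup continuousOn_const).pow 2).integrableOn_compact cK
    have h2 : ∫ y in closedBall (0 : E n) (3 / 2), (pp k' (u y) + k') ^ 2 ≤ 2 * I + 5 * k' ^ 2 * V := by
      have i2 : IntegrableOn (fun _ : E n => 5 * k' ^ 2) (closedBall (0 : E n) (3 / 2)) :=
        integrableOn_const cK.measure_lt_top.ne
      have h3 := setIntegral_mono_on (((h'.cm.mono hsub).pow 2).integrableOn_compact cK)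
        ((i1.const_mul 2).add i2) measurableSet_closedBall fun y _ => ?_
      · simp only [Pi.add_apply, Pi.pow_apply] at h3
        rwa [integral_add (i1.const_mul 2) i2, integral_const_mul, setIntegral_const, smul_eq_mul,
          measureReal_def, mul_comm _ (5 * k' ^ 2)] at h3
      · have h4 := pp_le hk0.le (u y)
        have h5 := pow_le_pow_left₀ (by linarith [pp_ge k' (u y), le_max_right (u y) 0] :
          0 ≤ pp k' (u y) + k') (by linarith : pp k' (u y) + k' ≤ max (u y) 0 + 3 / 2 * k') 2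
        simp only [Pi.add_apply, Pi.pow_apply]
        nlinarith [sq_nonneg (max (u y) 0 - 3 / 2 * k'), sq_nonneg k']
    have h6 : (pp k' (u x) + k') ^ 2 ≤ (√(C * (2 + 5 * V)) * (√I + k')) ^ 2 := by
      rw [mul_pow, Real.sq_sqrt (by positivity), mul_assoc]
      refine h1.trans (mul_le_mul_of_nonneg_left (h2.trans ?_) hC.le)
      have h7 : √I ^ 2 = I := Real.sq_sqrt hI0
      have h8 : 0 ≤ √I * k' := by positivity
      nlinarith [mul_nonneg hV0 hI0, mul_nonneg hV0 h8, sq_nonneg k']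
    have h9 := abs_le_of_sq_le_sq' h6 (by positivity)
    linarith [h9.2, pp_ge k' (u x), le_max_left (u x) 0]
  refine le_of_forall_pos_le_add fun ε hε => ?_
  have hs : 0 < √(C * (2 + 5 * V)) := Real.sqrt_pos.2 (by positivity)
  have := main (k + ε / √(C * (2 + 5 * V))) (lt_add_of_pos_right _ (div_pos hε hs))
  rw [← add_assoc, mul_add _ (√I + k), mul_div_cancel₀ _ hs.ne'] at this
  exact this

end

end Crest.Agent.NLib.Ell
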