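import Crest.Agent.NLib.Ell.CKA2

/-!
# Interior Schauder estimate with lower order terms, order zero (helper8, task T6d, part 1)

`sch_zero` : `C^{2,a}` estimate on `ball x0 r` from data on `ball x0 R`, any `0 < r < R ≤ 1`.
-/

set_option autoImplicit false
open Metric Set Filter Topology
open scoped ContDiff

namespace Crest.Agent.NLib.Ell

open Crest.Agent.R238.Sch Crest.Agent.R273.SchA_152 Crest.Agent.R273.SchD_152
open Crest.Agent.R273.SchB_152 (P2)
open Crest.Agent.R238 (Ell)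
open Crest.Agent.R335 (pd)

noncomputable section

variable {n : ℕ} {a M N : ℝ} {U : Set (EE n)} {k : ℕ}

theorem ho_sum_le {X F : Type*} [NormedAddCommGroup X] [NormedAddCommGroup F] {s : Set X}
    {ι : Type*} (t : Finset ι) {f : ι → X → F} (h : ∀ i, HO a M s (f i)) :
    HO a (t.card * M) s fun x => ∑ i ∈ t, f i x := by
  classical
  induction t using Finset.induction_on with
  | empty => simpa using ho_const (a := a) (s := s) (0 : F)
  | insert i t hi ih =>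
    simp only [Finset.sum_insert hi, Finset.card_insert_of_notMem hi]
    exact ((h i).add ih).mono (le_of_eq (by push_cast; ring))

theorem ho_mul {X : Type*} [NormedAddCommGroup X] {s : Set X} {f g : X → ℝ} (hf : HO a M s f)
    (hg : HO a N s g) : HO a (2 * (M * N)) s fun x => f x * g x := by
  simpa using ho_bilin (ContinuousLinearMap.mul ℝ ℝ) (L := 1)
    (ContinuousLinearMap.opNorm_mul_le ℝ ℝ) hf hg

theorem CKA.contDiffOn_two {u : EE n → ℝ} (hU : IsOpen U) (ha : 0 < a) (h : CKA a U 2 M u) :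
    ContDiffOn ℝ 2 u U := by
  exact_mod_cast h.contDiffOn hU ha

theorem CKA.ho_D2 {u : EE n → ℝ} (hU : IsOpen U) (h : CKA a U 2 M u) :
    HO a (n * (n * M)) U (D2 u) := (h.fderiv hU).fderiv hU

theorem CKA.c2a {u : EE n → ℝ} (hU : IsOpen U) (h : CKA a U 2 M u) :
    C2A a ((n + 1) ^ 2 * M) U u := by
  have hn : (0 : ℝ) ≤ n := Nat.cast_nonneg n
  rcases U.eq_empty_or_nonempty with rfl | ⟨x, hx⟩
  · exact ⟨ho_empty _, ho_empty _, ho_empty _⟩
  have hM := h.nonneg hx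
  have h1 := mul_nonneg hn hM
  have h2 := mul_nonneg hn h1
  exact ⟨h.ho.mono (by nlinarith), (h.fderiv hU).ho.mono (by nlinarith),
    (h.ho_D2 hU).mono (by nlinarith)⟩

theorem CKA.of_c2a {u : EE n → ℝ} (hU : IsOpen U) (hu : ContDiffOn ℝ 2 u U)
    (h : C2A a M U u) : CKA a U 2 M u :=
  CKA.of_fderiv hU h.h0 (hu.differentiableOn (by norm_num)) (CKA.of_fderiv hU h.h1
    ((hu.fderiv_of_isOpen hU (m := 1) (by norm_num)).differentiableOn (by norm_num)) h.h2)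

/-- entries of the Hessian -/
theorem CKA.D2_entry {u : EE n → ℝ} (hU : IsOpen U) (h : CKA a U (k + 2) M u) (i j : Fin n) :
    CKA a U k M fun x => D2 u x (ee i) (ee j) := by
  refine ((h.pd j).pd i).congr hU fun x hx => ?_
  have h1 := ((h.fderiv hU).diffAt hU hx).hasFDerivAt
  have h2 := ((ContinuousLinearMap.apply ℝ ℝ (ei j)).hasFDerivAt.comp x h1).fderiv
  have h3 : (fun y => _root_.fderiv ℝ u y (ei j)) =
    (ContinuousLinearMap.apply ℝ ℝ (ei j)) ∘ _root_.fderiv ℝ u := rfl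
  rw [h3, h2]
  rfl

theorem fderiv_aff {F : Type*} [NormedAddCommGroup F] [NormedSpace ℝ F] (g : EE n → F)
    (c : EE n) (ρ : ℝ) (y : EE n) :
    fderiv ℝ (fun y => g (c + ρ • y)) y = ρ • fderiv ℝ g (c + ρ • y) := by
  have := fderiv_comp_smul (𝕜 := ℝ) (f := fun z => g (c + z)) (x := y) ρ
  rw [fderiv_comp_add_left] at this
  exact this

theorem D2_aff (u : EE n → ℝ) (c : EE n) (ρ : ℝ) (y : EE n) :
    D2 (fun y => u (c + ρ • y)) y = ρ ^ 2 • D2 u (c + ρ • y) := by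
  have e : fderiv ℝ (fun y => u (c + ρ • y)) = ρ • fun y => fderiv ℝ u (c + ρ • y) := by
    funext y; exact fderiv_aff u c ρ y
  have e2 := congrFun (fderiv_const_smul_field (𝕜 := ℝ) (E := EE n) (F := EE n →L[ℝ] ℝ)
    (f := fun y => fderiv ℝ u (c + ρ • y)) ρ) y
  unfold D2
  rw [e]
  refine e2.trans ?_
  rw [Pi.smul_apply, fderiv_aff, smul_smul, pow_two]

/-- the unit ball step -/
theorem sch_unit (n : ℕ) {a lo hi : ℝ} (ha : 0 < a) (ha1 : a < 1) (hlo : 0 < lo) (hlohi : lo ≤ hi)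
    (M : ℝ) {θ : ℝ} (hθ : 0 < θ) : ∃ C : ℝ, 0 < C ∧ ∀ (U : Set (EE n))
      (τ : EE n → Matrix (Fin n) (Fin n) ℝ) (β : Fin n → EE n → ℝ) (c u f : EE n → ℝ) (N S V : ℝ),
      IsOpen U → closedBall 0 1 ⊆ U → (∀ x ∈ U, Ell lo hi (τ x)) →
      (∀ i j, HO a M U fun x => τ x i j) → (∀ i, HO a M U (β i)) → HO a M U c → HO a N U f →
      (∃ W, CKA a U 2 W u) → (∀ x ∈ U, |u x| ≤ S) →
      (∀ x ∈ U, P2 τ u x + ∑ i, β i x * pd i u x + c x * u x = f x) →
      (∀ x ∈ closedBall (0 : EE n) 1, ‖D2 u x‖ ≤ V) →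
      C2A a (θ * V + C * (N + S)) (closedBall 0 (3 / 8)) u := by
  obtain ⟨C0, hC0, H⟩ := int_schauder_on n ha ha1 hlo hlohi M (R := 3 / 4) (by norm_num)
    (by norm_num)
  set K : ℝ := C0 * (2 * (n + 1) * |M|) with hK
  have hK0 : 0 ≤ K := by positivity
  obtain ⟨C1, hC1, hlb⟩ := lb_loc (n := n) (ε := θ / (K + 1)) ha ha1 (by positivity)
  refine ⟨C0 + K * C1, by positivity, ?_⟩
  intro U τ β c u f N S V hU h1U hell hτ hβ hc hf ⟨W, hW⟩ hS heq hV
  have h0 : (0 : EE n) ∈ closedBall (0 : EE n) 1 := mem_closedBall_self zero_le_one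
  have hV0 : 0 ≤ V := (norm_nonneg (D2 u 0)).trans (hV 0 h0)
  have hN0 : 0 ≤ N := hf.nonneg (h1U h0)
  have hS0 : 0 ≤ S := (abs_nonneg _).trans (hS 0 (h1U h0))
  have hM0 : 0 ≤ M := hc.nonneg (h1U h0)
  have hu2 := hW.contDiffOn_two hU ha
  have h34 : closedBall (0 : EE n) (3 / 4) ⊆ closedBall 0 1 :=
    closedBall_subset_closedBall (by norm_num)
  have hs : closedBall (0 : EE n) (3 / 4) ⊆ U := h34.trans h1U
  obtain ⟨W', u', hW', h1W, -, hu', he⟩ := exists_ext one_pos hU h1U hu2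
  set Q := θ / (K + 1) * V + C1 * S with hQ
  have hL : LB a Q (closedBall 0 (3 / 4)) u' := hlb u' V S hu' hV0
    (fun z hz => by rw [D2_congr_open hW' he (h1W hz)]; exact hV z hz)
    fun z hz => by rw [he z (h1W hz)]; exact hS z (h1U hz)
  have hq0 : HO a Q (closedBall 0 (3 / 4)) u :=
    HO.congr (r := u') ⟨hL.h0, hL.h1⟩ fun x hx => (he x (h1W (h34 hx))).symm
  have hq1 : ∀ i, HO a Q (closedBall 0 (3 / 4)) (pd i u) := fun i =>
    HO.congr (r := fun x => fderiv ℝ u' x (ee i)) ⟨(lb_vec hL i).1, (lb_vec hL i).2⟩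
      fun x hx => by
        have : u' =ᶠ[𝓝 x] u := eventually_of_mem (hW'.mem_nhds (h1W (h34 hx))) he
        rw [this.fderiv_eq]
        rfl
  have hP : HO a (N + (n * (2 * (M * Q))) + 2 * (M * Q)) (closedBall 0 (3 / 4)) (P2 τ u) := by
    have h1 := ho_sum_le Finset.univ fun i => ho_mul ((hβ i).subset hs) (hq1 i)
    rw [Finset.card_univ, Fintype.card_fin] at h1
    refine (((hf.subset hs).add h1.neg).add (ho_mul (hc.subset hs) hq0).neg).congr fun x hx => ?_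
    linarith [heq x (hs hx)]
  have h2 := H 0 τ (fun x hx => hell x (hs hx)) (fun i j => (hτ i j).subset hs) U hU hs u _ S hu2
    ⟨_, (hW.ho_D2 hU).subset hs⟩ hP fun x hx => hS x (hs hx)
  rw [show (3 / 4 : ℝ) / 2 = 3 / 8 by norm_num] at h2
  refine h2.mono ?_
  have e1 : C0 * (N + n * (2 * (M * Q)) + 2 * (M * Q) + S) = C0 * (N + S) + K * Q := by
    rw [hK, abs_of_nonneg hM0]; ring
  have e2 : K * (θ / (K + 1)) ≤ θ := by
    rw [mul_div_assoc', div_le_iff₀ (by positivity)]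
    nlinarith
  have e3 := mul_le_mul_of_nonneg_right e2 hV0
  have e4 : 0 ≤ K * C1 * N := by positivity
  rw [e1, hQ]
  linarith

/-- the hypotheses of the interior estimate at order `k` -/
structure SchH (k : ℕ) (a lo hi M : ℝ) (U : Set (EE n)) (τ : EE n → Matrix (Fin n) (Fin n) ℝ)
    (β : Fin n → EE n → ℝ) (c u f : EE n → ℝ) (N S : ℝ) : Prop where
  ell : ∀ x ∈ U, Ell lo hi (τ x)
  hτ : ∀ i j, CKA a U k M fun x => τ x i j
  hβ : ∀ i, CKA a U k M (β i)
  hc : CKA a U k M c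
  hf : CKA a U k N f
  hu : ∃ V, CKA a U 2 V u
  hS : ∀ x ∈ U, |u x| ≤ S
  eq : ∀ x ∈ U, P2 τ u x + ∑ i, β i x * pd i u x + c x * u x = f x

/-- the unit ball step, rescaled -/
theorem sch_scaled (n : ℕ) {a lo hi : ℝ} (ha : 0 < a) (ha1 : a < 1) (hlo : 0 < lo)
    (hlohi : lo ≤ hi) (M : ℝ) {θ : ℝ} (hθ : 0 < θ) : ∃ C : ℝ, 0 < C ∧ ∀ (U : Set (EE n))
      (τ : EE n → Matrix (Fin n) (Fin n) ℝ) (β : Fin n → EE n → ℝ) (c u f : EE n → ℝ) (N S : ℝ),
      IsOpen U → SchH 0 a lo hi M U τ β c u f N S → ∀ (x : EE n) (ρ V : ℝ), 0 < ρ → ρ ≤ 1 →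
      closedBall x ρ ⊆ U → (∀ z ∈ closedBall x ρ, ρ ^ 2 * ‖D2 u z‖ ≤ V) →
      C2A a (θ * V + C * (N + S)) (closedBall 0 (3 / 8)) fun y => u (x + ρ • y) := by
  obtain ⟨C, hC, H⟩ := sch_unit n ha ha1 hlo hlohi M hθ
  refine ⟨C, hC, fun U τ β c u f N S hU h x ρ V hρ hρ1 hx hV => ?_⟩
  have hO : IsOpen ((fun y : EE n => x + ρ • y) ⁻¹' U) :=
    hU.preimage (continuous_const.add (continuous_id.const_smul ρ))
  have hb : ∀ y ∈ closedBall (0 : EE n) 1, x + ρ • y ∈ closedBall x ρ := fun y hy => by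
    rw [mem_closedBall, dist_zero_right] at hy
    rw [mem_closedBall, dist_eq_norm, add_sub_cancel_left, norm_smul, Real.norm_of_nonneg hρ.le]
    exact mul_le_of_le_one_right hρ.le hy
  have hr : |ρ| ≤ 1 := by rwa [abs_of_pos hρ]
  have hr2 : |ρ ^ 2| ≤ 1 := by rw [abs_pow]; exact pow_le_one₀ (abs_nonneg _) hr
  have hsm : ∀ {g : EE n → ℝ} {L : ℝ} (t : ℝ), |t| ≤ 1 → CKA a U 0 L g →
      HO a L ((fun y : EE n => x + ρ • y) ⁻¹' U) fun y => t * g (x + ρ • y) := fun t ht hg =>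
    (((hg.dilate hU ha.le ha1.le x hr).const_mul hO t).mono (mul_le_of_le_one_left
      (hg.nonneg (hx (mem_closedBall_self hρ.le))) ht)).ho
  obtain ⟨W, hW⟩ := h.hu
  refine H _ (fun y => τ (x + ρ • y)) (fun i y => ρ * β i (x + ρ • y))
    (fun y => ρ ^ 2 * c (x + ρ • y)) _ (fun y => ρ ^ 2 * f (x + ρ • y)) N S V hO
    (fun y hy => hx (hb y hy)) (fun y hy => h.ell _ hy)
    (fun i j => ((h.hτ i j).dilate hU ha.le ha1.le x hr).ho) (fun i => hsm ρ hr (h.hβ i))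
    (hsm _ hr2 h.hc) (hsm _ hr2 h.hf) ⟨W, hW.dilate hU ha.le ha1.le x hr⟩
    (fun y hy => h.hS _ hy) (fun y hy => ?_) fun y hy => ?_
  · rw [← h.eq _ hy]
    simp only [P2, pd, D2_aff, fderiv_aff, _root_.smul_apply, smul_eq_mul, mul_add,
      Finset.mul_sum]
    congr 1
    · congr 1
      · exact Finset.sum_congr rfl fun i _ => Finset.sum_congr rfl fun j _ => by ring
      · exact Finset.sum_congr rfl fun i _ => by ring
    · ring
  · rw [D2_aff, R273.SchC_152.nsm, abs_of_nonneg (by positivity)]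
    exact hV _ (hb y hy)

/-- **order zero** -/
theorem sch_zero (n : ℕ) {a lo hi : ℝ} (ha : 0 < a) (ha1 : a < 1) (hlo : 0 < lo)
    (hlohi : lo ≤ hi) (M : ℝ) {r R : ℝ} (hr : 0 < r) (hrR : r < R) (hR : R ≤ 1) :
    ∃ C : ℝ, 0 < C ∧ ∀ (x0 : EE n) (τ : EE n → Matrix (Fin n) (Fin n) ℝ) (β : Fin n → EE n → ℝ)
      (c u f : EE n → ℝ) (N S : ℝ), SchH 0 a lo hi M (ball x0 R) τ β c u f N S →
      CKA a (ball x0 r) 2 (C * (N + S)) u := by
  obtain ⟨C, hC, H⟩ := sch_scaled n ha ha1 hlo hlohi M (θ := 1 / 8) (by norm_num)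
  set ρ : ℝ := (R - r) / 2 with hρ
  have hρ0 : 0 < ρ := by rw [hρ]; linarith
  have hρ1 : ρ ≤ 1 := by rw [hρ]; linarith
  refine ⟨2 / (3 / 8 * ρ) * (ρ⁻¹ ^ (2 + 1) * (2 * C)), by positivity, ?_⟩
  intro x0 τ β c u f N S h
  have hx0 : x0 ∈ ball x0 R := mem_ball_self (by linarith)
  obtain ⟨W0, hW0⟩ := h.hu
  -- the weighted supremum
  set T : Set ℝ := (fun x => (R - ‖x - x0‖) ^ 2 * ‖D2 u x‖) '' ball x0 R with hT
  have hbdd : BddAbove T := by
    refine ⟨n * (n * W0), ?_⟩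
    rintro _ ⟨x, hx, rfl⟩
    have h1 := (hW0.ho_D2 isOpen_ball).bdd x hx
    rw [mem_ball, dist_eq_norm] at hx
    have h2 : (R - ‖x - x0‖) ^ 2 ≤ 1 := pow_le_one₀ (by linarith) (by linarith [norm_nonneg (x - x0)])
    exact (mul_le_of_le_one_left (norm_nonneg (D2 u x)) h2).trans h1
  have hle : ∀ x ∈ ball x0 R, (R - ‖x - x0‖) ^ 2 * ‖D2 u x‖ ≤ sSup T := fun x hx =>
    le_csSup hbdd ⟨x, hx, rfl⟩
  have key : ∀ (x : EE n) (s : ℝ), 0 < s → ‖x - x0‖ + 2 * s ≤ R →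
      C2A a (1 / 8 * sSup T + C * (N + S)) (closedBall 0 (3 / 8)) fun y => u (x + s • y) := by
    intro x s hs hx
    have hz : ∀ z ∈ closedBall x s, ‖z - x0‖ + s ≤ R := fun z hz => by
      rw [mem_closedBall, dist_eq_norm] at hz
      linarith [norm_sub_le_norm_sub_add_norm_sub z x x0]
    have hsub : closedBall x s ⊆ ball x0 R := fun z h1 => by
      rw [mem_ball, dist_eq_norm]; linarith [hz z h1]
    refine H _ τ β c u f N S isOpen_ball h x s _ hs (by linarith [norm_nonneg (x - x0)]) hsub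
      fun z h1 => le_trans ?_ (hle z (hsub h1))
    exact mul_le_mul_of_nonneg_right (pow_le_pow_left₀ hs.le (by linarith [hz z h1]) 2)
      (norm_nonneg (D2 u z))
  have hW : sSup T ≤ 8 * (C * (N + S)) := by
    have h1 : sSup T ≤ 4 * (1 / 8 * sSup T + C * (N + S)) := by
      refine csSup_le ⟨_, x0, hx0, rfl⟩ ?_
      rintro _ ⟨x, hx, rfl⟩
      rw [mem_ball, dist_eq_norm] at hx
      have h2 := (key x ((R - ‖x - x0‖) / 2) (by linarith) (by linarith)).h2.bdd 0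
        (mem_closedBall_self (by norm_num))
      have h3 := D2_aff u x ((R - ‖x - x0‖) / 2) 0
      unfold D2 at h3
      rw [h3, R273.SchC_152.nsm, abs_of_nonneg (by positivity), smul_zero, add_zero] at h2
      unfold D2
      linarith
    linarith
  have hloc : ∀ x ∈ ball x0 r,
      CKA a (ball x (3 / 8 * ρ)) 2 (ρ⁻¹ ^ (2 + 1) * (2 * C * (N + S))) u := by
    intro x hx
    rw [mem_ball, dist_eq_norm] at hx
    have h1 := ((key x ρ hρ0 (by rw [hρ]; linarith)).mono (Q' := 2 * C * (N + S))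
      (by linarith)).subset ball_subset_closedBall
    have h2 : ball (0 : EE n) (3 / 8) ⊆ (fun y => x + ρ • y) ⁻¹' ball x0 R := fun y hy => by
      rw [mem_ball, dist_zero_right] at hy
      rw [mem_preimage, mem_ball, dist_eq_norm, add_sub_right_comm]
      refine (norm_add_le _ _).trans_lt ?_
      rw [norm_smul, Real.norm_of_nonneg hρ0.le]
      have : ρ * ‖y‖ ≤ ρ := mul_le_of_le_one_right hρ0.le (by linarith)
      linarith
    have h3 := CKA.of_c2a isOpen_ball (((hW0.dilate isOpen_ball ha.le ha1.le x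
      (r := ρ) (by rwa [abs_of_pos hρ0])).subset h2).contDiffOn_two isOpen_ball ha) h1
    have h4 := h3.affine isOpen_ball ha.le ha1.le (-(ρ⁻¹ • x)) (r := ρ⁻¹) (L := ρ⁻¹)
      (abs_of_pos (inv_pos.2 hρ0)).le ((one_le_inv₀ hρ0).2 hρ1)
    refine (h4.subset fun z hz => ?_).congr isOpen_ball fun z _ => ?_
    · rw [mem_ball, dist_eq_norm] at hz
      rw [mem_preimage, mem_ball, dist_zero_right, neg_add_eq_sub, ← smul_sub, norm_smul,
        Real.norm_of_nonneg (inv_pos.2 hρ0).le, inv_mul_lt_iff₀ hρ0]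
      linarith
    · rw [neg_add_eq_sub, ← smul_sub, smul_smul, mul_inv_cancel₀ hρ0.ne', one_smul,
        add_sub_cancel]
  exact (CKA.of_local ha.le ha1.le (by positivity) (by linarith) hloc).mono (le_of_eq (by ring))

end

end Crest.Agent.NLib.Ell
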