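import Crest.Agent.NLib.Ell.Arzela

/-!
# The global linear problem `τ : D²z - z = f` (helper16)

`gSch` (global Schauder estimate), `solve` (continuity method), `sol_unique`, `sol_periodic`.
-/

set_option autoImplicit false
open MeasureTheory Metric Set Filter Topology
open scoped ContDiff

namespace Crest.Agent.NLib.Ell

open Crest.Agent.R238.Sch Crest.Agent.R273.SchA_152 Crest.Agent.R273.SchD_152
open Crest.Agent.R273.SchB_152 (P2 ell_conv)
open Crest.Agent.R238 (Ell)

noncomputable section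

variable {n : ℕ}

theorem hb_of_ho {X F : Type} [NormedAddCommGroup X] [NormedAddCommGroup F] {a M : ℝ} {r : X → F}
    (h : HO a M univ r) : HB a M r :=
  ⟨fun x => h.bdd x trivial, fun x y => h.hol x trivial y trivial⟩

/-- local to global -/
theorem ho_glob {X F : Type} [NormedAddCommGroup X] [NormedAddCommGroup F] {a Q : ℝ}
    (ha : 0 ≤ a) (ha1 : a ≤ 1) {r : X → F} (h : ∀ c, HO a Q (closedBall c (1 / 2)) r) :
    HO a (4 * Q) univ r := by
  have hb : ∀ x, ‖r x‖ ≤ Q := fun x => (h x).bdd x (mem_closedBall_self (by norm_num))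
  have hQ : 0 ≤ Q := (norm_nonneg _).trans (hb 0)
  refine ⟨fun x _ => (hb x).trans (by linarith), fun x _ y _ => ?_⟩
  have hp : 0 ≤ ‖x - y‖ ^ a := Real.rpow_nonneg (norm_nonneg _) _
  rcases le_or_gt ‖x - y‖ (1 / 2) with hle | hgt
  · refine ((h y).hol x (by rwa [mem_closedBall, dist_eq_norm]) y
      (mem_closedBall_self (by norm_num))).trans ?_
    exact mul_le_mul_of_nonneg_right (by linarith) hp
  · have h1 : (1 / 2 : ℝ) ≤ ‖x - y‖ ^ a := by
      calc (1 / 2 : ℝ) = (1 / 2) ^ (1 : ℝ) := (Real.rpow_one _).symm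
        _ ≤ (1 / 2) ^ a := Real.rpow_le_rpow_of_exponent_ge (by norm_num) (by norm_num) ha1
        _ ≤ _ := Real.rpow_le_rpow (by norm_num) hgt.le ha
    have h2 := (norm_sub_le (r x) (r y)).trans (add_le_add (hb x) (hb y))
    nlinarith

theorem c2a_glob {a Q : ℝ} (ha : 0 ≤ a) (ha1 : a ≤ 1) {z : EE n → ℝ}
    (h : ∀ c, C2A a Q (closedBall c (1 / 2)) z) : C2A a (4 * Q) univ z :=
  ⟨ho_glob ha ha1 fun c => (h c).h0, ho_glob ha ha1 fun c => (h c).h1,
    ho_glob ha ha1 fun c => (h c).h2⟩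

theorem gSch (hM : MaxPStmt) : GSchStmt := by
  intro n a lo hi M ha ha1 hlo hlohi
  obtain ⟨C0, hC0, H⟩ := int_schauder_on n ha ha1 hlo hlohi M one_pos le_rfl
  obtain ⟨C1, hC1, I⟩ := interp (n := n) (r := 1) (ε := 1 / (8 * C0)) ha ha1.le zero_le_one
    (by positivity)
  refine ⟨8 * C0 * (2 + C1), by positivity, fun τ z N hell hτ hz hV hN => ?_⟩
  obtain ⟨V, hV⟩ := hV
  have hz0 : ∀ x, |z x| ≤ N := hM n lo hi hlo.le τ z N hell hz
    ⟨V, fun x => hV.h0.bdd x trivial⟩ fun x => hN.bdd x trivial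
  have step : ∀ W, HB a W (D2 z) → C2A a (4 * C0 * (2 + C1) * N + W / 2) univ z := by
    intro W hW
    have := c2a_glob (z := z) (Q := C0 * (N + (1 / (8 * C0) * W + C1 * N) + N)) ha.le ha1.le
      fun c => by
        have hL := (I z W N c hz hW fun x _ => hz0 x).1
        have h0 : HO a (1 / (8 * C0) * W + C1 * N) (closedBall c 1) z :=
          ⟨fun x hx => hL.h0 x hx, fun x hx y hy => hL.h1 x hx y hy⟩
        refine H c τ (fun x _ => hell x) (fun i j => (hτ i j).subset (subset_univ _)) univ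
          isOpen_univ (subset_univ _) z _ N hz.contDiffOn ⟨W, HO.of_hb hW⟩ ?_ fun x _ => hz0 x
        exact ((hN.subset (subset_univ _)).add h0).congr fun x _ => by ring
    refine this.mono (le_of_eq ?_)
    field_simp
    ring
  have hD := HB.absorb (hb_of_ho hV.h2) fun W hW => hb_of_ho (step W hW).h2
  exact (step _ hD).mono (le_of_eq (by ring))

/-! ### algebra of `D2`, `P2`, `C2A` -/

theorem diff_fderiv {z : EE n → ℝ} (hz : ContDiff ℝ 2 z) : Differentiable ℝ (fderiv ℝ z) :=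
  (hz.fderiv_right (m := 1) (by norm_num)).differentiable (by norm_num)

theorem fderiv_add_fun {z w : EE n → ℝ} (hz : ContDiff ℝ 2 z) (hw : ContDiff ℝ 2 w) :
    fderiv ℝ (fun x => z x + w x) = fun x => fderiv ℝ z x + fderiv ℝ w x :=
  funext fun x => fderiv_fun_add (hz.differentiable (by norm_num) x)
    (hw.differentiable (by norm_num) x)

theorem D2_add_fun {z w : EE n → ℝ} (hz : ContDiff ℝ 2 z) (hw : ContDiff ℝ 2 w) (x : EE n) :
    D2 (fun x => z x + w x) x = D2 z x + D2 w x := by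
  unfold D2
  rw [fderiv_add_fun hz hw]
  exact fderiv_fun_add (diff_fderiv hz x) (diff_fderiv hw x)

theorem D2_neg_fun (z : EE n → ℝ) (x : EE n) : D2 (fun x => -z x) x = -D2 z x := by
  unfold D2
  have : fderiv ℝ (fun x => -z x) = fun x => -fderiv ℝ z x := funext fun x => fderiv_fun_neg
  rw [this, fderiv_fun_neg]

theorem P2_add_fun (τ : EE n → Matrix (Fin n) (Fin n) ℝ) {z w : EE n → ℝ} (hz : ContDiff ℝ 2 z)
    (hw : ContDiff ℝ 2 w) (x : EE n) : P2 τ (fun x => z x + w x) x = P2 τ z x + P2 τ w x := by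
  simp only [P2, D2_add_fun hz hw, ContinuousLinearMap.add_apply, mul_add, Finset.sum_add_distrib]

theorem P2_neg_fun (τ : EE n → Matrix (Fin n) (Fin n) ℝ) (z : EE n → ℝ) (x : EE n) :
    P2 τ (fun x => -z x) x = -P2 τ z x := by
  simp only [P2, D2_neg_fun, ContinuousLinearMap.neg_apply, mul_neg, Finset.sum_neg_distrib]

theorem P2_add_coef (τ σ : EE n → Matrix (Fin n) (Fin n) ℝ) (z : EE n → ℝ) (x : EE n) :
    P2 (fun x => τ x + σ x) z x = P2 τ z x + P2 σ z x := by
  simp only [P2, Matrix.add_apply, add_mul, Finset.sum_add_distrib]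

theorem c2a_add {a P Q : ℝ} {s : Set (EE n)} {z w : EE n → ℝ} (hz : ContDiff ℝ 2 z)
    (hw : ContDiff ℝ 2 w) (h1 : C2A a P s z) (h2 : C2A a Q s w) :
    C2A a (P + Q) s fun x => z x + w x := by
  refine ⟨h1.h0.add h2.h0, ?_, ?_⟩
  · rw [fderiv_add_fun hz hw]; exact h1.h1.add h2.h1
  · exact (h1.h2.add h2.h2).congr fun x _ => D2_add_fun hz hw x

theorem ho_P2 {a δ V : ℝ} {σ : EE n → Matrix (Fin n) (Fin n) ℝ} {w : EE n → ℝ}
    (hσ : ∀ i j, HO a δ univ fun x => σ x i j) (hw : C2A a V univ w) :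
    HO a ((n : ℝ) ^ 2 * (2 * (δ * V))) univ (P2 σ w) :=
  HO.of_hb (HB.sum_sq fun i j => (hb_of_ho (hσ i j)).mul ((hb_of_ho hw.h2).entry i j))

/-- approximate solutions with a uniform bound give a solution -/
theorem sol_of_approx {a V : ℝ} (ha : 0 < a) (τ : EE n → Matrix (Fin n) (Fin n) ℝ)
    {f : EE n → ℝ} (z : ℕ → EE n → ℝ) (hz : ∀ k, ContDiff ℝ 2 (z k))
    (hV : ∀ k, C2A a V univ (z k))
    (hl : ∀ x, Tendsto (fun k => P2 τ (z k) x - z k x) atTop (𝓝 (f x))) :
    ∃ g : EE n → ℝ, ContDiff ℝ 2 g ∧ C2A a V univ g ∧ ∀ x, P2 τ g x - g x = f x := by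
  obtain ⟨ψ, g, hψ, hg, hC, l0, -, l2⟩ := arzela2 n a V ha z hz hV
  refine ⟨g, hg, hC, fun x => tendsto_nhds_unique ?_ ((hl x).comp hψ.tendsto_atTop)⟩
  refine Tendsto.sub ?_ (tlu_tendsto l0 x)
  refine tendsto_finset_sum _ fun i _ => tendsto_finset_sum _ fun j _ => Tendsto.const_mul _ ?_
  have hc : Continuous fun B : EE n →L[ℝ] EE n →L[ℝ] ℝ => B (ee i) (ee j) := by fun_prop
  exact (hc.tendsto _).comp (tlu_tendsto l2 x)

/-- solvability for all Hölder right hand sides -/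
def Solv (a : ℝ) (τ : EE n → Matrix (Fin n) (Fin n) ℝ) : Prop :=
  ∀ (f : EE n → ℝ) (N : ℝ), HO a N univ f →
    ∃ z : EE n → ℝ, ContDiff ℝ 2 z ∧ (∃ V, C2A a V univ z) ∧ ∀ x, P2 τ z x - z x = f x

theorem c2a_zero {a : ℝ} : C2A a 0 univ fun _ : EE n => (0 : ℝ) := by
  refine ⟨HO.of_hb (HB.zero le_rfl), ?_, ?_⟩
  · exact (HO.of_hb (HB.zero le_rfl)).congr fun x _ => by simp
  · exact (HO.of_hb (HB.zero le_rfl)).congr fun x _ => by simp

/-- one step of the continuity method -/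
theorem Solv.perturb {a C δ : ℝ} (ha : 0 < a) (hC : 0 ≤ C)
    {τ σ : EE n → Matrix (Fin n) (Fin n) ℝ} (hS : Solv a τ)
    (hE : ∀ (z : EE n → ℝ) (N : ℝ), ContDiff ℝ 2 z → (∃ V, C2A a V univ z) →
      HO a N univ (fun x => P2 τ z x - z x) → C2A a (C * N) univ z)
    (hσ : ∀ i j, HO a δ univ fun x => σ x i j) (hδ : (n : ℝ) ^ 2 * (2 * (δ * C)) ≤ 1 / 2) :
    Solv a fun x => τ x + σ x := by
  intro f N hN
  have hN0 : 0 ≤ N := hN.nonneg (mem_univ 0)
  have key : ∀ m : ℕ, ∃ z : EE n → ℝ, ContDiff ℝ 2 z ∧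
      C2A a (2 * C * N * (1 - (1 / 2) ^ m)) univ z ∧
      HO a (N * (1 / 2) ^ m) univ fun x => f x - (P2 (fun x => τ x + σ x) z x - z x) := by
    intro m
    induction m with
    | zero =>
      refine ⟨fun _ => 0, contDiff_const, by simpa using c2a_zero, ?_⟩
      refine (hN.mono (by simp)).congr fun x _ => ?_
      simp [P2, D2]
    | succ m ih =>
      obtain ⟨z, hz, hzC, hr⟩ := ih
      obtain ⟨w, hw, hwV, hwe⟩ := hS _ _ hr
      have hwC := hE w _ hw hwV (hr.congr fun x _ => hwe x)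
      refine ⟨fun x => z x + w x, hz.add hw, (c2a_add hz hw hzC hwC).mono (le_of_eq (by ring)), ?_⟩
      refine ((ho_P2 hσ hwC).neg.mono ?_).congr fun x _ => ?_
      · have : 0 ≤ N * (1 / 2) ^ m := by positivity
        calc (n : ℝ) ^ 2 * (2 * (δ * (C * (N * (1 / 2) ^ m))))
            = (n : ℝ) ^ 2 * (2 * (δ * C)) * (N * (1 / 2) ^ m) := by ring
          _ ≤ 1 / 2 * (N * (1 / 2) ^ m) := mul_le_mul_of_nonneg_right hδ this
          _ = _ := by ring
      · have := hwe x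
        rw [P2_add_fun _ hz hw, P2_add_coef τ σ w]
        linarith
  choose z hz hzC hr using key
  obtain ⟨g, hg, hgC, hge⟩ := sol_of_approx (V := 2 * C * N) (f := f) ha (fun x => τ x + σ x) z hz
    (fun k => (hzC k).mono (by
      have : 0 ≤ 2 * C * N * (1 / 2) ^ k := by positivity
      linarith))
    fun x => by
      have h0 : Tendsto (fun k : ℕ => N * (1 / 2 : ℝ) ^ k) atTop (𝓝 0) := by
        simpa using (tendsto_pow_atTop_nhds_zero_of_lt_one (r := (1 / 2 : ℝ)) (by norm_num)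
          (by norm_num)).const_mul N
      have h1 := squeeze_zero_norm (fun k => (hr k).bdd x trivial) h0
      simpa using h1.const_sub (f x)
  exact ⟨g, hg, ⟨_, hgC⟩, hge⟩

theorem ell_mono {lo hi lo' hi' : ℝ} {A : Matrix (Fin n) (Fin n) ℝ} (h : Ell lo hi A)
    (h1 : lo' ≤ lo) (h2 : hi ≤ hi') : Ell lo' hi' A := by
  refine ⟨h.1, fun z => ?_⟩
  have hz : 0 ≤ ∑ i, z i ^ 2 := Finset.sum_nonneg fun i _ => sq_nonneg _
  exact ⟨(mul_le_mul_of_nonneg_right h1 hz).trans (h.2 z).1,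
    (h.2 z).2.trans (mul_le_mul_of_nonneg_right h2 hz)⟩

theorem ell_one : Ell 1 1 (1 : Matrix (Fin n) (Fin n) ℝ) := by
  refine ⟨fun i j => by simp [Matrix.one_apply, eq_comm], fun z => ?_⟩
  simp [Matrix.one_apply, sq]

theorem ho_const_mul {X : Type} [NormedAddCommGroup X] {a M : ℝ} {s : Set X} {r : X → ℝ}
    (h : HO a M s r) (c : ℝ) : HO a (|c| * M) s fun x => c * r x where
  bdd x hx := by
    rw [norm_mul]; exact mul_le_mul_of_nonneg_left (h.bdd x hx) (abs_nonneg c)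
  hol x hx y hy := by
    rw [← mul_sub, norm_mul, mul_assoc]
    exact mul_le_mul_of_nonneg_left (h.hol x hx y hy) (abs_nonneg c)

theorem solve (hG : GSchStmt) (h0 : Solve0Stmt) : SolveStmt := by
  intro n a lo hi M ha ha1 hlo hlohi τ f N hell hτ hN
  obtain ⟨C, hC, hE⟩ := hG n a (min lo 1) (max hi 1) (|M| + 2) ha ha1 (by positivity)
    ((min_le_right _ _).trans (le_max_right _ _))
  have hσ : ∀ i j, HO a (|M| + 1) univ fun x => τ x i j - (1 : Matrix (Fin n) (Fin n) ℝ) i j := by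
    intro i j
    refine (((hτ i j).add (HO.of_hb (HB.const (-(1 : Matrix (Fin n) (Fin n) ℝ) i j)))).mono
      (add_le_add (le_abs_self M) ?_)).congr fun x _ => by ring
    rw [norm_neg, Matrix.one_apply]
    split_ifs <;> simp
  obtain ⟨K, hK⟩ := exists_nat_ge (4 * (n : ℝ) ^ 2 * (|M| + 1) * C + 1)
  have hK0 : (0 : ℝ) < K := lt_of_lt_of_le (by positivity) hK
  have key : ∀ m : ℕ, m ≤ K →
      Solv a fun x => (1 : Matrix (Fin n) (Fin n) ℝ) + ((m : ℝ) / K) • (τ x - 1) := by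
    intro m
    induction m with
    | zero => intro _; simpa [Solv] using h0 n a ha ha1
    | succ m ih =>
      intro hm
      have hm0 : (0 : ℝ) ≤ m / K := by positivity
      have hm1 : (m : ℝ) / K ≤ 1 := by
        rw [div_le_one hK0]; exact_mod_cast (Nat.le_succ m).trans hm
      have h := (ih ((Nat.le_succ m).trans hm)).perturb (δ := |1 / (K : ℝ)| * (|M| + 1))
        (σ := fun x => (1 / (K : ℝ)) • (τ x - 1)) ha hC.le
        (fun z N => hE _ z N (fun x => ?_) fun i j => ?_)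
        (fun i j => (ho_const_mul (hσ i j) _).congr fun x _ => by simp) ?_
      · convert h using 2 with x
        push_cast
        rw [add_div, add_smul, add_assoc]
      · have := ell_conv (ell_mono (hell x) (min_le_left lo 1) (le_max_left hi 1))
          (ell_mono ell_one (min_le_right lo 1) (le_max_right hi 1)) hm0 hm1
        convert this using 1
        rw [smul_sub, sub_smul, one_smul]
        abel
      · refine (((HO.of_hb (HB.const ((1 : Matrix (Fin n) (Fin n) ℝ) i j))).add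
          (ho_const_mul (hσ i j) (m / K))).mono ?_).congr fun x _ => by simp
        have h1 : ‖(1 : Matrix (Fin n) (Fin n) ℝ) i j‖ ≤ 1 := by
          rw [Matrix.one_apply]
          split_ifs <;> simp
        rw [abs_of_nonneg hm0]
        have := mul_le_mul_of_nonneg_right hm1 (by positivity : 0 ≤ |M| + 1)
        linarith
      · rw [abs_of_pos (by positivity)]
        have e : (n : ℝ) ^ 2 * (2 * (1 / K * (|M| + 1) * C))
            = (4 * (n : ℝ) ^ 2 * (|M| + 1) * C) / K * (1 / 2) := by ring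
        rw [e]
        have : (4 * (n : ℝ) ^ 2 * (|M| + 1) * C) / K ≤ 1 := by
          rw [div_le_one hK0]; linarith
        linarith
  have := key K le_rfl f N hN
  simpa [div_self hK0.ne'] using this

/-- uniqueness of bounded solutions -/
theorem sol_unique (hM : MaxPStmt) {lo hi : ℝ} (hlo : 0 ≤ lo)
    {τ : EE n → Matrix (Fin n) (Fin n) ℝ} (hell : ∀ x, Ell lo hi (τ x)) {z w : EE n → ℝ}
    (hz : ContDiff ℝ 2 z) (hw : ContDiff ℝ 2 w) (bz : ∃ B, ∀ x, |z x| ≤ B)
    (bw : ∃ B, ∀ x, |w x| ≤ B) (h : ∀ x, P2 τ z x - z x = P2 τ w x - w x) : z = w := by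
  obtain ⟨B, hB⟩ := bz
  obtain ⟨B', hB'⟩ := bw
  have := hM n lo hi hlo τ (fun x => z x + -w x) 0 hell (hz.add hw.neg)
    ⟨B + B', fun x => (abs_add_le _ _).trans (add_le_add (hB x) (by rw [abs_neg]; exact hB' x))⟩
    fun x => by
      rw [P2_add_fun τ hz hw.neg, P2_neg_fun]
      have := h x
      rw [abs_nonpos_iff]
      linarith
  funext x
  have := abs_nonpos_iff.1 (this x)
  linarith

theorem D2_comp_add (z : EE n → ℝ) (p x : EE n) : D2 (fun y => z (y + p)) x = D2 z (x + p) := by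
  unfold D2
  have : fderiv ℝ (fun y => z (y + p)) = fun y => fderiv ℝ z (y + p) :=
    funext fun y => fderiv_comp_add_right p
  rw [this, fderiv_comp_add_right p]

/-- periodic data give periodic solutions -/
theorem sol_periodic (hM : MaxPStmt) {lo hi : ℝ} (hlo : 0 ≤ lo)
    {τ : EE n → Matrix (Fin n) (Fin n) ℝ} (hell : ∀ x, Ell lo hi (τ x)) {z f : EE n → ℝ}
    (hz : ContDiff ℝ 2 z) (bz : ∃ B, ∀ x, |z x| ≤ B) (h : ∀ x, P2 τ z x - z x = f x) {p : EE n}
    (hτ : ∀ x, τ (x + p) = τ x) (hf : ∀ x, f (x + p) = f x) (x : EE n) : z (x + p) = z x := by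
  obtain ⟨B, hB⟩ := bz
  refine congrFun (sol_unique hM hlo hell (z := fun y => z (y + p))
    (hz.comp (contDiff_id.add contDiff_const)) hz ⟨B, fun y => hB _⟩ ⟨B, hB⟩ fun y => ?_) x
  rw [h y, ← hf y, ← h (y + p)]
  simp only [P2, D2_comp_add, hτ]

end

end Crest.Agent.NLib.Ell
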