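import Crest.Agent.NLib.Ell.Solve

/-!
# Solvability of `Δ z - z = f` for Hölder `f` (helper16)

Schwartz data: Fourier multiplier.  General data: cut off, mollify, pass to the limit.
-/

set_option autoImplicit false
open MeasureTheory Metric Set Filter Topology
open scoped ContDiff SchwartzMap Convolution Laplacian FourierTransform

namespace Crest.Agent.NLib.Ell

open Crest.Agent.R238.Sch Crest.Agent.R273.SchA_152 Crest.Agent.R273.SchD_152
open Crest.Agent.R273.SchB_152 (P2)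
open Crest.Agent.R238 (Ell)

noncomputable section

variable {n : ℕ}

theorem exists_schwartz_sol (F : 𝓢(EE n, ℂ)) : ∃ Z : 𝓢(EE n, ℂ), Δ Z - Z = F := by
  let m : EE n → ℝ := fun ξ => -(1 + ‖(2 * Real.pi) • ξ‖ ^ 2) ^ (-1 : ℝ)
  have hm : m.HasTemperateGrowth :=
    ((Function.hasTemperateGrowth_one_add_norm_sq_rpow (EE n) (-1)).comp
      ((2 * Real.pi) • ContinuousLinearMap.id ℝ (EE n)).hasTemperateGrowth).neg
  have hn : (fun ξ : EE n => ‖ξ‖ ^ 2).HasTemperateGrowth := by fun_prop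
  refine ⟨SchwartzMap.fourierMultiplierCLM ℂ m F, ?_⟩
  rw [SchwartzMap.laplacian_eq_fourierMultiplierCLM,
    SchwartzMap.fourierMultiplierCLM_fourierMultiplierCLM_apply hn hm,
    ← ContinuousLinearMap.smul_apply, ← SchwartzMap.fourierMultiplierCLM_smul (hn.mul hm)]
  have h2 : ∀ i ∈ (Finset.univ : Finset (Fin 2)),
      (![-(2 * Real.pi) ^ 2 • ((fun ξ : EE n => ‖ξ‖ ^ 2) * m), (-1 : ℝ) • m] i).HasTemperateGrowth := by
    intro i _
    fin_cases i
    · exact (Function.HasTemperateGrowth.const _).mul (hn.mul hm)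
    · exact (Function.HasTemperateGrowth.const _).mul hm
  have h3 := SchwartzMap.fourierMultiplierCLM_sum ℂ h2
  have h4 : (fun ξ : EE n => ∑ i ∈ (Finset.univ : Finset (Fin 2)),
      (![-(2 * Real.pi) ^ 2 • ((fun ξ : EE n => ‖ξ‖ ^ 2) * m), (-1 : ℝ) • m] i) ξ)
      = fun _ => (1 : ℝ) := by
    funext ξ
    have hp : 0 < 1 + ‖(2 * Real.pi) • ξ‖ ^ 2 := by positivity
    have e : ‖(2 * Real.pi) • ξ‖ ^ 2 = (2 * Real.pi) ^ 2 * ‖ξ‖ ^ 2 := by
      rw [norm_smul, mul_pow, Real.norm_eq_abs, sq_abs]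
    simp only [Fin.sum_univ_two, Matrix.cons_val_zero, Matrix.cons_val_one, Pi.smul_apply,
      Pi.mul_apply, smul_eq_mul, m, Real.rpow_neg_one]
    rw [e] at hp ⊢
    field_simp
    ring
  rw [h4, SchwartzMap.fourierMultiplierCLM_const, Fin.sum_univ_two] at h3
  simp only [Matrix.cons_val_zero, Matrix.cons_val_one] at h3
  rw [SchwartzMap.fourierMultiplierCLM_smul hm] at h3
  have h5 := congrArg (fun L => L F) h3
  simp only [one_smul, ContinuousLinearMap.id_apply, ContinuousLinearMap.add_apply,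
    neg_smul (1 : ℝ), ContinuousLinearMap.neg_apply] at h5
  rw [sub_eq_add_neg]
  exact h5.symm

theorem P2_one_eq (z : EE n → ℝ) (x : EE n) : P2 (fun _ => 1) z x = Δ z x := by
  rw [InnerProductSpace.laplacian_eq_iteratedFDeriv_orthonormalBasis z
    (EuclideanSpace.basisFun (Fin n) ℝ)]
  simp [P2, Matrix.one_apply, iteratedFDeriv_two_apply, D2, ee]

/-- bounded with bounded derivative implies Hölder -/
theorem hb_of_fderiv {F : Type} [NormedAddCommGroup F] [NormedSpace ℝ F] {f : EE n → F} {a B0 B1 : ℝ}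
    (ha : 0 < a) (ha1 : a ≤ 1) (hf : Differentiable ℝ f) (hB0 : ∀ x, ‖f x‖ ≤ B0)
    (hB1 : ∀ x, ‖fderiv ℝ f x‖ ≤ B1) : HB a (2 * B0 + B1) f := by
  have h0 : 0 ≤ B0 := (norm_nonneg _).trans (hB0 0)
  have h1 : 0 ≤ B1 := le_trans (norm_nonneg (fderiv ℝ f 0)) (hB1 0)
  refine ⟨fun x => (hB0 x).trans (by linarith), fun x y => ?_⟩
  have hlip : ‖f x - f y‖ ≤ B1 * ‖x - y‖ :=
    (convex_univ : Convex ℝ (univ : Set (EE n))).norm_image_sub_le_of_norm_fderiv_le
      (fun w _ => hf w) (fun w _ => hB1 w) (mem_univ y) (mem_univ x)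
  have hb : ‖f x - f y‖ ≤ 2 * B0 := by
    have := norm_sub_le (f x) (f y)
    linarith [hB0 x, hB0 y]
  have hp : 0 ≤ ‖x - y‖ ^ a := Real.rpow_nonneg (norm_nonneg _) _
  rcases le_total ‖x - y‖ 1 with h | h
  · have h2 : ‖x - y‖ ≤ ‖x - y‖ ^ a := by
      rcases (norm_nonneg (x - y)).eq_or_lt with h0' | h0'
      · rw [← h0']; exact Real.rpow_nonneg le_rfl _
      · calc ‖x - y‖ = ‖x - y‖ ^ (1 : ℝ) := (Real.rpow_one _).symm
          _ ≤ ‖x - y‖ ^ a := Real.rpow_le_rpow_of_exponent_ge h0' h ha1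
    nlinarith [mul_nonneg h0 hp, mul_le_mul_of_nonneg_left h2 h1]
  · have h2 : 1 ≤ ‖x - y‖ ^ a := Real.one_le_rpow h ha.le
    nlinarith [mul_nonneg h1 hp]

theorem c2a_schwartz {a : ℝ} (ha : 0 < a) (ha1 : a ≤ 1) (z : 𝓢(EE n, ℝ)) :
    ∃ V, C2A a V univ z := by
  have hb : ∀ {F : Type} [NormedAddCommGroup F] [NormedSpace ℝ F] (w : 𝓢(EE n, F)),
      ∃ V, HB a V w := by
    intro F _ _ w
    obtain ⟨B0, -, h0⟩ := w.decay 0 0
    obtain ⟨B1, -, h1⟩ := w.decay 0 1
    exact ⟨_, hb_of_fderiv (B0 := B0) (B1 := B1) ha ha1 w.differentiable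
      (fun x => by simpa using h0 x) fun x => by simpa [norm_iteratedFDeriv_one] using h1 x⟩
  obtain ⟨V0, h0⟩ := hb z
  obtain ⟨V1, h1⟩ := hb (SchwartzMap.fderivCLM ℝ _ _ z)
  obtain ⟨V2, h2⟩ := hb (SchwartzMap.fderivCLM ℝ _ _ (SchwartzMap.fderivCLM ℝ _ _ z))
  have e1 : (SchwartzMap.fderivCLM ℝ _ _ z : EE n → _) = fderiv ℝ z := by
    funext x; simp
  have e2 : (SchwartzMap.fderivCLM ℝ _ _ (SchwartzMap.fderivCLM ℝ _ _ z) : EE n → _)
      = fderiv ℝ (fderiv ℝ z) := by
    funext x; rw [SchwartzMap.fderivCLM_apply, e1]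
  rw [e1] at h1
  rw [e2] at h2
  have := h0.nonneg
  have := h1.nonneg
  have := h2.nonneg
  exact ⟨V0 + V1 + V2, HO.of_hb (h0.mono (by linarith)), HO.of_hb (h1.mono (by linarith)),
    HO.of_hb (h2.mono (by linarith))⟩

/-- solvability for one right hand side -/
def Sol1 (a : ℝ) (f : EE n → ℝ) : Prop :=
  ∃ z : EE n → ℝ, ContDiff ℝ 2 z ∧ (∃ V, C2A a V univ z) ∧ ∀ x, P2 (fun _ => 1) z x - z x = f x

theorem sol1_test {a : ℝ} (ha : 0 < a) (ha1 : a ≤ 1) {f : EE n → ℝ} (hf : ContDiff ℝ ∞ f)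
    (hc : HasCompactSupport f) : Sol1 a f := by
  obtain ⟨Z, hZ⟩ := exists_schwartz_sol
    (SchwartzMap.postcompCLM Complex.ofRealCLM (hc.toSchwartzMap hf))
  let z : 𝓢(EE n, ℝ) := SchwartzMap.postcompCLM Complex.reCLM Z
  refine ⟨z, z.smooth 2, c2a_schwartz ha ha1 z, fun x => ?_⟩
  have h1 := congrArg (fun W : 𝓢(EE n, ℂ) => (W x).re) hZ
  have h2 : Δ (z : EE n → ℝ) x = (Δ Z x).re := by
    rw [SchwartzMap.laplacian_apply]
    exact (Z.smooth 2).contDiffAt.laplacian_CLM_comp_left (l := Complex.reCLM)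
  rw [P2_one_eq, h2]
  simpa [z] using h1

theorem sol1_lim (hG : GSchStmt) {a N : ℝ} (ha : 0 < a) (ha1 : a < 1) {f : EE n → ℝ}
    (g : ℕ → EE n → ℝ) (hg : ∀ k, Sol1 a (g k)) (hN : ∀ k, HO a N univ (g k))
    (hl : ∀ x, Tendsto (fun k => g k x) atTop (𝓝 (f x))) : Sol1 a f := by
  obtain ⟨C, -, hE⟩ := hG n a 1 1 1 ha ha1 one_pos le_rfl
  choose z hz hV he using hg
  obtain ⟨w, hw, hC, hwe⟩ := sol_of_approx (V := C * N) (f := f) ha (fun _ => 1) z hz
    (fun k => hE _ _ N (fun _ => ell_one) (fun i j => (HO.of_hb (HB.const _)).mono (by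
      rw [Matrix.one_apply]; split_ifs <;> simp)) (hz k) (hV k) ((hN k).congr fun x _ => he k x))
    fun x => by simpa only [he] using hl x
  exact ⟨w, hw, ⟨_, hC⟩, hwe⟩

/-- mollification keeps Hölder bounds -/
theorem hb_mollify {a N : ℝ} {f : EE n → ℝ} (hc : Continuous f) (hf : HB a N f)
    (φ : ContDiffBump (0 : EE n)) :
    HB a N (φ.normed volume ⋆[ContinuousLinearMap.lsmul ℝ ℝ, volume] f) := by
  have hi : ∀ x, Integrable fun t => φ.normed volume t • f (x - t) := fun x =>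
    (φ.continuous_normed.smul (hc.comp (continuous_const.sub continuous_id))).integrable_of_hasCompactSupport
      φ.hasCompactSupport_normed.smul_right
  have key : ∀ (g : EE n → ℝ) (B : ℝ), (∀ t, ‖g t‖ ≤ B) →
      ‖∫ t, φ.normed volume t • g t‖ ≤ B := by
    intro g B hB
    calc ‖∫ t, φ.normed volume t • g t‖ ≤ ∫ t, φ.normed volume t * B := by
          refine norm_integral_le_of_norm_le (φ.integrable_normed.mul_const B)
            (Eventually.of_forall fun t => ?_)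
          rw [norm_smul, Real.norm_of_nonneg (φ.nonneg_normed t)]
          exact mul_le_mul_of_nonneg_left (hB t) (φ.nonneg_normed t)
      _ = B := by rw [integral_mul_const, φ.integral_normed, one_mul]
  refine ⟨fun x => key _ _ fun t => hf.bdd _, fun x y => ?_⟩
  rw [convolution_lsmul, convolution_lsmul, ← integral_sub (hi x) (hi y)]
  simp only [← smul_sub]
  refine key _ _ fun t => ?_
  simpa using hf.hol (x - t) (y - t)

theorem continuous_of_hb {X F : Type} [NormedAddCommGroup X] [NormedAddCommGroup F] {a N : ℝ}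
    (ha : 0 < a) {f : X → F} (hf : HB a N f) : Continuous f :=
  continuous_of_modulus (tendsto_holder ha N) hf.hol

theorem sol1_cpt (hG : GSchStmt) {a N : ℝ} (ha : 0 < a) (ha1 : a < 1) {f : EE n → ℝ}
    (hf : HB a N f) (hc : HasCompactSupport f) : Sol1 a f := by
  have hcont := continuous_of_hb ha hf
  let φ : ℕ → ContDiffBump (0 : EE n) := fun k =>
    ⟨1 / ((k : ℝ) + 1) / 2, 1 / ((k : ℝ) + 1), by positivity, half_lt_self (by positivity)⟩
  refine sol1_lim hG ha ha1
    (fun k => (φ k).normed volume ⋆[ContinuousLinearMap.lsmul ℝ ℝ, volume] f)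
    (fun k => sol1_test ha ha1.le
      ((φ k).hasCompactSupport_normed.contDiff_convolution_left _ (φ k).contDiff_normed
        hcont.locallyIntegrable)
      ((φ k).hasCompactSupport_normed.convolution _ hc))
    (fun k => HO.of_hb (hb_mollify hcont hf (φ k))) fun x => ?_
  exact ContDiffBump.convolution_tendsto_right_of_continuous
    tendsto_one_div_add_atTop_nhds_zero_nat hcont x

theorem solve0' (hG : GSchStmt) : Solve0Stmt := by
  intro n a ha ha1 f N hN
  let χ : ContDiffBump (0 : EE n) := ⟨1, 2, one_pos, one_lt_two⟩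
  obtain ⟨X, hX⟩ := HB.of_compactSupport (f := χ) ha ha1.le χ.contDiff χ.hasCompactSupport
  have hs : ∀ k : ℕ, HB a X fun x : EE n => χ ((1 / ((k : ℝ) + 1)) • x) := by
    intro k
    refine ⟨fun x => hX.bdd _, fun x y => (hX.hol _ _).trans ?_⟩
    refine mul_le_mul_of_nonneg_left (Real.rpow_le_rpow (norm_nonneg _) ?_ ha.le) hX.nonneg
    rw [← smul_sub, norm_smul, Real.norm_of_nonneg (by positivity)]
    refine mul_le_of_le_one_left (norm_nonneg _) ?_
    rw [div_le_one (by positivity)]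
    linarith [k.cast_nonneg (α := ℝ)]
  refine sol1_lim hG ha ha1 (fun k x => χ ((1 / ((k : ℝ) + 1)) • x) * f x)
    (fun k => sol1_cpt hG ha ha1 ((hs k).mul (hb_of_ho hN)) (HasCompactSupport.mul_right ?_))
    (fun k => HO.of_hb ((hs k).mul (hb_of_ho hN))) fun x => ?_
  · exact χ.hasCompactSupport.comp_smul (by positivity)
  · have h1 : Tendsto (fun k : ℕ => (1 / ((k : ℝ) + 1)) • x) atTop (𝓝 0) := by
      simpa using (tendsto_one_div_add_atTop_nhds_zero_nat (𝕜 := ℝ)).smul_const x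
    have h2 := (χ.continuous.tendsto 0).comp h1
    rw [χ.one_of_mem_closedBall (mem_closedBall_self zero_le_one)] at h2
    simpa using h2.mul_const (f x)

theorem solve0 (hG : GSchStmt) (_ : Arzela2Stmt) : Solve0Stmt := solve0' hG

/-- everything of T2 from the maximum principle -/
theorem solve_of_maxP (hM : MaxPStmt) : SolveStmt := solve (gSch hM) (solve0' (gSch hM))

end

end Crest.Agent.NLib.Ell
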